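import Crest.Agent.R153.Cnt

/-! Row 153: delays caused by constraints; pointwise combinatorics. -/

set_option autoImplicit false
open Finset Function
open scoped BigOperators Classical
open Crest.ProbabilityR.RandomSAT

namespace Crest.Agent.R153.A

variable {k n M : ℕ}

abbrev Om (k n M : ℕ) : Type := Fin M → Clause k n

/-- some assignment of `S` satisfies the active clauses before time `s` -/
def Al (S : Set (Fin n → Bool)) (A : Finset (Fin M)) (G : Om k n M) (s : Fin M) : Prop :=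
  ∃ σ ∈ S, ∀ i ∈ A, i < s → ClauseSat σ (G i)

def lit (ℓ : Fin n × Bool) : Set (Fin n → Bool) := {σ | σ ℓ.1 = ℓ.2}

/-- the clause with the variable `x` removed -/
def short (x : Fin n) (c : Clause k n) : Set (Fin n → Bool) :=
  {σ | ∃ a, c.1.1 a ≠ x ∧ σ (c.1.1 a) = c.2 a}

variable (j0 : ℕ) (W : Finset (Fin n)) (S K : Set (Fin n → Bool)) (A : Finset (Fin M))
  (G : Om k n M)

/-- the literals that are frozen to be false -/
noncomputable def Fz (s : Fin M) : Finset (Fin n × Bool) :=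
  univ.filter fun ℓ => ¬ Al (S ∩ lit ℓ) A G s

noncomputable def bb (s : Fin M) : ℕ := ((Fz S A G s).filter fun ℓ => ℓ.1 ∉ W).card

noncomputable def rem (s : Fin M) : ℝ := ∑ s', io (s ≤ s' ∧ Al S A G s')

noncomputable def DD : ℝ := ∑ s : Fin M, io ((j0 ≤ s ∧ ¬ Al (S ∩ K) A G s) ∧ Al S A G s)

noncomputable def Gm : ℝ :=
  ∑ s : Fin M, io ((j0 ≤ s ∧ ¬ Al (S ∩ K) A G s) ∧ Al S A G s) * rem S A G s

noncomputable def Ph : ℝ :=
  ∑ s : Fin M, io (j0 ≤ s ∧ Al S A G s) * rem S A G s * bb W S A G s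

noncomputable def Lam (t : ℝ) : ℝ :=
  ∑ s : Fin M, io ((j0 ≤ s ∧ t < bb W S A G s) ∧ Al S A G s)

lemma gam_le {u : Fin M → Prop} (a : Fin M → Prop) (hu : ∀ s s', s ≤ s' → u s → u s') :
    ∑ s, io (u s ∧ a s) * ∑ s', io (s ≤ s' ∧ a s') ≤ (∑ s, io (u s ∧ a s)) ^ 2 := by
  rw [sq, sum_mul]
  exact sum_le_sum fun s _ => io_mul_le fun h =>
    sum_le_sum fun s' _ => io_mono fun h' => ⟨hu _ _ h'.1 h.1, h'.2⟩

lemma sq_le_gam (e a : Fin M → Prop) (h : ∀ s, e s → a s) :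
    (∑ s, io (e s)) ^ 2 ≤ 2 * ∑ s, io (e s) * ∑ s', io (s ≤ s' ∧ a s') := by
  have h1 : (∑ s, io (e s)) ^ 2 ≤ ∑ s, ∑ s', (io (e s) * io (s ≤ s' ∧ a s') +
      io (e s') * io (s' ≤ s ∧ a s)) := by
    rw [sq, sum_mul_sum]
    refine sum_le_sum fun s _ => sum_le_sum fun s' _ => ?_
    have := io_nonneg (s ≤ s' ∧ a s')
    have := io_nonneg (s' ≤ s ∧ a s)
    by_cases h1 : e s
    · by_cases h2 : e s'
      · rw [io_pos h1, io_pos h2]
        rcases le_total s s' with h3 | h3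
        · rw [io_pos (p := s ≤ s' ∧ a s') ⟨h3, h _ h2⟩]; linarith
        · rw [io_pos (p := s' ≤ s ∧ a s) ⟨h3, h _ h1⟩]; linarith
      · rw [io_pos h1, io_neg h2]; linarith
    · rw [io_neg h1]
      have := mul_nonneg (io_nonneg (e s')) this
      linarith
  simp only [sum_add_distrib] at h1
  rw [sum_comm (f := fun s s' => io (e s') * io (s' ≤ s ∧ a s))] at h1
  simp only [← mul_sum] at h1
  linarith

variable {S K A G} in
lemma Al.mono {S' : Set (Fin n → Bool)} {A' : Finset (Fin M)} {s s' : Fin M} (h : Al S A G s)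
    (hS : S ⊆ S') (hA : A' ⊆ A) (hs : s' ≤ s) : Al S' A' G s' := by
  obtain ⟨σ, h1, h2⟩ := h
  exact ⟨σ, hS h1, fun i hi h => h2 i (hA hi) (h.trans_le hs)⟩

variable {A G} in
lemma Al_update {i : Fin M} {s : Fin M} (h : i ∉ A ∨ s ≤ i) (c : Clause k n) :
    Al S A (update G i c) s ↔ Al S A G s := by
  refine exists_congr fun σ => and_congr_right fun _ => forall_congr' fun i' =>
    forall_congr' fun h1 => forall_congr' fun h2 => ?_
  rw [update_of_ne]
  rintro rfl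
  exact h.elim (fun h => h h1) fun h => h2.not_ge h

lemma rem_nonneg (s : Fin M) : 0 ≤ rem S A G s := sum_nonneg fun _ _ => io_nonneg _

lemma rem_le (s : Fin M) : rem S A G s ≤ M :=
  (sum_le_sum fun _ _ => io_le_one _).trans (by simp)

lemma Gm_nonneg : 0 ≤ Gm j0 S K A G :=
  sum_nonneg fun _ _ => mul_nonneg (io_nonneg _) (rem_nonneg ..)

lemma DD_nonneg : 0 ≤ DD j0 S K A G := sum_nonneg fun _ _ => io_nonneg _

lemma Ph_nonneg : 0 ≤ Ph j0 W S A G :=
  sum_nonneg fun _ _ => mul_nonneg (mul_nonneg (io_nonneg _) (rem_nonneg ..)) (Nat.cast_nonneg _)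

lemma Gm_le : Gm j0 S K A G ≤ DD j0 S K A G ^ 2 :=
  gam_le (u := fun s : Fin M => j0 ≤ s ∧ ¬ Al (S ∩ K) A G s) _ fun _ _ h h' =>
    ⟨h'.1.trans h, fun h2 => h'.2 (h2.mono subset_rfl subset_rfl h)⟩

lemma DD_le : DD j0 S K A G ^ 2 ≤ 2 * Gm j0 S K A G := sq_le_gam _ _ fun _ h => h.2

variable {A} in
lemma Gm_update {i : Fin M} (h : i ∉ A) (c : Clause k n) :
    Gm j0 S K A (update G i c) = Gm j0 S K A G := by
  simp only [Gm, rem, Al_update _ (Or.inl h)]

lemma Ph_eq : Ph j0 W S A G = ∑ ℓ ∈ univ.filter (fun ℓ : Fin n × Bool => ℓ.1 ∉ W),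
    Gm j0 S (lit ℓ) A G := by
  simp only [Gm]
  rw [sum_comm]
  refine sum_congr rfl fun s _ => ?_
  rw [← sum_mul, mul_right_comm, bb, Fz, filter_comm, ← sum_io, mul_sum]
  congr 1
  exact sum_congr rfl fun ℓ _ => by rw [← io_and]; exact io_congr (by tauto)

variable {S A G} in
lemma Fz_inj {s : Fin M} (h : Al S A G s) :
    Set.InjOn Prod.fst (Fz S A G s : Set (Fin n × Bool)) := by
  obtain ⟨σ, h1, h2⟩ := h
  have : ∀ ℓ ∈ Fz S A G s, ℓ.2 = !σ ℓ.1 := by
    intro ℓ hℓ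
    simp only [Fz, mem_filter, mem_univ, true_and] at hℓ
    by_contra h3
    exact hℓ ⟨σ, ⟨h1, by simpa [lit, eq_comm] using h3⟩, h2⟩
  intro ℓ hℓ ℓ' hℓ' h
  exact Prod.ext h (by rw [this ℓ hℓ, this ℓ' hℓ', h])

variable {S A G} in
lemma Fz_le {s : Fin M} (h : Al S A G s) : (Fz S A G s).card ≤ n := by
  simpa using card_le_card_of_injOn (t := univ) Prod.fst (fun _ _ => by simp) (Fz_inj h)

variable {S A G} in
lemma bb_le {s : Fin M} (h : Al S A G s) : bb W S A G s ≤ n :=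
  (card_filter_le _ _).trans (Fz_le h)

variable {S A G} in
lemma Fz_le_add {s : Fin M} (h : Al S A G s) : (Fz S A G s).card ≤ bb W S A G s + W.card := by
  rw [← card_filter_add_card_filter_not (s := Fz S A G s) fun ℓ => ℓ.1 ∉ W, bb]
  refine Nat.add_le_add_left (card_le_card_of_injOn Prod.fst (fun ℓ hℓ => ?_)
    ((Fz_inj h).mono fun ℓ hℓ => ?_)) _
  · simp only [coe_filter, Set.mem_ofPred_eq, not_not] at hℓ
    exact hℓ.2
  · exact (mem_filter.1 hℓ).1

lemma bb_mono {s s' : Fin M} (h : s ≤ s') : bb W S A G s ≤ bb W S A G s' := by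
  refine card_le_card (filter_subset_filter _ fun ℓ hℓ => ?_)
  simp only [Fz, mem_filter, mem_univ, true_and] at hℓ ⊢
  exact fun h2 => hℓ (h2.mono subset_rfl subset_rfl h)

lemma Ph_le : Ph j0 W S A G ≤ M ^ 2 * n := by
  calc Ph j0 W S A G ≤ ∑ _s : Fin M, (M : ℝ) * n := sum_le_sum fun s _ => by
        rw [mul_assoc]
        exact io_mul_le' (fun h => mul_le_mul (rem_le ..) (by exact_mod_cast bb_le W h.2)
          (Nat.cast_nonneg _) (Nat.cast_nonneg _)) (by positivity)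
    _ = _ := by simp; ring

lemma sum_short_le (hk : 3 ≤ k) (x : Fin n) {t : ℝ} (ht : 0 ≤ t) :
    ∑ c : Clause k n, io (∃ a, c.1.1 a = x) * Gm j0 S (short x c) A G ≤
      4 * k * n ^ (k - 3) * (t * Ph j0 W S A G + n ^ 2 * Lam j0 W S A G t ^ 2 +
        W.card ^ 2 * M ^ 2) := by
  have h1 : ∑ s : Fin M, io ((j0 ≤ s ∧ t < bb W S A G s) ∧ Al S A G s) * rem S A G s ≤
      Lam j0 W S A G t ^ 2 :=
    gam_le (u := fun s : Fin M => j0 ≤ s ∧ t < bb W S A G s) _ fun _ _ h h' =>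
      ⟨h'.1.trans h, h'.2.trans_le (by exact_mod_cast bb_mono W S A G h)⟩
  have h2 : ∑ s : Fin M, rem S A G s ≤ M ^ 2 :=
    (sum_le_sum fun s _ => rem_le S A G s).trans (by simp [sq])
  refine le_trans ?_ (mul_le_mul_of_nonneg_left (add_le_add (add_le_add le_rfl
    (mul_le_mul_of_nonneg_left h1 (sq_nonneg _))) (mul_le_mul_of_nonneg_left h2 (sq_nonneg _)))
    (by positivity))
  simp only [Gm, Ph, mul_sum]
  rw [sum_comm, ← mul_sum, ← mul_sum, ← mul_sum, mul_sum, mul_sum, mul_sum, ← sum_add_distrib,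
    ← sum_add_distrib, mul_sum]
  refine sum_le_sum fun s _ => ?_
  simp only [← mul_assoc]
  rw [← sum_mul]
  have hr := rem_nonneg S A G s
  by_cases hs : (j0 : ℕ) ≤ s ∧ Al S A G s
  swap
  · rw [sum_eq_zero fun c _ => by rw [io_neg (p := _ ∧ Al S A G s) (by tauto), mul_zero],
      io_neg hs, io_neg (by tauto)]
    simp only [mul_zero, zero_mul, zero_add]
    positivity
  have h3 : ∑ c : Clause k n, io (∃ a, c.1.1 a = x) *
      io ((j0 ≤ s ∧ ¬ Al (S ∩ short x c) A G s) ∧ Al S A G s) ≤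
      ((k * (2 * (Fz S A G s).card ^ (k - 1)) : ℕ) : ℝ) := by
    refine le_trans ?_ (Nat.cast_le.2 (card_but_le x _))
    rw [← sum_io]
    refine sum_le_sum fun c _ => ?_
    rw [← io_and]
    refine io_mono fun h => ⟨h.1, fun a ha => ?_⟩
    simp only [Fz, mem_filter, mem_univ, true_and]
    exact fun h2 => h.2.1.2 (h2.mono (Set.inter_subset_inter_right _ fun σ hσ => ⟨a, ha, hσ⟩)
      subset_rfl le_rfl)
  have h4 : ((Fz S A G s).card : ℝ) ≤ n := by exact_mod_cast Fz_le hs.2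
  have h5 : ((Fz S A G s).card : ℝ) ≤ bb W S A G s + W.card := by exact_mod_cast Fz_le_add W hs.2
  have h6 : (bb W S A G s : ℝ) ≤ n := by exact_mod_cast bb_le W hs.2
  have h7 : ((Fz S A G s).card : ℝ) ^ (k - 1) ≤ n ^ (k - 3) * (bb W S A G s + W.card) ^ 2 := by
    rw [show k - 1 = (k - 3) + 2 by omega, pow_add]
    gcongr
  have h8 : (bb W S A G s : ℝ) ^ 2 ≤ t * bb W S A G s +
      n ^ 2 * io ((j0 ≤ s ∧ t < bb W S A G s) ∧ Al S A G s) := by
    have h0 : (0 : ℝ) ≤ bb W S A G s := Nat.cast_nonneg _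
    by_cases h : t < bb W S A G s
    · rw [io_pos ⟨⟨hs.1, h⟩, hs.2⟩]; nlinarith
    · rw [io_neg (by tauto)]; push Not at h; nlinarith
  push_cast at h3
  rw [io_pos hs]
  have h9 : (0 : ℝ) ≤ k * n ^ (k - 3) := by positivity
  have h10 : (k : ℝ) * (2 * (Fz S A G s).card ^ (k - 1)) ≤ 4 * (k * n ^ (k - 3)) *
      (t * bb W S A G s + n ^ 2 * io ((j0 ≤ s ∧ t < bb W S A G s) ∧ Al S A G s) + W.card ^ 2) := by
    have a1 := mul_le_mul_of_nonneg_left h7 (show (0 : ℝ) ≤ 2 * k by positivity)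
    have a2 : ((bb W S A G s : ℝ) + W.card) ^ 2 ≤ 2 * (t * bb W S A G s +
        n ^ 2 * io ((j0 ≤ s ∧ t < bb W S A G s) ∧ Al S A G s) + W.card ^ 2) := by
      nlinarith [sq_nonneg ((bb W S A G s : ℝ) - W.card)]
    have a3 := mul_le_mul_of_nonneg_left a2 h9
    nlinarith
  have := mul_le_mul_of_nonneg_right (h3.trans h10) hr
  refine this.trans (le_of_eq ?_)
  ring

lemma sum_sat_kill (hk : 1 ≤ k) :
    ∑ c : Clause k n, Gm j0 S {σ | ClauseSat σ c} A G ≤ n ^ (k - 1) * Ph j0 ∅ S A G := by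
  simp only [Gm, Ph, mul_sum]
  rw [sum_comm]
  refine sum_le_sum fun s _ => ?_
  rw [← sum_mul]
  have hr := rem_nonneg S A G s
  by_cases hs : (j0 : ℕ) ≤ s ∧ Al S A G s
  swap
  · rw [sum_eq_zero fun c _ => io_neg (p := _ ∧ Al S A G s) (by tauto), io_neg hs]
    simp
  have h3 : ∑ c : Clause k n, io ((j0 ≤ s ∧ ¬ Al (S ∩ {σ | ClauseSat σ c}) A G s) ∧ Al S A G s) ≤
      (((Fz S A G s).card ^ k : ℕ) : ℝ) := by
    refine le_trans ?_ (Nat.cast_le.2 (card_all_le _))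
    rw [← sum_io]
    refine sum_le_sum fun c _ => io_mono fun h a => ?_
    simp only [Fz, mem_filter, mem_univ, true_and]
    exact fun h2 => h.1.2 (h2.mono (Set.inter_subset_inter_right _ fun σ hσ => ⟨a, hσ⟩)
      subset_rfl le_rfl)
  have h4 : ((Fz S A G s).card : ℝ) ≤ n := by exact_mod_cast Fz_le hs.2
  have h7 : ((Fz S A G s).card : ℝ) ^ k ≤ n ^ (k - 1) * bb ∅ S A G s := by
    have : bb ∅ S A G s = (Fz S A G s).card := by simp [bb]
    rw [this, ← pow_sub_one_mul (show k ≠ 0 by omega)]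
    gcongr
  push_cast at h3
  rw [io_pos hs]
  refine (mul_le_mul_of_nonneg_right (h3.trans h7) hr).trans (le_of_eq ?_)
  ring

end Crest.Agent.R153.A
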