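import Crest.Agent.R153.Boot1

/-! Row 153: states, resampling, hazard bound, telescoping. -/

set_option autoImplicit false
open Finset Function
open scoped BigOperators Classical
open Crest.ProbabilityR.RandomSAT

namespace Crest.Agent.R153.A

variable {k n M : ℕ}

lemma sum_update {I C : Type*} [Fintype I] [DecidableEq I] [Fintype C] (i : I) (f : (I → C) → ℝ) :
    ∑ G : I → C, ∑ c, f (update G i c) = Fintype.card C * ∑ G, f G := by
  let Φ : (I → C) × C ≃ (I → C) × C := Involutive.toPerm (fun q => (update q.1 i q.2, q.1 i))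
    fun q => by simp
  rw [← Fintype.sum_prod_type', ← Equiv.sum_comp Φ, Fintype.sum_prod_type]
  simp [Φ, mul_sum]

/-- admissible states -/
structure Ok (j0 : ℕ) (η : ℝ) (W : Finset (Fin n)) (S : Set (Fin n → Bool)) (A : Finset (Fin M))
    (q : Om k n M → ℝ) : Prop where
  nn : ∀ G, 0 ≤ q G
  hS : ∀ σ ∈ S, ∀ x ∉ W, ∀ b, update σ x b ∈ S
  dom : ∀ i ∈ A, ∀ G, η * Fintype.card (Clause k n) * q G ≤ ∑ c, q (update G i c)
  fut : ∀ i ∈ A, j0 ≤ (i : ℕ) → ∀ G (c : Clause k n), (∀ a, c.1.1 a ∉ W) → q G ≤ q (update G i c)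

variable {j0 : ℕ} {η : ℝ} {W : Finset (Fin n)} {S : Set (Fin n → Bool)} {A : Finset (Fin M)}
  {q : Om k n M → ℝ}

lemma Ok.resample (h : Ok j0 η W S A q) (hC : 0 < Fintype.card (Clause k n)) {i : Fin M}
    (hi : i ∈ A) {f : Om k n M → ℝ} (hf : ∀ G, 0 ≤ f G) :
    η * Fintype.card (Clause k n) * ∑ G, q G * f G ≤ ∑ G, q G * ∑ c, f (update G i c) := by
  have hC' : (0 : ℝ) < Fintype.card (Clause k n) := by exact_mod_cast hC
  refine le_of_mul_le_mul_left ?_ hC'
  rw [mul_left_comm, ← sum_update i, ← sum_update i, mul_sum]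
  refine sum_le_sum fun G _ => ?_
  simp only [update_idem]
  rw [← sum_mul, mul_sum, mul_sum]
  refine sum_le_sum fun c _ => ?_
  have := h.dom i hi (update G i c)
  simp only [update_idem] at this
  rw [← mul_assoc]
  exact mul_le_mul_of_nonneg_right this (hf _)

lemma Ok.hazard (h : Ok j0 η W S A q) (hC : 0 < Fintype.card (Clause k n)) {s : Fin M}
    (hs : s ∈ A) (hj : j0 ≤ (s : ℕ)) {f : Om k n M → ℝ} (hf : ∀ G, 0 ≤ f G)
    (hinv : ∀ G c, f (update G s c) = f G) {B : Om k n M → Clause k n → Prop}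
    (hB : ∀ G c, B (update G s c) = B G) (hW : ∀ G c, B G c → ∀ a, c.1.1 a ∉ W) {u : ℝ}
    (hu : ∀ G, f G ≠ 0 → u * Fintype.card (Clause k n) ≤ ∑ c, io (B G c)) :
    u * ∑ G, q G * f G ≤ ∑ G, q G * (f G * io (B G (G s))) := by
  have hC' : (0 : ℝ) < Fintype.card (Clause k n) := by exact_mod_cast hC
  refine le_of_mul_le_mul_left ?_ hC'
  rw [mul_left_comm, ← sum_update s, ← sum_update s, mul_sum]
  refine sum_le_sum fun G _ => ?_
  simp only [hinv, hB, update_self]
  by_cases h0 : f G = 0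
  · simp [h0]
  have h1 : u * ∑ c, q (update G s c) ≤ ∑ c, q (update G s c) * io (B G c) := by
    refine le_of_mul_le_mul_left ?_ hC'
    have h2 : 0 ≤ ∑ c, q (update G s c) := sum_nonneg fun _ _ => h.nn _
    rw [← mul_assoc, mul_comm _ u]
    refine (mul_le_mul_of_nonneg_right (hu G h0) h2).trans ?_
    rw [sum_mul, mul_sum (a := (Fintype.card (Clause k n) : ℝ))]
    refine sum_le_sum fun c _ => ?_
    rw [mul_comm (q _), mul_left_comm]
    refine io_mul_le fun hc => ?_
    have : ∀ c', q (update G s c') ≤ q (update G s c) := fun c' => by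
      simpa using h.fut s hs hj (update G s c') c (hW G c hc)
    exact (sum_le_sum fun c' _ => this c').trans (by simp)
  rw [← sum_mul, ← mul_assoc]
  refine (mul_le_mul_of_nonneg_right h1 (hf G)).trans (le_of_eq ?_)
  rw [sum_mul]
  exact sum_congr rfl fun c _ => by ring

lemma bb_update {s s' : Fin M} (h : s' ≤ s) (G : Om k n M) (c : Clause k n) :
    bb W S A (update G s c) s' = bb W S A G s' := by
  simp only [bb, Fz, Al_update _ (Or.inr h)]

lemma Ok.lam (h : Ok j0 η W S A q) (hC : 0 < Fintype.card (Clause k n)) {δ : ℝ} (hδ : 0 < δ)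
    (hn : 2 * k ≤ δ * n) :
    ∑ G, q G * Lam j0 W S A G (δ * n) ^ 2 ≤
      (4 / ((δ / 4) ^ k) ^ 2 + 2 * (Aᶜ.card : ℝ) ^ 2) * ∑ G, q G := by
  set u := (δ / 4) ^ k with hu
  have hu0 : 0 < u := by positivity
  let e : Om k n M → Fin M → Prop := fun G s =>
    s ∈ A ∧ (j0 ≤ (s : ℕ) ∧ δ * n < bb W S A G s) ∧ Al S A G s
  let B : Fin M → Om k n M → Clause k n → Prop := fun s G c =>
    ∀ a, lits c a ∈ (Fz S A G s).filter fun ℓ => ℓ.1 ∉ W
  have he : ∀ G (s s' : Fin M) c, s' ≤ s → e (update G s c) s' = e G s' := fun G s s' c hs => by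
    simp only [e, bb_update hs, Al_update _ (Or.inr hs)]
  have key : ∀ f : Om k n M → Fin M → ℝ, (∀ G s, 0 ≤ f G s) →
      (∀ G s c, f (update G s c) s = f G s) → ∀ F : Om k n M → ℝ, (∀ G s, f G s ≤ F G) →
      (∀ G, 0 ≤ F G) → u * ∑ G, q G * ∑ s, io (e G s) * f G s ≤ ∑ G, q G * F G := by
    intro f hf hinv F hF hF0
    have h1 : ∀ s, u * ∑ G, q G * (io (e G s) * f G s) ≤
        ∑ G, q G * (io (e G s) * f G s * io (B s G (G s))) := by
      intro s
      by_cases hs : s ∈ A ∧ j0 ≤ (s : ℕ)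
      swap
      · have : ∀ G, io (e G s) = 0 := fun G => io_neg fun h => hs ⟨h.1, h.2.1.1⟩
        simp [this]
      refine h.hazard hC hs.1 hs.2 (fun G => mul_nonneg (io_nonneg _) (hf _ _))
        (fun G c => by rw [he _ _ _ _ le_rfl, hinv]) (B := B s)
        (fun G c => by simp only [B, Fz, Al_update _ (Or.inr le_rfl)])
        (fun G c hc a => (mem_filter.1 (hc a)).2) fun G hG => ?_
      have h2 : e G s := by
        by_contra h3
        exact hG (by rw [io_neg h3, zero_mul])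
      rw [sum_io]
      have h3 := le_card_all (k := k) ((Fz S A G s).filter fun ℓ => ℓ.1 ∉ W)
        ((Fz_inj h2.2.2).mono fun ℓ hℓ => (mem_filter.1 hℓ).1)
      have h4 : δ * n < bb W S A G s := h2.2.1.2
      have h5 : δ * n / 2 ≤ ((bb W S A G s + 1 - k : ℕ) : ℝ) := by
        have : (k : ℝ) ≤ (bb W S A G s + 1 : ℕ) := by
          push_cast; linarith [Nat.cast_nonneg (α := ℝ) k]
        rw [Nat.cast_sub (by exact_mod_cast this)]
        push_cast; linarith
      have h6 : (Fintype.card (Clause k n) : ℝ) ≤ (2 * n) ^ k := by exact_mod_cast card_le_pow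
      refine (mul_le_mul_of_nonneg_left h6 hu0.le).trans (le_trans ?_ (Nat.cast_le.2 h3))
      rw [hu, ← mul_pow, Nat.cast_pow]
      exact pow_le_pow_left₀ (by positivity) (by rw [← bb]; linarith) _
    rw [sum_congr rfl fun G _ => mul_sum univ _ (q G), sum_comm, mul_sum]
    refine (sum_le_sum fun s _ => h1 s).trans ?_
    rw [sum_comm]
    refine sum_le_sum fun G _ => ?_
    rw [← mul_sum]
    refine mul_le_mul_of_nonneg_left ?_ (h.nn G)
    have h7 : ∑ s, io (e G s ∧ B s G (G s)) ≤ 1 := by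
      rw [sum_io]
      have : ∀ s s', e G s ∧ B s G (G s) → e G s' ∧ B s' G (G s') → ¬ s < s' := by
        intro s s' h1 h2 h3
        obtain ⟨σ, a1, a2⟩ := h2.1.2.2
        obtain ⟨a, ha⟩ := a2 s h1.1.1 h3
        have := (mem_filter.1 (mem_filter.1 (h1.2 a)).1).2
        exact this ⟨σ, ⟨a1, ha⟩, fun i hi h4 => a2 i hi (h4.trans h3)⟩
      exact_mod_cast card_le_one.2 fun s hs s' hs' => le_antisymm
        (not_lt.1 (this _ _ (mem_filter.1 hs').2 (mem_filter.1 hs).2))
        (not_lt.1 (this _ _ (mem_filter.1 hs).2 (mem_filter.1 hs').2))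
    refine le_trans ?_ ((mul_le_mul_of_nonneg_right h7 (hF0 G)).trans_eq (one_mul _))
    rw [sum_mul]
    refine sum_le_sum fun s _ => ?_
    rw [mul_right_comm, ← io_and]
    exact io_mul_le fun _ => hF G s
  let Λ : Om k n M → ℝ := fun G => ∑ s, io (e G s)
  have hΛ : ∀ G, 0 ≤ Λ G := fun G => sum_nonneg fun _ _ => io_nonneg _
  have k1 := key (fun _ _ => 1) (fun _ _ => zero_le_one) (fun _ _ _ => rfl) (fun _ => 1)
    (fun _ _ => le_rfl) fun _ => zero_le_one
  have k2 := key (fun G s => ∑ s', io (s' ≤ s ∧ e G s')) (fun _ _ => sum_nonneg fun _ _ => io_nonneg _)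
    (fun G s c => sum_congr rfl fun s' _ => io_congr (and_congr_right fun hs => by rw [he _ _ _ _ hs]))
    Λ (fun G s => sum_le_sum fun s' _ => io_mono And.right) hΛ
  simp only [mul_one] at k1
  have k3 : ∀ G, Λ G ^ 2 ≤ 2 * ∑ s, io (e G s) * ∑ s', io (s' ≤ s ∧ e G s') := by
    intro G
    refine (sq_le_gam (e G) (e G) fun _ h => h).trans (le_of_eq ?_)
    simp only [mul_sum]
    rw [sum_comm]
    refine sum_congr rfl fun s _ => sum_congr rfl fun s' _ => ?_
    rw [← io_and, ← io_and]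
    congr 1
    exact io_congr (by tauto)
  have k4 : ∀ G, Lam j0 W S A G (δ * n) ^ 2 ≤ 2 * Λ G ^ 2 + 2 * (Aᶜ.card : ℝ) ^ 2 := by
    intro G
    have a1 : Lam j0 W S A G (δ * n) ≤ Λ G + Aᶜ.card := by
      have : (Aᶜ.card : ℝ) = ∑ s, io (s ∉ A) := by rw [sum_io]; congr; ext; simp
      rw [this, ← sum_add_distrib]
      refine sum_le_sum fun s _ => ?_
      by_cases hs : s ∈ A
      · rw [io_neg (not_not.2 hs), add_zero]
        exact io_mono fun h => ⟨hs, h⟩
      · rw [io_pos hs]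
        linarith [io_nonneg (e G s), io_le_one ((j0 ≤ (s : ℕ) ∧ δ * n < bb W S A G s) ∧ Al S A G s)]
    have a2 : 0 ≤ Lam j0 W S A G (δ * n) := sum_nonneg fun _ _ => io_nonneg _
    nlinarith [sq_nonneg (Λ G - Aᶜ.card), pow_le_pow_left₀ a2 a1 2]
  have k5 : ∑ G, q G * Lam j0 W S A G (δ * n) ^ 2 ≤
      4 * ∑ G, q G * ∑ s, io (e G s) * ∑ s', io (s' ≤ s ∧ e G s') +
        2 * (Aᶜ.card : ℝ) ^ 2 * ∑ G, q G := by
    rw [mul_sum, mul_sum, ← sum_add_distrib]
    refine sum_le_sum fun G _ => ?_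
    have := mul_le_mul_of_nonneg_left ((k4 G).trans (add_le_add
      (mul_le_mul_of_nonneg_left (k3 G) two_pos.le) le_rfl)) (h.nn G)
    linarith
  have k6 : ∑ G, q G * ∑ s, io (e G s) * ∑ s', io (s' ≤ s ∧ e G s') ≤ (∑ G, q G) / u ^ 2 := by
    rw [le_div_iff₀ (by positivity)]
    have := mul_le_mul_of_nonneg_left k2 hu0.le
    nlinarith
  rw [add_mul]
  refine k5.trans (add_le_add ((mul_le_mul_of_nonneg_left k6 (by norm_num)).trans_eq ?_) le_rfl)
  ring

lemma sum_has_le (hn : 2 * k ≤ n) (hk : 1 ≤ k) (x : Fin n) :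
    ∑ c : Clause k n, io (∃ a, c.1.1 a = x) ≤ k * 2 ^ k / n * Fintype.card (Clause k n) := by
  have hn0 : (0 : ℝ) < n := by exact_mod_cast (by omega : 0 < n)
  have hc : (n : ℝ) ^ k ≤ Fintype.card (Clause k n) := by exact_mod_cast pow_le_card hn
  have := card_but_le (k := k) x univ
  simp only [mem_univ, implies_true, and_true, card_univ, Fintype.card_prod, Fintype.card_fin,
    Fintype.card_bool] at this
  rw [sum_io]
  refine (Nat.cast_le.2 this).trans (le_trans (le_of_eq ?_)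
    (mul_le_mul_of_nonneg_left hc (by positivity)))
  obtain ⟨k, rfl⟩ : ∃ k', k = k' + 1 := ⟨k - 1, by omega⟩
  push_cast
  field_simp
  ring

lemma Ok.expo (h : Ok j0 η W S A q) (hη : 1 / 2 ≤ η) (hn : 2 * k ≤ n) (hk : 1 ≤ k) (x : Fin n)
    (B : Finset (Fin M)) (hB : B ⊆ A) :
    ∑ G, q G * ∏ i ∈ B, (1 + 7 * io (∃ a, (G i).1.1 a = x)) ≤
      (1 + 14 * (k * 2 ^ k) / n) ^ B.card * ∑ G, q G := by
  have hn0 : (0 : ℝ) < n := by exact_mod_cast (by omega : 0 < n)
  have hc : (n : ℝ) ^ k ≤ Fintype.card (Clause k n) := by exact_mod_cast pow_le_card hn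
  have hC' : (0 : ℝ) < Fintype.card (Clause k n) := lt_of_lt_of_le (by positivity) hc
  have hx := sum_has_le hn hk x
  induction B using Finset.induction_on with
  | empty => simp
  | insert i B hi ih =>
    have ih := ih ((subset_insert _ _).trans hB)
    have hp : ∀ G : Om k n M, 0 ≤ ∏ i ∈ B, (1 + 7 * io (∃ a, (G i).1.1 a = x)) := fun G =>
      prod_nonneg fun i _ => by have := io_nonneg (∃ a, (G i).1.1 a = x); positivity
    have h1 := h.resample (by exact_mod_cast hC') (hB (mem_insert_self i B))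
      (f := fun G => io (∃ a, (G i).1.1 a = x) * ∏ i ∈ B, (1 + 7 * io (∃ a, (G i).1.1 a = x)))
      fun G => mul_nonneg (io_nonneg _) (hp G)
    have h2 : ∀ (G : Om k n M) c, ∏ i' ∈ B, (1 + 7 * io (∃ a, (update G i c i').1.1 a = x)) =
        ∏ i' ∈ B, (1 + 7 * io (∃ a, (G i').1.1 a = x)) := fun G c =>
      prod_congr rfl fun i' hi' => by rw [update_of_ne (ne_of_mem_of_not_mem hi' hi)]
    simp only [update_self, h2, ← sum_mul] at h1
    simp only [mul_left_comm (q _), ← mul_sum] at h1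
    simp only [prod_insert hi, add_mul, one_mul, mul_add, sum_add_distrib, mul_assoc (7 : ℝ),
      mul_left_comm (q _), ← mul_sum, card_insert_of_notMem hi, pow_succ]
    set T := ∑ G, q G * ∏ i ∈ B, (1 + 7 * io (∃ a, (G i).1.1 a = x))
    set U := ∑ G, io (∃ a, (G i).1.1 a = x) * (q G * ∏ i ∈ B, (1 + 7 * io (∃ a, (G i).1.1 a = x)))
    have hT : 0 ≤ T := sum_nonneg fun G _ => mul_nonneg (h.nn G) (hp G)
    have hU : 0 ≤ U := sum_nonneg fun G _ => mul_nonneg (io_nonneg _) (mul_nonneg (h.nn G) (hp G))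
    have h3 : U ≤ 2 * (k * 2 ^ k / n) * T := by
      refine le_of_mul_le_mul_left ?_ hC'
      have a1 := mul_le_mul_of_nonneg_right hx hT
      have a2 := mul_le_mul_of_nonneg_right (mul_le_mul_of_nonneg_right hη hC'.le) hU
      nlinarith
    have h4 := mul_le_mul_of_nonneg_left ih (show 0 ≤ 1 + 14 * (k * 2 ^ k) / (n : ℝ) by positivity)
    rw [mul_div_assoc] at h4 ih ⊢
    nlinarith

end Crest.Agent.R153.A
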