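import Crest.Agent.R153.Boot2

/-! Row 153: deleting a variable; the bootstrap. -/

set_option autoImplicit false
open Finset Function
open scoped BigOperators Classical
open Crest.ProbabilityR.RandomSAT

namespace Crest.Agent.R153.A

variable {k n M : ℕ}

/-- the other active clauses that contain the variable `x` -/
noncomputable def yy (A : Finset (Fin M)) (x : Fin n) (i : Fin M) (G : Om k n M) :
    Fin M → Option (Clause k n) :=
  fun i' => if i' ∈ A ∧ i' ≠ i ∧ ∃ a, (G i').1.1 a = x then some (G i') else none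

noncomputable def A' (A : Finset (Fin M)) (i : Fin M) (y : Fin M → Option (Clause k n)) :
    Finset (Fin M) := A.filter fun i' => i' ≠ i ∧ y i' = none

def S' (S : Set (Fin n → Bool)) (x : Fin n) (i : Fin M) (y : Fin M → Option (Clause k n)) :
    Set (Fin n → Bool) := S ∩ {σ | ∀ i' < i, ∀ c, y i' = some c → σ ∈ short x c}

noncomputable def dd (y : Fin M → Option (Clause k n)) : ℕ := (univ.filter fun i' => y i' ≠ none).card

noncomputable def W' (W : Finset (Fin n)) (x : Fin n) (y : Fin M → Option (Clause k n)) :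
    Finset (Fin n) :=
  insert x (W ∪ (univ.filter fun i' => y i' ≠ none).biUnion fun i' =>
    (y i').elim ∅ fun c => univ.image c.1.1)

variable {j0 : ℕ} {η : ℝ} {W : Finset (Fin n)} {S : Set (Fin n → Bool)} {A : Finset (Fin M)}
  {q : Om k n M → ℝ}

lemma exists_flip {f : ℕ → Prop} (h0 : f 0) {N : ℕ} (hN : ¬ f N) : ∃ t, f t ∧ ¬ f (t + 1) := by
  by_contra h
  push Not at h
  exact hN (Nat.rec h0 h N)

lemma telescope (hS : ∀ σ ∈ S, ∀ x ∉ W, ∀ b, update σ x b ∈ S) {x : Fin n} (hx : x ∉ W) (β : Bool)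
    (G : Om k n M) : DD j0 S (lit (x, β)) A G ≤ ∑ i ∈ A.filter (fun i => ∃ a, (G i).1.1 a = x),
      DD j0 (S' S x i (yy A x i G)) (short x (G i)) (A' A i (yy A x i G)) G := by
  simp only [DD]
  rw [sum_comm]
  refine sum_le_sum fun s _ => ?_
  by_cases hs : (j0 ≤ (s : ℕ) ∧ ¬ Al (S ∩ lit (x, β)) A G s) ∧ Al S A G s
  swap
  · rw [io_neg hs]; exact sum_nonneg fun _ _ => io_nonneg _
  let T : ℕ → Set (Fin n → Bool) := fun t =>
    S ∩ {σ | ∀ i' ∈ A, (i' : ℕ) < t → (∃ a, (G i').1.1 a = x) → σ ∈ short x (G i')}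
  let A0 := A.filter fun i => ¬ ∃ a, (G i).1.1 a = x
  have h0 : Al (T 0) A0 G s := hs.2.mono (fun σ hσ => ⟨hσ, by simp⟩) (filter_subset _ _) le_rfl
  have hM : ¬ Al (T M) A0 G s := by
    rintro ⟨σ, ⟨a1, a2⟩, a3⟩
    refine hs.1.2 ⟨update σ x β, ⟨hS σ a1 x hx β, by simp [lit]⟩, fun i hi h => ?_⟩
    by_cases h2 : ∃ a, (G i).1.1 a = x
    · obtain ⟨a, b1, b2⟩ := a2 i hi i.2 h2
      exact ⟨a, by rwa [update_of_ne b1]⟩
    · obtain ⟨a, ha⟩ := a3 i (mem_filter.2 ⟨hi, h2⟩) h
      exact ⟨a, by rwa [update_of_ne fun h3 => h2 ⟨a, h3⟩]⟩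
  obtain ⟨t, h1, h2⟩ := exists_flip (f := fun t => Al (T t) A0 G s) h0 hM
  obtain ⟨i, hi, rfl, hxi⟩ : ∃ i ∈ A, (i : ℕ) = t ∧ ∃ a, (G i).1.1 a = x := by
    by_contra h3
    refine h2 (h1.mono (fun σ hσ => ⟨hσ.1, fun i hi h4 h5 => hσ.2 i hi ?_ h5⟩) subset_rfl le_rfl)
    rcases (Nat.lt_succ_iff.1 h4).eq_or_lt with h6 | h6
    · exact absurd ⟨i, hi, h6, h5⟩ h3
    · exact h6
  have eA : A' A i (yy A x i G) = A0 := by
    ext i'
    simp only [A', A0, yy, mem_filter, ite_eq_right_iff, reduceCtorEq, imp_false]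
    exact and_congr_right fun h => ⟨fun h1 h2 => h1.2 ⟨h, h1.1, h2⟩,
      fun h1 => ⟨fun h2 => h1 (h2 ▸ hxi), fun h2 => h1 h2.2.2⟩⟩
  have eS : S' S x i (yy A x i G) = T i := by
    ext σ
    refine and_congr_right fun _ => ⟨fun h i' h1 h2 h3 => h i' h2 _ ?_, fun h i' h1 c h2 => ?_⟩
    · exact if_pos ⟨h1, fun h4 => by simp [h4] at h2, h3⟩
    · simp only [yy, Option.ite_none_right_eq_some, Option.some.injEq] at h2
      rw [← h2.2]
      exact h i' h2.1.1 h1 h2.1.2.2
  refine le_trans ?_ (single_le_sum (f := fun i => io ((j0 ≤ (s : ℕ) ∧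
    ¬ Al (S' S x i (yy A x i G) ∩ short x (G i)) (A' A i (yy A x i G)) G s) ∧
      Al (S' S x i (yy A x i G)) (A' A i (yy A x i G)) G s)) (fun _ _ => io_nonneg _)
      (mem_filter.2 ⟨hi, hxi⟩))
  rw [eA, eS]
  refine io_mono fun _ => ⟨⟨hs.1.1, fun h3 => h2 (h3.mono (fun σ hσ => ⟨hσ.1.1, ?_⟩)
    subset_rfl le_rfl)⟩, h1⟩
  intro i' a1 a2 a3
  rcases (Nat.lt_succ_iff.1 a2).eq_or_lt with h6 | h6
  · rw [Fin.ext h6]; exact hσ.2
  · exact hσ.1.2 i' a1 h6 a3

lemma card_le_dd (x : Fin n) (i : Fin M) (G : Om k n M) :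
    (A.filter fun i => ∃ a, (G i).1.1 a = x).card ≤ dd (yy A x i G) + 1 := by
  refine le_trans (card_le_card fun i' h => ?_) (card_insert_le i _)
  simp only [mem_filter, mem_insert, mem_univ, true_and, yy] at h ⊢
  by_cases h1 : i' = i
  · exact Or.inl h1
  · right; rw [if_pos ⟨h.1, h1, h.2⟩]; simp

lemma dd_pow_le (x : Fin n) (i : Fin M) (G : Om k n M) :
    ((dd (yy A x i G) : ℝ) + 1) ^ 3 ≤ ∏ i ∈ A, (1 + 7 * io (∃ a, (G i).1.1 a = x)) := by
  have h1 : ∏ i ∈ A, (1 + 7 * io (∃ a, (G i).1.1 a = x)) =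
      8 ^ (A.filter fun i => ∃ a, (G i).1.1 a = x).card := by
    rw [← prod_const, prod_filter]
    exact prod_congr rfl fun i _ => by unfold io; split_ifs <;> norm_num
  have h2 : dd (yy A x i G) ≤ (A.filter fun i => ∃ a, (G i).1.1 a = x).card := by
    refine card_le_card fun i' h => ?_
    simp only [mem_filter, mem_univ, true_and, yy, ne_eq, ite_eq_right_iff, reduceCtorEq,
      imp_false, not_not] at h ⊢
    exact ⟨h.1, h.2.2⟩
  have h3 : (dd (yy A x i G) : ℝ) + 1 ≤ 2 ^ dd (yy A x i G) := by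
    exact_mod_cast Nat.lt_two_pow_self
  rw [h1]
  refine (pow_le_pow_left₀ (by positivity) h3 3).trans ?_
  rw [← pow_mul, mul_comm, pow_mul]
  exact pow_le_pow_right₀ (by norm_num) h2 |>.trans' (by norm_num)

lemma yy_self (x : Fin n) (i : Fin M) (G : Om k n M) (c : Clause k n) :
    yy A x i (update G i c) = yy A x i G := by
  funext i'
  by_cases h : i' = i
  · simp [yy, h]
  · simp [yy, update_of_ne h]

lemma yy_update {x : Fin n} {i i' : Fin M} {G : Om k n M} (h : yy A x i G i' = none)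
    {c : Clause k n} (hc : ¬ ∃ a, c.1.1 a = x) : yy A x i (update G i' c) = yy A x i G := by
  funext j
  by_cases h1 : j = i'
  · subst h1; rw [h]; simp only [yy, update_self]; rw [if_neg fun h => hc h.2.2]
  · simp [yy, update_of_ne h1]

lemma card_W' (x : Fin n) (y : Fin M → Option (Clause k n)) :
    (W' W x y).card ≤ W.card + k * dd y + 1 := by
  refine (card_insert_le _ _).trans (Nat.succ_le_succ ((card_union_le _ _).trans
    (Nat.add_le_add_left ?_ _)))
  rw [mul_comm]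
  refine card_biUnion_le_card_mul _ _ _ fun i _ => ?_
  cases y i with
  | none => simp
  | some c => exact card_image_le.trans (by simp)

lemma card_W'_ge {x : Fin n} (hx : x ∉ W) (y : Fin M → Option (Clause k n)) :
    W.card + 1 ≤ (W' W x y).card := by
  rw [← card_insert_of_notMem hx]
  exact card_le_card (insert_subset_insert _ subset_union_left)

lemma card_A' (i : Fin M) (y : Fin M → Option (Clause k n)) :
    (A' A i y)ᶜ.card ≤ Aᶜ.card + dd y + 1 := by
  refine le_trans (card_le_card (t := insert i (Aᶜ ∪ univ.filter fun i' => y i' ≠ none))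
    fun i' h => ?_) ((card_insert_le _ _).trans (Nat.succ_le_succ (card_union_le _ _)))
  simp only [A', mem_compl, mem_filter, mem_insert, mem_union, mem_univ, true_and] at h ⊢
  tauto

lemma Ok.child (h : Ok j0 η W S A q) (hη : 0 < η) {κ : ℝ} (hκ : κ ≤ η) {x : Fin n}
    (hx : ∑ c : Clause k n, io (∃ a, c.1.1 a = x) ≤ κ * Fintype.card (Clause k n))
    (hC : 0 < Fintype.card (Clause k n)) (i : Fin M) (y : Fin M → Option (Clause k n)) :
    Ok j0 (η - κ) (W' W x y) (S' S x i y) (A' A i y) fun G => q G * io (yy A x i G = y) := by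
  have hC' : (0 : ℝ) < Fintype.card (Clause k n) := by exact_mod_cast hC
  have hW : W ⊆ W' W x y := fun z hz => mem_insert_of_mem (mem_union_left _ hz)
  refine ⟨fun G => mul_nonneg (h.nn G) (io_nonneg _), fun σ hσ z hz b =>
    ⟨h.hS σ hσ.1 z (fun h => hz (hW h)) b, fun i' hi' c hc => ?_⟩, fun i' hi' G => ?_,
    fun i' hi' hj G c hc => ?_⟩
  · obtain ⟨a, h1, h2⟩ := hσ.2 i' hi' c hc
    have h4 : c.1.1 a ∈ W' W x y :=
      mem_insert_of_mem (mem_union_right _ (mem_biUnion.2 ⟨i', by simp [hc], by simp [hc]⟩))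
    exact ⟨a, h1, by rwa [update_of_ne fun h3 : c.1.1 a = z => hz (h3 ▸ h4)]⟩
  · obtain ⟨h1, -, h2⟩ := mem_filter.1 hi'
    by_cases hy : yy A x i G = y
    swap
    · rw [io_neg hy, mul_zero, mul_zero]
      exact sum_nonneg fun _ _ => mul_nonneg (h.nn _) (io_nonneg _)
    rw [io_pos hy, mul_one]
    set Q := ∑ c, q (update G i' c)
    have a1 : Q - ∑ c : Clause k n, io (∃ a, c.1.1 a = x) * q (update G i' c) ≤
        ∑ c, q (update G i' c) * io (yy A x i (update G i' c) = y) := by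
      rw [← sum_sub_distrib]
      refine sum_le_sum fun c _ => ?_
      by_cases hc : ∃ a, c.1.1 a = x
      · rw [io_pos hc, one_mul, sub_self]; exact mul_nonneg (h.nn _) (io_nonneg _)
      · rw [io_neg hc, io_pos (by rw [yy_update (by rw [hy, h2]) hc, hy])]; simp
    have a2 : η * Fintype.card (Clause k n) *
        ∑ c : Clause k n, io (∃ a, c.1.1 a = x) * q (update G i' c) ≤
        κ * Fintype.card (Clause k n) * Q := by
      refine le_trans ?_ (mul_le_mul_of_nonneg_right hx (sum_nonneg fun _ _ => h.nn _))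
      rw [mul_sum, sum_mul]
      refine sum_le_sum fun c _ => ?_
      rw [mul_left_comm]
      refine io_mul_le fun _ => ?_
      simpa using h.dom i' h1 (update G i' c)
    have a3 := mul_le_mul_of_nonneg_left (h.dom i' h1 G) (sub_nonneg.2 hκ)
    have a4 : η * ∑ c : Clause k n, io (∃ a, c.1.1 a = x) * q (update G i' c) ≤ κ * Q :=
      le_of_mul_le_mul_left (by linarith) hC'
    refine le_trans (le_of_mul_le_mul_left ?_ hη) a1
    rw [mul_sub]
    linarith
  · obtain ⟨h1, -, h2⟩ := mem_filter.1 hi'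
    refine mul_le_mul (h.fut i' h1 hj G c fun a ha => hc a (hW ha)) (io_mono fun hy => ?_)
      (io_nonneg _) (h.nn _)
    rw [yy_update (by rw [hy, h2]) fun ⟨a, ha⟩ => hc a (by rw [ha]; exact mem_insert_self _ _), hy]

lemma fiber_bound {Ω Y : Type*} [Fintype Ω] [Fintype Y] (q : Ω → ℝ) (φ : Ω → Y) (F : Y → Ω → ℝ)
    (B : Y → ℝ) (h : ∀ y, ∑ G, q G * io (φ G = y) * F y G ≤ B y * ∑ G, q G * io (φ G = y)) :
    ∑ G, q G * F (φ G) G ≤ ∑ G, q G * B (φ G) := by
  have := sum_le_sum fun y (_ : y ∈ univ) => h y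
  simp only [mul_sum] at this
  rw [sum_comm, sum_comm (f := fun y G => B y * _)] at this
  simpa [io, mul_comm] using this

end Crest.Agent.R153.A
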