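import Crest.Agent.R153.Boot3

/-! Row 153: the bootstrap bound for the second moments of the delays. -/

set_option autoImplicit false
open Finset Function
open scoped BigOperators Classical
open Crest.ProbabilityR.RandomSAT

namespace Crest.Agent.R153.A

variable {k n M : ℕ} {j0 : ℕ} {η : ℝ} {W : Finset (Fin n)} {S : Set (Fin n → Bool)}
  {A : Finset (Fin M)} {q : Om k n M → ℝ}

lemma Ok.short_le (h : Ok j0 η W S A q) (hk : 3 ≤ k) (hn : 2 * k ≤ n) {δ C R : ℝ} (hδ : 0 < δ)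
    (hδn : 2 * k ≤ δ * n) (hM : (M : ℝ) ≤ C * n) (x : Fin n)
    (IH : ∑ G, q G * Ph j0 W S A G ≤ R * n * (1 + W.card + Aᶜ.card) ^ 2 * ∑ G, q G) :
    ∑ G, q G * ∑ c : Clause k n, io (∃ a, c.1.1 a = x) * Gm j0 S (short x c) A G ≤
      4 * k * n ^ (k - 1) * (δ * R + (4 / ((δ / 4) ^ k) ^ 2 + 2) + C ^ 2) *
        (1 + W.card + Aᶜ.card) ^ 2 * ∑ G, q G := by
  have hC : 0 < Fintype.card (Clause k n) :=
    lt_of_lt_of_le (pow_pos (by omega) _) (pow_le_card hn)
  have h1 := h.lam hC hδ hδn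
  have hq : 0 ≤ ∑ G, q G := sum_nonneg fun G _ => h.nn G
  have h2 := sum_le_sum fun G (_ : G ∈ univ) => mul_le_mul_of_nonneg_left
    (sum_short_le j0 W S A G hk x (t := δ * n) (by positivity)) (h.nn G)
  refine h2.trans ?_
  simp only [mul_left_comm (q _), mul_add (q _), ← mul_sum, sum_add_distrib, ← sum_mul]
  rw [show k - 1 = (k - 3) + 2 by omega, pow_add]
  set z : ℝ := 1 + W.card + Aᶜ.card with hz
  set K := 4 / ((δ / 4) ^ k) ^ 2
  have hK : 0 ≤ K := by positivity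
  have a0 : (0 : ℝ) ≤ W.card := Nat.cast_nonneg _
  have a1 : (0 : ℝ) ≤ Aᶜ.card := Nat.cast_nonneg _
  have a2 : K + 2 * (Aᶜ.card : ℝ) ^ 2 ≤ (K + 2) * z ^ 2 := by
    have : (Aᶜ.card : ℝ) ^ 2 ≤ z ^ 2 := by gcongr; linarith
    have : 1 ≤ z ^ 2 := one_le_pow₀ (by linarith)
    nlinarith
  have a3 : (W.card : ℝ) ^ 2 * M ^ 2 ≤ z ^ 2 * (C * n) ^ 2 := by
    gcongr; linarith
  have a4 := mul_le_mul_of_nonneg_left IH (show 0 ≤ δ * n by positivity)
  have a5 := mul_le_mul_of_nonneg_left (h1.trans (mul_le_mul_of_nonneg_right a2 hq))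
    (sq_nonneg (n : ℝ))
  have a6 := mul_le_mul_of_nonneg_right a3 hq
  have a7 := mul_le_mul_of_nonneg_left (add_le_add (add_le_add a4 a5) a6)
    (show (0 : ℝ) ≤ 4 * k * n ^ (k - 3) by positivity)
  refine le_trans (le_of_eq ?_) (a7.trans (le_of_eq ?_)) <;> ring

lemma Ok.step_lit (h : Ok j0 η W S A q) (hk : 3 ≤ k) (hn : 2 * k ≤ n) {δ C R : ℝ} (hδ : 0 < δ)
    (hδn : 2 * k ≤ δ * n) (hM : (M : ℝ) ≤ C * n) (hR : 0 ≤ R) (hη : 1 / 2 + k * 2 ^ k / n ≤ η)
    {x : Fin n} (hx : x ∉ W) (β : Bool)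
    (IH : ∀ (W' : Finset (Fin n)) (S' : Set (Fin n → Bool)) (A' : Finset (Fin M))
      (q' : Om k n M → ℝ), Ok j0 (η - k * 2 ^ k / n) W' S' A' q' → W.card + 1 ≤ W'.card →
      ∑ G, q' G * Ph j0 W' S' A' G ≤ R * n * (1 + W'.card + A'ᶜ.card) ^ 2 * ∑ G, q' G) :
    ∑ G, q G * Gm j0 S (lit (x, β)) A G ≤
      16 * k * C * (k + 3) ^ 2 * Real.exp (14 * (k * 2 ^ k) * C) *
        (δ * R + (4 / ((δ / 4) ^ k) ^ 2 + 2) + C ^ 2) * (1 + W.card + Aᶜ.card) ^ 2 * ∑ G, q G := by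
  have hn0 : (0 : ℝ) < n := by exact_mod_cast (by omega : 0 < n)
  have hc : (n : ℝ) ^ k ≤ Fintype.card (Clause k n) := by exact_mod_cast pow_le_card hn
  have hC' : (0 : ℝ) < Fintype.card (Clause k n) := lt_of_lt_of_le (by positivity) hc
  have hC : 0 < Fintype.card (Clause k n) := by exact_mod_cast hC'
  have hκ : (0 : ℝ) ≤ k * 2 ^ k / n := by positivity
  have hq : 0 ≤ ∑ G, q G := sum_nonneg fun G _ => h.nn G
  set R' := δ * R + (4 / ((δ / 4) ^ k) ^ 2 + 2) + C ^ 2 with hR'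
  have hR0 : 0 ≤ R' := by positivity
  set z : ℝ := 1 + W.card + Aᶜ.card with hz
  have hz1 : 1 ≤ z := by
    linarith [Nat.cast_nonneg (α := ℝ) W.card, Nat.cast_nonneg (α := ℝ) Aᶜ.card]
  let f : Fin M → Om k n M → ℝ := fun i G => io (∃ a, (G i).1.1 a = x) *
    (2 * (dd (yy A x i G) + 1) *
      Gm j0 (S' S x i (yy A x i G)) (short x (G i)) (A' A i (yy A x i G)) G)
  have hf : ∀ i G, 0 ≤ f i G := fun i G =>
    mul_nonneg (io_nonneg _) (mul_nonneg (by positivity) (Gm_nonneg ..))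
  have s1 : ∀ G, Gm j0 S (lit (x, β)) A G ≤ ∑ i ∈ A, f i G := by
    intro G
    refine (Gm_le ..).trans ((pow_le_pow_left₀ (DD_nonneg ..) (telescope h.hS hx β G) 2).trans
      (sq_sum_le_card_mul_sum_sq.trans ?_))
    rw [mul_sum, sum_filter]
    refine sum_le_sum fun i _ => ?_
    split_ifs with hi
    · simp only [f, io_pos hi, one_mul]
      have a1 : ((A.filter fun i => ∃ a, (G i).1.1 a = x).card : ℝ) ≤ dd (yy A x i G) + 1 := by
        exact_mod_cast card_le_dd x i G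
      exact (mul_le_mul a1 (DD_le ..) (sq_nonneg _) (by positivity)).trans_eq (by ring)
    · exact hf i G
  have s2 : ∀ i ∈ A, ∑ G, q G * f i G ≤ 16 * k / n * (k + 3) ^ 2 *
      Real.exp (14 * (k * 2 ^ k) * C) * R' * z ^ 2 * ∑ G, q G := by
    intro i hi
    have a1 := h.resample hC hi (hf i)
    let F : (Fin M → Option (Clause k n)) → Om k n M → ℝ := fun y G => 2 * (dd y + 1) *
      ∑ c : Clause k n, io (∃ a, c.1.1 a = x) * Gm j0 (S' S x i y) (short x c) (A' A i y) G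
    have a2 : ∀ G, ∑ c, f i (update G i c) = F (yy A x i G) G := by
      intro G
      simp only [f, F, update_self, yy_self, mul_sum]
      refine sum_congr rfl fun c _ => ?_
      rw [Gm_update _ _ _ _ (by simp [A']), mul_left_comm]
    simp only [a2] at a1
    have a3 := fiber_bound q (yy A x i) F
      (fun y => 8 * k * n ^ (k - 1) * R' * ((k + 3) * z) ^ 2 * (dd y + 1) ^ 3) fun y => by
        have b1 := h.child (by linarith) (by linarith) (sum_has_le hn (by omega) x) hC i y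
        have b2 := b1.short_le hk hn hδ hδn hM x (IH _ _ _ _ b1 (card_W'_ge hx y))
        have b3 : ((W' W x y).card : ℝ) ≤ W.card + k * dd y + 1 := by exact_mod_cast card_W' x y
        have b4 : ((A' A i y)ᶜ.card : ℝ) ≤ Aᶜ.card + dd y + 1 := by exact_mod_cast card_A' i y
        have b5 : (1 : ℝ) + (W' W x y).card + (A' A i y)ᶜ.card ≤ (k + 3) * z * (dd y + 1) := by
          have c1 : (0 : ℝ) ≤ dd y := Nat.cast_nonneg _
          have c2 : (0 : ℝ) ≤ k := Nat.cast_nonneg _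
          have c3 : (0 : ℝ) ≤ (z - 1) * ((k + 3) * (dd y + 1) - 1) :=
            mul_nonneg (by linarith) (by nlinarith)
          nlinarith
        have b6 : 0 ≤ ∑ G, q G * io (yy A x i G = y) := sum_nonneg fun G _ => b1.nn G
        simp only [F, mul_left_comm _ (2 * ((dd y : ℝ) + 1)), ← mul_sum]
        refine (mul_le_mul_of_nonneg_left (b2.trans (mul_le_mul_of_nonneg_right
          (mul_le_mul_of_nonneg_left (pow_le_pow_left₀ (by positivity) b5 2) (by positivity)) b6))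
          (by positivity)).trans_eq ?_
        ring
    have a4 : ∑ G, q G * ((dd (yy A x i G) : ℝ) + 1) ^ 3 ≤
        Real.exp (14 * (k * 2 ^ k) * C) * ∑ G, q G := by
      refine (sum_le_sum fun G _ => mul_le_mul_of_nonneg_left (dd_pow_le x i G) (h.nn G)).trans
        ((h.expo (by linarith) hn (by omega) x A subset_rfl).trans
          (mul_le_mul_of_nonneg_right ?_ hq))
      have b1 : (A.card : ℝ) ≤ M := by exact_mod_cast (card_le_univ A).trans_eq (Fintype.card_fin M)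
      refine (pow_le_pow_left₀ (by positivity) ((add_comm _ _).trans_le
        (Real.add_one_le_exp _)) _).trans ?_
      rw [← Real.exp_nat_mul, Real.exp_le_exp, ← mul_div_assoc, div_le_iff₀ hn0]
      have := mul_le_mul_of_nonneg_right (b1.trans hM) (show (0 : ℝ) ≤ 14 * (k * 2 ^ k) by positivity)
      linarith
    simp only [mul_left_comm (q _), ← mul_sum] at a3
    have a5 := a1.trans (a3.trans (mul_le_mul_of_nonneg_left a4 (by positivity)))
    have a6 : 1 / 2 * (n : ℝ) ^ k ≤ η * Fintype.card (Clause k n) :=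
      mul_le_mul (by linarith) hc (by positivity) (by linarith)
    have a7 := (mul_le_mul_of_nonneg_right a6
      (sum_nonneg fun G _ => mul_nonneg (h.nn G) (hf i G))).trans a5
    refine le_of_mul_le_mul_left (a7.trans_eq ?_) (by positivity)
    rw [← pow_sub_one_mul (show k ≠ 0 by omega) (n : ℝ)]
    field_simp
    ring
  refine (sum_le_sum fun G _ => mul_le_mul_of_nonneg_left (s1 G) (h.nn G)).trans ?_
  rw [sum_congr rfl fun G _ => mul_sum A _ (q G), sum_comm]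
  refine (sum_le_sum s2).trans ?_
  rw [sum_const, nsmul_eq_mul]
  have b1 : (A.card : ℝ) ≤ M := by exact_mod_cast (card_le_univ A).trans_eq (Fintype.card_fin M)
  refine (mul_le_mul_of_nonneg_right (b1.trans hM) (by positivity)).trans_eq ?_
  field_simp

theorem boot (hk : 3 ≤ k) {C : ℝ} (hC : 0 < C) : ∃ (R : ℝ) (n₀ : ℕ), 0 ≤ R ∧ 2 * k ≤ n₀ ∧
    ∀ n, n₀ ≤ n → ∀ M : ℕ, (M : ℝ) ≤ C * n → ∀ (j0 r : ℕ) (η : ℝ) (W : Finset (Fin n))
      (S : Set (Fin n → Bool)) (A : Finset (Fin M)) (q : Om k n M → ℝ), Ok j0 η W S A q →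
      1 / 2 + r * (k * 2 ^ k / n) ≤ η → (n : ℝ) ≤ 8 * (k * 2 ^ k) * (W.card + r) →
      ∑ G, q G * Ph j0 W S A G ≤ R * n * (1 + W.card + Aᶜ.card) ^ 2 * ∑ G, q G := by
  have hk0 : (0 : ℝ) < k := by exact_mod_cast (by omega : 0 < k)
  obtain ⟨a, ha⟩ : ∃ a : ℝ, a = 16 * k * C * (k + 3) ^ 2 * Real.exp (14 * (k * 2 ^ k) * C) :=
    ⟨_, rfl⟩
  have ha0 : 0 < a := by rw [ha]; positivity
  obtain ⟨δ, hδ⟩ : ∃ δ : ℝ, δ = 1 / (4 * a) := ⟨_, rfl⟩
  have hδ0 : 0 < δ := by rw [hδ]; positivity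
  obtain ⟨K, hK⟩ : ∃ K : ℝ, K = (4 / ((δ / 4) ^ k) ^ 2 + 2) + C ^ 2 := ⟨_, rfl⟩
  have hK0 : 0 ≤ K := by rw [hK]; positivity
  obtain ⟨R, hR⟩ : ∃ R : ℝ, R = 4 * a * K + C ^ 2 * (8 * (k * 2 ^ k)) ^ 2 := ⟨_, rfl⟩
  have hR0 : 0 ≤ R := by rw [hR]; positivity
  refine ⟨R, max (2 * k) ⌈2 * k / δ⌉₊, hR0, le_max_left _ _, fun n hn M hM j0 r => ?_⟩
  have hn1 : 2 * k ≤ n := le_of_max_le_left hn
  have hn2 : 2 * k ≤ δ * n := by
    have := Nat.ceil_le.1 (le_of_max_le_right hn)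
    rwa [div_le_iff₀ hδ0, mul_comm _ δ] at this
  have hn0 : (0 : ℝ) < n := by exact_mod_cast (by omega : 0 < n)
  induction r with
  | zero =>
    intro η W S A q h _ h2
    have hq : 0 ≤ ∑ G, q G := sum_nonneg fun G _ => h.nn G
    refine (sum_le_sum fun G _ => mul_le_mul_of_nonneg_left (Ph_le ..) (h.nn G)).trans ?_
    rw [← sum_mul, mul_comm]
    refine mul_le_mul_of_nonneg_right ?_ hq
    rw [mul_right_comm]
    refine mul_le_mul_of_nonneg_right ?_ hn0.le
    have b1 : (n : ℝ) ≤ 8 * (k * 2 ^ k) * (1 + W.card + Aᶜ.card) := h2.trans (by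
      refine mul_le_mul_of_nonneg_left ?_ (by positivity)
      simp only [Nat.cast_zero]
      linarith [Nat.cast_nonneg (α := ℝ) Aᶜ.card])
    have b2 : (M : ℝ) ^ 2 ≤ (C * (8 * (k * 2 ^ k) * (1 + W.card + Aᶜ.card))) ^ 2 := by
      gcongr
      exact hM.trans (by gcongr)
    refine b2.trans ?_
    rw [mul_pow, mul_pow, ← mul_assoc, hR]
    gcongr
    exact le_add_of_nonneg_left (by positivity)
  | succ r ih =>
    intro η W S A q h h1 h2
    have hq : 0 ≤ ∑ G, q G := sum_nonneg fun G _ => h.nn G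
    have hκ : (0 : ℝ) ≤ k * 2 ^ k / n := by positivity
    push_cast at h1 h2
    simp only [Ph_eq]
    rw [sum_congr rfl fun G _ => mul_sum _ _ (q G), sum_comm]
    have b1 := sum_le_sum (s := univ.filter fun ℓ : Fin n × Bool => ℓ.1 ∉ W) fun ℓ hℓ =>
      h.step_lit hk hn1 hδ0 hn2 hM hR0 (by nlinarith [mul_nonneg (Nat.cast_nonneg r) hκ])
        (mem_filter.1 hℓ).2 ℓ.2 fun W' S' A' q' h' hW => ih _ W' S' A' q' h' (by linarith)
          (h2.trans (by
            have : (W.card : ℝ) + 1 ≤ W'.card := by exact_mod_cast hW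
            exact mul_le_mul_of_nonneg_left (by linarith) (by positivity)))
    refine b1.trans ?_
    rw [sum_const, nsmul_eq_mul, ← ha, add_assoc (δ * R), ← hK]
    have b2 : ((univ.filter fun ℓ : Fin n × Bool => ℓ.1 ∉ W).card : ℝ) ≤ n * 2 := by
      exact_mod_cast (card_le_univ _).trans_eq (by simp)
    refine (mul_le_mul_of_nonneg_right b2 (by positivity)).trans ?_
    have b3 : 2 * (a * (δ * R + K)) ≤ R := by
      have : a * δ = 1 / 4 := by rw [hδ]; field_simp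
      have : 0 ≤ C ^ 2 * (8 * ((k : ℝ) * 2 ^ k)) ^ 2 := by positivity
      nlinarith
    have := mul_le_mul_of_nonneg_right b3
      (show 0 ≤ n * (1 + (W.card : ℝ) + Aᶜ.card) ^ 2 * ∑ G, q G by positivity)
    linarith

end Crest.Agent.R153.A
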