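import Crest.Agent.R153.CertT

/-! Row 153: negativity of the cavity functional is recursively enumerable. -/

set_option autoImplicit false
open MeasureTheory Finset Function Filter Topology
open scoped BigOperators
open Crest.ProbabilityR.Diluted Crest.Agent.R141

namespace Crest.Agent.R153.D

lemma abs_th (b : ℝ) (J s : Fin 3 → Bool) : |th b J s| ≤ |Real.log b| := by
  unfold th; split_ifs <;> simp

lemma site_abs (b : ℝ) (k : ℕ) (a : Fin k → (muB b).Θ) (x : nu0.Θ) (s : Fin k × Fin (3 - 1) → Bool) :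
    |siteV (nu0.val x) (fun j => (muB b).val (a j)) s| ≤ |Real.log b| * (k + 1) := by
  refine (siteV_abs (c := fun _ => |Real.log b|) (fun j s => abs_th _ _ _) s).trans ?_
  have h0 : nu0.val x = 0 := rfl
  have := abs_nonneg (Real.log b)
  simp only [h0, abs_zero, sum_const, card_univ, Fintype.card_fin, nsmul_eq_mul]
  linarith

lemma summable_site {α : ℝ} (hα : 0 < α) (b : ℝ) {r : ℕ} {m : Fin r → ℝ} (hm : ∀ d, 0 < m d)
    {Z : (Fin (r + 1) → unitInterval) → ℝ} (hZ : Measurable Z) :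
    Summable fun k : ℕ => poissonWeight (α * 3) k * (muB b).exPi (Fin k) fun θs => nu0.ex fun h =>
      cavV r m Z (Fin k × Fin (3 - 1)) (siteV h θs) :=
  summable_poi (C := |Real.log b|) (by positivity) fun k =>
    ((muB b).exPi_abs fun a => nu0.ex_abs fun x => cavV_abs hm hZ (site_abs b k a x)).trans
      (by linarith [Real.add_one_le_exp (|Real.log b| * (k + 1))])

lemma TF_l1 {α : ℝ} (hα : 0 < α) (b : ℝ) {r : ℕ} {m : Fin r → ℝ} (hm : AdmissibleExponents m) :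
    ∃ A : ℝ, 0 < A ∧ ∀ X X' : (Fin (r + 1) → unitInterval) → ℝ, Measurable X → Measurable X' →
      ∀ η : ℝ, ∫ u, |tilt (X u) true - tilt (X' u) true|
        ∂(Measure.pi fun _ : Fin (r + 1) => (volume : Measure unitInterval)) ≤ η →
      TF α b r m X' ≤ TF α b r m X + η * A := by
  have hm0 := fun d => (hm.2 d).1
  set B := |Real.log b| with hBd
  have hB : 0 ≤ B := abs_nonneg _
  set C := (2 * r + 2) * B + 2 * 3 with hC
  have hlam : 0 ≤ α * 3 := by positivity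
  set D := ∑' k : ℕ, poissonWeight (α * 3) k * Real.exp (C * (k + 1)) with hD
  have hD0 : 0 ≤ D := tsum_nonneg fun k => mul_nonneg (poi_nonneg hlam k) (Real.exp_pos _).le
  refine ⟨D + α * 2 * Real.exp C, by positivity, fun X X' hX hX' η hη => ?_⟩
  have h1 := tsum_poi_lip hlam (summable_site hα b hm0 hX) (summable_site hα b hm0 hX')
    (D := fun k => η * Real.exp (C * (k + 1)))
    (((summable_poi_exp (α * 3) C).mul_left η).congr fun k => by ring) fun k =>
    (muB b).exPi_lip fun a => nu0.ex_lip fun x => (cavV_l1 hm hX hX' (site_abs b k a x)).trans (by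
      rw [mul_comm η]
      refine mul_le_mul ((const_le_exp _ _ _).trans (Real.exp_le_exp.2 ?_)) hη
        (integral_nonneg fun _ => abs_nonneg _) (Real.exp_pos _).le
      simp only [Fintype.card_prod, Fintype.card_fin, Nat.cast_mul, hC, ← hBd]
      have h2 : (0 : ℝ) ≤ k := Nat.cast_nonneg k
      push_cast
      nlinarith)
  have e1 : ∑' k : ℕ, poissonWeight (α * 3) k * (η * Real.exp (C * (k + 1))) = η * D := by
    rw [hD, ← tsum_mul_left]; exact tsum_congr fun k => by ring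
  rw [e1] at h1
  have h2 : |((muB b).ex fun θ => cavV r m X (Fin 3) θ) - (muB b).ex fun θ => cavV r m X' (Fin 3) θ|
      ≤ Real.exp C * η := (muB b).ex_lip fun x => (cavV_l1 hm hX hX' (abs_th b x)).trans (by
    refine mul_le_mul ((const_le_exp _ _ _).trans (le_of_eq ?_)) hη
      (integral_nonneg fun _ => abs_nonneg _) (Real.exp_pos _).le
    simp [hC, hBd])
  rw [TF, TF, trialFunctional_toM, trialFunctional_toM]
  have h3 := mul_le_mul_of_nonneg_left (abs_le.1 h2).2 (by positivity : 0 ≤ α * 2)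
  have h4 := (abs_le.1 h1).1
  push_cast
  norm_num at h3 h4 ⊢
  nlinarith

lemma exists_XC {r : ℕ} {X : (Fin (r + 1) → unitInterval) → ℝ} (hX : Measurable X) {η : ℝ}
    (hη : 0 < η) : ∃ K : ℕ, ∀ (c : unitInterval → Fin (K + 1)) (z : Fin (K + 1) → unitInterval),
      (∀ u, dist u (z (c u)) ≤ ((K + 1 : ℕ) : ℝ)⁻¹) →
      ∃ Y : List ℕ → ℝ, (∀ l, 0 < Y l ∧ Y l < 1) ∧
        ∫ u, |tilt (X u) true - tilt (XC c Y r u) true|
          ∂(Measure.pi fun _ : Fin (r + 1) => (volume : Measure unitInterval)) ≤ η := by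
  set μ := Measure.pi fun _ : Fin (r + 1) => (volume : Measure unitInterval) with hμ
  have hy : Measurable fun u => tilt (X u) true := (measurable_tilt _).comp hX
  have hi : Integrable (fun u => tilt (X u) true) μ :=
    Integrable.of_bound hy.aestronglyMeasurable 1 (ae_of_all _ fun u => abs_tilt_le _ _)
  obtain ⟨g, hg, hgi⟩ := hi.exists_boundedContinuous_integral_sub_le (ε := η / 3) (by positivity)
  obtain ⟨δ, hδ, hgδ⟩ := Metric.uniformContinuous_iff_le.1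
    (CompactSpace.uniformContinuous_of_continuous g.continuous) (η / 3) (by positivity)
  obtain ⟨K, hK⟩ := exists_nat_one_div_lt hδ
  refine ⟨K, fun c z hz => ?_⟩
  have hz' : ∀ u, dist u (z (c u)) ≤ δ := fun u => (hz u).trans (by
    rw [← one_div]; push_cast; exact hK.le)
  set κ := min (η / 3) (1 / 2) with hκ
  have hκ0 : 0 < κ := lt_min (by positivity) (by norm_num)
  have hκ1 : κ ≤ 1 / 2 := min_le_right _ _
  let Y : List ℕ → ℝ := fun l =>
    max κ (min (1 - κ) (g fun j => z (Fin.ofNat (K + 1) (l.getD (r - j) 0))))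
  have hY : ∀ l, 0 < Y l ∧ Y l < 1 := fun l =>
    ⟨hκ0.trans_le (le_max_left _ _), max_lt (by linarith) (min_lt_of_left_lt (by linarith))⟩
  refine ⟨Y, hY, ?_⟩
  have e : ∀ u, tilt (XC c Y r u) true = max κ (min (1 - κ) (g fun j => z (c (u j)))) := by
    intro u
    rw [XC, tilt_msg (hY _), if_pos rfl]
    simp only [Y]
    congr 3
    funext j
    rw [pth_getD _ _ _ (Nat.lt_succ_iff.1 j.2)]
    simp [extU, j.2]
  have hb : ∀ u, |tilt (X u) true - tilt (XC c Y r u) true| ≤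
      ‖tilt (X u) true - g u‖ + 2 * η / 3 := by
    intro u
    rw [e, abs_sub_comm]
    refine (abs_clip_sub hκ0.le hκ1 (tilt_pos _ _).le (abs_le.1 (abs_tilt_le _ _)).2).trans ?_
    have h1 := hgδ (a := u) (b := fun j => z (c (u j))) ((dist_pi_le_iff hδ.le).2 fun j => hz' _)
    rw [Real.dist_eq] at h1
    have h2 : κ ≤ η / 3 := min_le_left _ _
    have h3 := abs_sub_le (g fun j => z (c (u j))) (g u) (tilt (X u) true)
    rw [Real.norm_eq_abs, abs_sub_comm (tilt (X u) true)]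
    rw [abs_sub_comm] at h1
    linarith
  refine (integral_mono_of_nonneg (ae_of_all _ fun u => abs_nonneg _)
    ((hi.sub hgi).norm.add (integrable_const (2 * η / 3))) (ae_of_all _ hb)).trans ?_
  erw [integral_add (hi.sub hgi).norm (integrable_const _)]
  simp only [integral_const, probReal_univ, one_smul, Pi.sub_apply]
  linarith

section
variable {b : ℝ} {K : ℕ} {ms : List ℝ} {Y : List ℕ → ℝ}

lemma pm_site_mem (hb : 0 < b) (hb1 : b ≤ 1) (hm : ∀ m ∈ ms, 0 < m) (hY : ∀ l, 0 < Y l ∧ Y l < 1)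
    (k a : ℕ) (p : List ℕ) :
    b ^ k ≤ pmR ((K + 1) ^ (k * 2)) (fun path => siteF b k a (rd (K + 1) Y path)) ms p ∧
      pmR ((K + 1) ^ (k * 2)) (fun path => siteF b k a (rd (K + 1) Y path)) ms p ≤ 1 :=
  pmR_mem (by positivity) (by positivity)
    (fun _ => siteF_mem hb.le hb1 k a fun _ => ⟨(hY _).1.le, (hY _).2.le⟩) hm p

lemma pm_edge_mem (hb : 0 < b) (hb1 : b ≤ 1) (hm : ∀ m ∈ ms, 0 < m) (hY : ∀ l, 0 < Y l ∧ Y l < 1)
    (a : ℕ) (p : List ℕ) :
    b ≤ pmR ((K + 1) ^ 3) (fun path => edgeF b a (rd (K + 1) Y path)) ms p ∧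
      pmR ((K + 1) ^ 3) (fun path => edgeF b a (rd (K + 1) Y path)) ms p ≤ 1 :=
  pmR_mem (by positivity) hb.le
    (fun _ => edgeF_mem hb1 a fun _ => ⟨(hY _).1.le, (hY _).2.le⟩) hm p

lemma siteR_nonpos (hb : 0 < b) (hb1 : b ≤ 1) (hm : ∀ m ∈ ms, 0 < m) (hY : ∀ l, 0 < Y l ∧ Y l < 1)
    (k : ℕ) : siteR b K ms Y k ≤ 0 := by
  refine (av_mono fun a => (av_mono fun v => ?_).trans (av_const (by positivity) 0).le).trans
    (av_const (by positivity) 0).le
  have := pm_site_mem (K := K) hb hb1 hm hY k a [v]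
  exact Real.log_nonpos ((pow_pos hb k).le.trans this.1) this.2

end

section
variable {b : ℚ}

lemma yQ_mem (n : ℕ) (ys l : List ℕ) : (0 : ℝ) < yQ n ys l ∧ (yQ n ys l : ℝ) < 1 := fr_mem _ _

lemma siteL_cast (b : ℚ) (k a K n : ℕ) (ys p : List ℕ) :
    ((siteF b k a (rd K (yQ n ys) p) : ℚ) : ℝ) =
      siteF (b : ℝ) k a (rd K (fun l => (yQ n ys l : ℝ)) p) := siteF_cast ..

lemma edgeL_cast (b : ℚ) (a K n : ℕ) (ys p : List ℕ) :
    ((edgeF b a (rd K (yQ n ys) p) : ℚ) : ℝ) =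
      edgeF (b : ℝ) a (rd K (fun l => (yQ n ys l : ℝ)) p) := edgeF_cast ..

lemma siteL_mem (hb : (0 : ℝ) < b) (hb1 : (b : ℝ) ≤ 1) (k a K n : ℕ) (ys p : List ℕ) :
    (0 : ℝ) ≤ (siteF b k a (rd K (yQ n ys) p) : ℚ) ∧
      ((siteF b k a (rd K (yQ n ys) p) : ℚ) : ℝ) ≤ 1 := by
  rw [siteL_cast]
  have := siteF_mem hb.le hb1 k a (y := rd K (fun l => (yQ n ys l : ℝ)) p)
    fun _ => ⟨(yQ_mem ..).1.le, (yQ_mem ..).2.le⟩
  exact ⟨(pow_pos hb k).le.trans this.1, this.2⟩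

lemma edgeL_mem (hb : (0 : ℝ) < b) (hb1 : (b : ℝ) ≤ 1) (a K n : ℕ) (ys p : List ℕ) :
    (0 : ℝ) ≤ (edgeF b a (rd K (yQ n ys) p) : ℚ) ∧
      ((edgeF b a (rd K (yQ n ys) p) : ℚ) : ℝ) ≤ 1 := by
  rw [edgeL_cast]
  have := edgeF_mem hb1 a (y := rd K (fun l => (yQ n ys l : ℝ)) p)
    fun _ => ⟨(yQ_mem ..).1.le, (yQ_mem ..).2.le⟩
  exact ⟨hb.le.trans this.1, this.2⟩

lemma siteQ_hi (hb : (0 : ℝ) < b) (hb1 : (b : ℝ) ≤ 1) (K n : ℕ) (as ys : List ℕ) (k : ℕ) :
    siteR b K (as.map fun a => (fr n a : ℝ)) (fun l => (yQ n ys l : ℝ)) k ≤ siteQ b K n as ys k := by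
  rw [siteR, siteQ, av_cast]
  refine av_mono fun a => ?_
  rw [av_cast]
  refine av_mono fun v => ?_
  have h1 := pm_site_mem (K := K) hb hb1 (fr_pos_mem n as) (yQ_mem n ys) k a [v]
  have h0 := (pow_pos hb k).trans_le h1.1
  have h2 := pmQ_hi (n := n) (B := (K + 1) ^ (k * 2)) (by positivity)
    (siteL_mem hb hb1 k a (K + 1) n ys) as [v]
  simp only [siteL_cast] at h2
  exact (Real.log_le_log h0 h2).trans (lg_hi _ _ (h0.trans_le h2)
    (pmQ_mem (by positivity) (by simp) (siteL_mem hb hb1 k a (K + 1) n ys) _ _).2)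

lemma edgeQ_lo (hb : (0 : ℝ) < b) (hb1 : (b : ℝ) ≤ 1) (K n : ℕ) (as ys : List ℕ) :
    (edgeQ b K n as ys : ℝ) ≤ edgeR b K (as.map fun a => (fr n a : ℝ)) fun l => (yQ n ys l : ℝ) := by
  rw [edgeR, edgeQ, av_cast]
  refine av_mono fun a => ?_
  rw [av_cast]
  refine av_mono fun v => ?_
  have h1 := pm_edge_mem (K := K) hb hb1 (fr_pos_mem n as) (yQ_mem n ys) a [v]
  have h2 := pmQ_lo (n := n) (B := (K + 1) ^ 3) (by positivity)
    (edgeL_mem hb hb1 a (K + 1) n ys) as [v]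
  simp only [edgeL_cast] at h2
  have h3 := max_le h1.1 h2
  have h4 := hb.trans_le (le_max_left _ (pmQ n (1 / ((n + 1 : ℕ) : ℚ)) ((K + 1) ^ 3)
      (fun path => edgeF b a (rd (K + 1) (yQ n ys) path)) as [v] : ℝ))
  rw [← Rat.cast_max] at h3 h4
  exact (lg_lo _ _ h4 (h3.trans h1.2)).trans (Real.log_le_log h4 h3)

/-- the table of the `n`-th approximation of `Y` -/
noncomputable def tab (Y : List ℕ → ℝ) (n : ℕ) : List ℕ :=
  (List.range n).map fun e => ⌊Y ((@Encodable.decode _ Primcodable.toEncodable e).getD []) * n⌋₊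

lemma yQ_tendsto {Y : List ℕ → ℝ} (hY : ∀ l, 0 < Y l ∧ Y l < 1) (l : List ℕ) :
    Tendsto (fun n => (yQ n (tab Y n) l : ℝ)) atTop (𝓝 (Y l)) := by
  refine (fr_tendsto (hY l).1.le (hY l).2.le).congr' ?_
  filter_upwards [eventually_gt_atTop (enL l)] with n hn
  rw [yQ, tab, List.getD_eq_getElem _ _ (by simpa using hn), List.getElem_map, List.getElem_range,
    enL, Encodable.encodek, Option.getD_some]

lemma rd_tendsto {Y : List ℕ → ℝ} (hY : ∀ l, 0 < Y l ∧ Y l < 1) (K : ℕ) (p : List ℕ) :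
    Tendsto (fun n => rd K (fun l => (yQ n (tab Y n) l : ℝ)) p) atTop (𝓝 (rd K Y p)) :=
  tendsto_pi_nhds.2 fun _ => yQ_tendsto hY _

lemma siteQ_tendsto (hb : (0 : ℝ) < b) (hb1 : (b : ℝ) ≤ 1) (K : ℕ) {ms : List ℝ}
    (hm : ∀ m ∈ ms, 0 < m ∧ m ≤ 1) {Y : List ℕ → ℝ} (hY : ∀ l, 0 < Y l ∧ Y l < 1) (k : ℕ) :
    Tendsto (fun n : ℕ => (siteQ b K n (ms.map fun m : ℝ => ⌊m * (n : ℝ)⌋₊) (tab Y n) k : ℝ)) atTop
      (𝓝 (siteR b K ms Y k)) := by
  simp only [siteQ, av_cast]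
  refine av_tendsto fun a => av_tendsto fun v => lg_tendsto 1
    ((pow_pos hb k).trans_le (pm_site_mem hb hb1 (fun m h => (hm m h).1) hY k a [v]).1)
    (fun n => (pmQ_mem (by positivity) (by simp) (siteL_mem hb hb1 k a (K + 1) n _) _ _).2) ?_
  refine pmQ_tendsto (t := fun _ => 0) (by positivity) (fun n => ⟨by simp, ?_⟩)
    (fun n => siteL_mem hb hb1 k a (K + 1) n _) (fun p => ?_) hm _
  · rw [Rat.cast_zero]; positivity
  · simp only [siteL_cast]
    exact ((continuous_siteF b k a).tendsto _).comp (rd_tendsto hY _ p)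

lemma edgeQ_tendsto (hb : (0 : ℝ) < b) (hb1 : (b : ℝ) ≤ 1) (K : ℕ) {ms : List ℝ}
    (hm : ∀ m ∈ ms, 0 < m ∧ m ≤ 1) {Y : List ℕ → ℝ} (hY : ∀ l, 0 < Y l ∧ Y l < 1) :
    Tendsto (fun n : ℕ => (edgeQ b K n (ms.map fun m : ℝ => ⌊m * (n : ℝ)⌋₊) (tab Y n) : ℝ)) atTop
      (𝓝 (edgeR b K ms Y)) := by
  simp only [edgeQ, av_cast]
  refine av_tendsto fun a => av_tendsto fun v => ?_
  have h1 := pm_edge_mem (K := K) hb hb1 (fun m h => (hm m h).1) hY a [v]
  refine lg_tendsto (-1) (hb.trans_le h1.1) (fun n => ?_) ?_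
  · rw [Rat.cast_max]
    exact max_le hb1
      (pmQ_mem (by positivity) (by positivity) (edgeL_mem hb hb1 a (K + 1) n _) _ _).2
  · simp only [Rat.cast_max]
    rw [← max_eq_right h1.1]
    refine tendsto_const_nhds.max (pmQ_tendsto (t := fun n => 1 / ((n + 1 : ℕ) : ℚ)) (by positivity)
      (fun n => ⟨by positivity, by simp⟩) (fun n => edgeL_mem hb hb1 a (K + 1) n _)
      (fun p => ?_) hm _)
    simp only [edgeL_cast]
    exact ((continuous_edgeF b a).tendsto _).comp (rd_tendsto hY _ p)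

end

lemma log_half : Real.log ((1 / 2 : ℚ) : ℝ) = -Real.log 2 := by
  push_cast
  rw [one_div, Real.log_inv]

lemma sound {c b : ℚ} (hc : (0 : ℝ) < c) (hb : (0 : ℝ) < b) (hb1 : (b : ℝ) ≤ 1) (x : Code)
    (h : Ok (c, b) x) : Neg c b 0 := by
  obtain ⟨K, Km, n, as, ys⟩ := x
  obtain ⟨h1, h2⟩ := h
  simp only at h1 h2
  obtain ⟨cc, z, hcc, -⟩ := exists_cells_fin (K + 1) (Nat.succ_pos K)
  let m : Fin as.length → ℝ := fun i => fr n (as.getD i 0)
  have hm : AdmissibleExponents m :=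
    ⟨fun i j hij => Rat.cast_lt.2 (h1 j j.2 i hij), fun i => fr_mem _ _⟩
  have hl : List.ofFn m = as.map fun a => (fr n a : ℝ) := by
    refine List.ext_getElem (by simp) fun i h _ => ?_
    simp [m]
  have hX := measurable_XC hcc.1 (fun l => (yQ n ys l : ℝ)) as.length
  refine ⟨as.length, m, _, hm, hX, ?_⟩
  have hs := summable_site hc b (fun d => (hm.2 d).1) hX
  simp only [site_XC hcc (yQ_mem n ys) m hb, hl] at hs
  rw [TF_XC hcc (yQ_mem n ys) m c hb, hl]
  have hlam : (0 : ℝ) ≤ c * 3 := by positivity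
  have hS := siteR_nonpos (K := K) hb hb1 (fr_pos_mem n as) (yQ_mem n ys)
  have a1 := hs.neg.sum_le_tsum (range Km) fun k _ =>
    neg_nonneg.2 (mul_nonpos_of_nonneg_of_nonpos (poi_nonneg hlam k) (hS k))
  rw [tsum_neg, sum_neg_distrib] at a1
  have a2 : ∑ k ∈ range Km, poissonWeight (c * 3) k *
      siteR b K (as.map fun a => (fr n a : ℝ)) (fun l => (yQ n ys l : ℝ)) k ≤
      ∑ k ∈ range Km, (poQ n (c * 3) k : ℝ) * siteQ b K n as ys k := by
    refine sum_le_sum fun k _ => ?_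
    have hp := poQ_mem n (l := c * 3) (by push_cast; exact hlam) k
    refine le_trans (mul_le_mul_of_nonpos_right ?_ (hS k))
      (mul_le_mul_of_nonneg_left (siteQ_hi hb hb1 K n as ys k) hp.1)
    simpa [poissonWeight] using hp.2
  have a3 := mul_le_mul_of_nonneg_left (edgeQ_lo hb hb1 K n as ys) (by positivity : (0 : ℝ) ≤ c * 2)
  have a4 := lg_lo n (1 / 2) (by norm_num) (by norm_num)
  rw [log_half] at a4
  have a5 : ((hiQ c b K Km n as ys : ℚ) : ℝ) < 0 := by exact_mod_cast h2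
  simp only [hiQ, Rat.cast_sub, Rat.cast_add, Rat.cast_neg, Rat.cast_sum, Rat.cast_mul,
    Rat.cast_ofNat] at a5
  linarith

lemma complete {c b : ℚ} (hc : (0 : ℝ) < c) (hb : (0 : ℝ) < b) (hb1 : (b : ℝ) ≤ 1)
    (h : Neg c b 0) : ∃ x, Ok (c, b) x := by
  obtain ⟨r, m, X, hm, hX, h⟩ := h
  obtain ⟨A, hA, hA'⟩ := TF_l1 hc (b : ℝ) hm
  obtain ⟨K, hK⟩ := exists_XC hX (η := -TF c b r m X / 2 / A) (div_pos (by linarith) hA)
  obtain ⟨cc, z, hcc, hz⟩ := exists_cells_fin (K + 1) (Nat.succ_pos K)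
  obtain ⟨Y, hY, hη⟩ := hK cc z hz
  have hX' := measurable_XC hcc.1 Y r
  have h1 := hA' X _ hX hX' _ hη
  rw [div_mul_cancel₀ _ hA.ne', TF_XC hcc hY m c hb] at h1
  have hs := summable_site hc b (fun d => (hm.2 d).1) hX'
  simp only [site_XC hcc hY m hb] at hs
  have h2 := (hs.hasSum.tendsto_sum_nat.const_add (Real.log 2)).sub_const
    (c * 2 * edgeR b K (List.ofFn m) Y)
  obtain ⟨Km, hKm⟩ := (h2.eventually (gt_mem_nhds (show _ < (0 : ℝ) by linarith))).exists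
  have hms : ∀ x ∈ List.ofFn m, 0 < x ∧ x ≤ 1 := by
    intro x hx
    obtain ⟨i, rfl⟩ := List.mem_ofFn.1 hx
    exact ⟨(hm.2 i).1, (hm.2 i).2.le⟩
  have h3 : Tendsto (fun n : ℕ => (hiQ c b K Km n ((List.ofFn m).map fun x : ℝ => ⌊x * (n : ℝ)⌋₊)
      (tab Y n) : ℝ)) atTop (𝓝 (Real.log 2 + ∑ k ∈ range Km, poissonWeight (c * 3) k *
        siteR b K (List.ofFn m) Y k - c * 2 * edgeR b K (List.ofFn m) Y)) := by
    simp only [hiQ, Rat.cast_sub, Rat.cast_add, Rat.cast_neg, Rat.cast_sum, Rat.cast_mul,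
      Rat.cast_ofNat]
    refine (Tendsto.add ?_ (tendsto_finsetSum _ fun k _ => Tendsto.mul ?_
      (siteQ_tendsto hb hb1 K hms hY k))).sub ((edgeQ_tendsto hb hb1 K hms hY).const_mul _)
    · have := (lg_tendsto (-1) (x := fun _ => 1 / 2) (y := ((1 / 2 : ℚ) : ℝ)) (by norm_num)
        (fun _ => by norm_num) tendsto_const_nhds).neg
      rwa [log_half, neg_neg] at this
    · simpa [poissonWeight] using poQ_tendsto (c * 3) k
  have h4 : ∀ᶠ n : ℕ in atTop, ∀ i j : Fin r, i < j →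
      (fr n ⌊m i * (n : ℝ)⌋₊ : ℝ) < fr n ⌊m j * (n : ℝ)⌋₊ := by
    refine eventually_all.2 fun i => eventually_all.2 fun j => ?_
    by_cases hij : i < j
    · exact ((fr_tendsto (hm.2 i).1.le (hm.2 i).2.le).eventually_lt
        (fr_tendsto (hm.2 j).1.le (hm.2 j).2.le) (hm.1 hij)).mono fun n hn _ => hn
    · exact Eventually.of_forall fun n h => absurd h hij
  obtain ⟨n, hn1, hn2⟩ := ((h3.eventually (gt_mem_nhds hKm)).and h4).exists
  refine ⟨(K, Km, n, (List.ofFn m).map fun x : ℝ => ⌊x * (n : ℝ)⌋₊, tab Y n), ?_,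
    by exact_mod_cast hn1⟩
  intro j hj i hij
  have hj' : j < r := by simpa using hj
  have := hn2 ⟨i, by omega⟩ ⟨j, hj'⟩ hij
  rw [Rat.cast_lt] at this
  simpa [hj', hij.trans hj'] using this

end Crest.Agent.R153.D

namespace Crest.Agent.R153

theorem cert : CertStmt := by
  obtain ⟨U, hU, h⟩ := D.exists_U
  refine ⟨U, hU, fun c b hc hb hb1 => (h (c, b)).trans ?_⟩
  have hc' : (0 : ℝ) < c := by exact_mod_cast hc
  have hb' : (0 : ℝ) < b := by exact_mod_cast hb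
  have hb1' : (b : ℝ) ≤ 1 := by exact_mod_cast hb1
  exact ⟨fun ⟨x, hx⟩ => D.sound hc' hb' hb1' x hx, D.complete hc' hb' hb1'⟩

end Crest.Agent.R153
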