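import Crest.Agent.RatPR.Basic

/-! Row 153, certificates: the rational upper bound for the cavity functional of a coded trial is
primitive recursive. -/

set_option autoImplicit false
open Finset
open scoped BigOperators
open Crest.Agent

namespace Crest.Agent.R153.D

/-- the digit number `i` of `v` in base `K` -/
def dg (K i v : ℕ) : ℕ := v / K ^ i % K

section gen
variable {F : Type*} [Field F]

/-- probability that the literal `l` of the clause `d` is violated -/
def lit (d l : ℕ) (y : F) : F := if dg 2 l d = 1 then 1 - y else y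

/-- the mean weight of a soft clause -/
def cl (b : F) (d : ℕ) (y0 y1 y2 : F) : F := 1 - (1 - b) * (lit d 0 y0 * lit d 1 y1 * lit d 2 y2)

def edgeF (b : F) (a : ℕ) (y : ℕ → F) : F := cl b a (y 0) (y 1) (y 2)

def siteF (b : F) (k a : ℕ) (y : ℕ → F) : F :=
  (∏ j ∈ range k, cl b (dg 8 j a) (y (0 + 2 * j)) (y (1 + 2 * j)) 1 +
    ∏ j ∈ range k, cl b (dg 8 j a) (y (0 + 2 * j)) (y (1 + 2 * j)) 0) / 2

/-- the spin probabilities read along a path -/
def rd (K : ℕ) (Y : List ℕ → F) (path : List ℕ) (i : ℕ) : F := Y (path.map (dg K i))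

def av (B : ℕ) (f : ℕ → F) : F := (∑ v ∈ range B, f v) / B

end gen

def fr (n a : ℕ) : ℚ := ((min a n + 1 : ℕ) : ℚ) / ((n + 2 : ℕ) : ℚ)

/-- rational approximation of `x ^ (p / q)` -/
def pwQ (n : ℕ) (t x : ℚ) (p q : ℕ) : ℚ :=
  max (av (n + 1) (fun i => if ((i : ℚ) / ((n + 1 : ℕ) : ℚ)) ^ q < x ^ p then 1 else 0) - t) 0

/-- rational approximation of the nested power means -/
def pmQ (n : ℕ) (t : ℚ) (B : ℕ) (leaf : List ℕ → ℚ) : List ℕ → List ℕ → ℚ
  | [], path => leaf path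
  | a :: as, path => pwQ n t
      (av B fun v => pwQ n t (pmQ n t B leaf as (v :: path)) (min a n + 1) (n + 2))
      (n + 2) (min a n + 1)

def lgE (n : ℕ) (x : ℚ) : ℚ := (1 - x) ^ (n + 1) / x

/-- rational approximation of the logarithm, `s = 1` from above, `s = -1` from below -/
def lg (n : ℕ) (s x : ℚ) : ℚ :=
  -(∑ i ∈ range n, (1 - x) ^ (i + 1) / ((i + 1 : ℕ) : ℚ)) + s * lgE n x

/-- lower bound for the Poisson weight -/
def poQ (n : ℕ) (l : ℚ) (k : ℕ) : ℚ :=
  max (1 - l / ((n + 1 : ℕ) : ℚ)) 0 ^ (n + 1) * ∏ i ∈ range k, l / ((i + 1 : ℕ) : ℚ)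

def enL (l : List ℕ) : ℕ := @Encodable.encode _ Primcodable.toEncodable l

def yQ (n : ℕ) (ys : List ℕ) (col : List ℕ) : ℚ := fr n (ys.getD (enL col) 0)

abbrev Code : Type := ℕ × ℕ × ℕ × List ℕ × List ℕ

def siteQ (b : ℚ) (K n : ℕ) (as ys : List ℕ) (k : ℕ) : ℚ :=
  av (8 ^ k) fun a => av ((K + 1) ^ (k * 2)) fun v => lg n 1
    (pmQ n 0 ((K + 1) ^ (k * 2)) (fun path => siteF b k a (rd (K + 1) (yQ n ys) path)) as [v])

def edgeQ (b : ℚ) (K n : ℕ) (as ys : List ℕ) : ℚ :=
  av 8 fun a => av ((K + 1) ^ 3) fun v => lg n (-1) (max b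
    (pmQ n (1 / ((n + 1 : ℕ) : ℚ)) ((K + 1) ^ 3)
      (fun path => edgeF b a (rd (K + 1) (yQ n ys) path)) as [v]))

def hiQ (c b : ℚ) (K Km n : ℕ) (as ys : List ℕ) : ℚ :=
  -lg n (-1) (1 / 2) + ∑ k ∈ range Km, poQ n (c * 3) k * siteQ b K n as ys k -
    c * 2 * edgeQ b K n as ys

def Chk (n : ℕ) (as : List ℕ) : Prop :=
  ∀ j < as.length, ∀ i < j, fr n (as.getD i 0) < fr n (as.getD j 0)

def Ok (cb : ℚ × ℚ) (x : Code) : Prop :=
  Chk x.2.2.1 x.2.2.2.1 ∧ hiQ cb.1 cb.2 x.1 x.2.1 x.2.2.1 x.2.2.2.1 x.2.2.2.2 < 0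

section prim
variable {α : Type*} [Primcodable α]

lemma p_sum {n : α → ℕ} {f : α → ℕ → ℚ} (hn : Primrec n) (hf : Primrec₂ f) :
    Primrec fun a => ∑ i ∈ range (n a), f a i := by
  have h := Primrec.nat_rec' hn (Primrec.const (0 : ℚ))
    (h := fun a (x : ℕ × ℚ) => x.2 + f a x.1)
    (RatPR.add (Primrec.snd.comp Primrec.snd)
      (hf.comp Primrec.fst (Primrec.fst.comp Primrec.snd))).to₂
  refine h.of_eq fun a => ?_
  induction n a with
  | zero => simp
  | succ k ih => simp only [ih, sum_range_succ]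

lemma p_prod {n : α → ℕ} {f : α → ℕ → ℚ} (hn : Primrec n) (hf : Primrec₂ f) :
    Primrec fun a => ∏ i ∈ range (n a), f a i := by
  have h := Primrec.nat_rec' hn (Primrec.const (1 : ℚ))
    (h := fun a (x : ℕ × ℚ) => x.2 * f a x.1)
    (RatPR.mul (Primrec.snd.comp Primrec.snd)
      (hf.comp Primrec.fst (Primrec.fst.comp Primrec.snd))).to₂
  refine h.of_eq fun a => ?_
  induction n a with
  | zero => simp
  | succ k ih => simp only [ih, prod_range_succ]

lemma p_av {n : α → ℕ} {f : α → ℕ → ℚ} (hn : Primrec n) (hf : Primrec₂ f) :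
    Primrec fun a => av (n a) (f a) :=
  RatPR.div (p_sum hn hf) (RatPR.natCast hn)

lemma p_max {f g : α → ℚ} (hf : Primrec f) (hg : Primrec g) : Primrec fun a => max (f a) (g a) :=
  (Primrec.ite (RatPR.le hf hg) hg hf).of_eq fun a => by rw [max_def]

lemma p_dg {K i v : α → ℕ} (hK : Primrec K) (hi : Primrec i) (hv : Primrec v) :
    Primrec fun a => dg (K a) (i a) (v a) :=
  Primrec.nat_mod.comp (Primrec.nat_div.comp hv (RatPR.nat_pow hK hi)) hK

lemma p_lit {d : α → ℕ} {y : α → ℚ} (l : ℕ) (hd : Primrec d) (hy : Primrec y) :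
    Primrec fun a => lit (d a) l (y a) :=
  Primrec.ite (Primrec.eq.comp (p_dg (.const 2) (.const l) hd) (.const 1))
    (RatPR.sub (.const 1) hy) hy

lemma p_cl {d : α → ℕ} {b y0 y1 y2 : α → ℚ} (hb : Primrec b) (hd : Primrec d) (h0 : Primrec y0)
    (h1 : Primrec y1) (h2 : Primrec y2) : Primrec fun a => cl (b a) (d a) (y0 a) (y1 a) (y2 a) :=
  RatPR.sub (.const 1) (RatPR.mul (RatPR.sub (.const 1) hb)
    (RatPR.mul (RatPR.mul (p_lit 0 hd h0) (p_lit 1 hd h1)) (p_lit 2 hd h2)))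

lemma p_edgeF {d : α → ℕ} {b : α → ℚ} {y : α → ℕ → ℚ} (hb : Primrec b) (hd : Primrec d)
    (hy : Primrec₂ y) : Primrec fun a => edgeF (b a) (d a) (y a) :=
  p_cl hb hd (hy.comp .id (.const 0)) (hy.comp .id (.const 1)) (hy.comp .id (.const 2))

lemma p_siteF {k d : α → ℕ} {b : α → ℚ} {y : α → ℕ → ℚ} (hb : Primrec b) (hk : Primrec k)
    (hd : Primrec d) (hy : Primrec₂ y) : Primrec fun a => siteF (b a) (k a) (d a) (y a) := by
  have h : ∀ z : ℚ, Primrec fun a =>
      ∏ j ∈ range (k a), cl (b a) (dg 8 j (d a)) (y a (0 + 2 * j)) (y a (1 + 2 * j)) z := fun z =>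
    p_prod hk (p_cl (hb.comp Primrec.fst) (p_dg (.const 8) Primrec.snd (hd.comp Primrec.fst))
      (hy.comp Primrec.fst (Primrec.nat_add.comp (.const 0) (Primrec.nat_double.comp Primrec.snd)))
      (hy.comp Primrec.fst (Primrec.nat_add.comp (.const 1) (Primrec.nat_double.comp Primrec.snd)))
      (.const z)).to₂
  exact RatPR.div (RatPR.add (h 1) (h 0)) (.const 2)

lemma p_fr {n x : α → ℕ} (hn : Primrec n) (hx : Primrec x) : Primrec fun a => fr (n a) (x a) :=
  RatPR.div (RatPR.natCast (Primrec.succ.comp (Primrec.nat_min.comp hx hn)))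
    (RatPR.natCast (Primrec.nat_add.comp hn (.const 2)))

lemma p_yQ {n : α → ℕ} {ys col : α → List ℕ} (hn : Primrec n) (hys : Primrec ys)
    (hc : Primrec col) : Primrec fun a => yQ (n a) (ys a) (col a) :=
  p_fr hn ((Primrec.list_getD 0).comp hys (Primrec.encode.comp hc))

lemma p_rd {K n : α → ℕ} {ys path : α → List ℕ} (hK : Primrec K) (hn : Primrec n)
    (hys : Primrec ys) (hp : Primrec path) :
    Primrec₂ fun a i => rd (K a) (yQ (n a) (ys a)) (path a) i :=
  p_yQ (hn.comp Primrec.fst) (hys.comp Primrec.fst) (Primrec.list_map (hp.comp Primrec.fst)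
    (p_dg (hK.comp (Primrec.fst.comp Primrec.fst)) (Primrec.snd.comp Primrec.fst) Primrec.snd).to₂)

lemma p_pwQ {n p q : α → ℕ} {t x : α → ℚ} (hn : Primrec n) (ht : Primrec t) (hx : Primrec x)
    (hp : Primrec p) (hq : Primrec q) : Primrec fun a => pwQ (n a) (t a) (x a) (p a) (q a) := by
  have h1 : Primrec₂ fun a (i : ℕ) =>
      if ((i : ℚ) / ((n a + 1 : ℕ) : ℚ)) ^ q a < x a ^ p a then (1 : ℚ) else 0 :=
    Primrec.ite (RatPR.lt (RatPR.pow (RatPR.div (RatPR.natCast Primrec.snd)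
      (RatPR.natCast (Primrec.succ.comp (hn.comp Primrec.fst)))) (hq.comp Primrec.fst))
      (RatPR.pow (hx.comp Primrec.fst) (hp.comp Primrec.fst))) (.const 1) (.const 0)
  exact p_max (RatPR.sub (p_av (Primrec.succ.comp hn) h1) ht) (.const 0)

lemma p_pmQ {n B : α → ℕ} {t : α → ℚ} {leaf : α → List ℕ → ℚ} (hn : Primrec n) (ht : Primrec t)
    (hB : Primrec B) (hl : Primrec₂ leaf) :
    Primrec fun x : α × List ℕ × List ℕ => pmQ (n x.1) (t x.1) (B x.1) (leaf x.1) x.2.1 x.2.2 := by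
  have a1 : Primrec fun x : α × List ℕ × List ℕ => x.2.1 := Primrec.fst.comp Primrec.snd
  have a2 : Primrec fun x : α × List ℕ × List ℕ => x.2.2 := Primrec.snd.comp Primrec.snd
  refine Primrec.nat_omega_rec' _ (m := fun x => x.2.1.length)
    (l := fun x => if x.2.1 = [] then [] else
      (List.range (B x.1)).map fun v => (x.1, x.2.1.tail, v :: x.2.2))
    (g := fun x vals => some (if x.2.1 = [] then leaf x.1 x.2.2 else
      pwQ (n x.1) (t x.1) (av (B x.1) fun v => pwQ (n x.1) (t x.1) (vals.getD v 0)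
        (min x.2.1.headI (n x.1) + 1) (n x.1 + 2)) (n x.1 + 2) (min x.2.1.headI (n x.1) + 1)))
    (Primrec.list_length.comp a1) ?_ ?_ ?_ ?_
  · exact Primrec.ite (Primrec.eq.comp a1 (.const [])) (.const [])
      (Primrec.list_map (Primrec.list_range.comp (hB.comp Primrec.fst))
        ((Primrec.fst.comp Primrec.fst).pair ((Primrec.list_tail.comp (a1.comp Primrec.fst)).pair
          (Primrec.list_cons.comp Primrec.snd (a2.comp Primrec.fst)))).to₂)
  · have b0 : Primrec fun y : (α × List ℕ × List ℕ) × List ℚ => y.1.1 :=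
      Primrec.fst.comp Primrec.fst
    have bp : Primrec fun y : (α × List ℕ × List ℕ) × List ℚ => min y.1.2.1.headI (n y.1.1) + 1 :=
      Primrec.succ.comp (Primrec.nat_min.comp (Primrec.list_headI.comp (a1.comp Primrec.fst))
        (hn.comp b0))
    have bq : Primrec fun y : (α × List ℕ × List ℕ) × List ℚ => n y.1.1 + 2 :=
      Primrec.nat_add.comp (hn.comp b0) (.const 2)
    have b1 : Primrec₂ fun (y : (α × List ℕ × List ℕ) × List ℚ) (v : ℕ) =>
        pwQ (n y.1.1) (t y.1.1) (y.2.getD v 0) (min y.1.2.1.headI (n y.1.1) + 1) (n y.1.1 + 2) :=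
      p_pwQ (hn.comp (b0.comp Primrec.fst)) (ht.comp (b0.comp Primrec.fst))
        ((Primrec.list_getD 0).comp (Primrec.snd.comp Primrec.fst) Primrec.snd)
        (bp.comp Primrec.fst) (bq.comp Primrec.fst)
    exact Primrec.option_some.comp (Primrec.ite (Primrec.eq.comp (a1.comp Primrec.fst) (.const []))
      (hl.comp b0 (a2.comp Primrec.fst))
      (p_pwQ (hn.comp b0) (ht.comp b0) (p_av (hB.comp b0) b1) bq bp))
  · rintro ⟨a, as, path⟩ b' hb'
    cases as with
    | nil => simp at hb'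
    | cons m as =>
      simp only [reduceCtorEq, if_false, List.mem_map] at hb'
      obtain ⟨v, _, rfl⟩ := hb'
      simp
  · rintro ⟨a, as, path⟩
    cases as with
    | nil => simp [pmQ]
    | cons m as =>
      simp only [reduceCtorEq, if_false, pmQ, List.headI_cons, List.tail_cons, List.map_map]
      congr 2
      unfold av
      congr 1
      refine sum_congr rfl fun v hv => ?_
      rw [mem_range] at hv
      simp [hv]

lemma p_lg {n : α → ℕ} {x : α → ℚ} (s : ℚ) (hn : Primrec n) (hx : Primrec x) :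
    Primrec fun a => lg (n a) s (x a) := by
  have h1 : Primrec₂ fun a (i : ℕ) => (1 - x a) ^ (i + 1) / ((i + 1 : ℕ) : ℚ) :=
    RatPR.div (RatPR.pow (RatPR.sub (.const 1) (hx.comp Primrec.fst))
      (Primrec.succ.comp Primrec.snd)) (RatPR.natCast (Primrec.succ.comp Primrec.snd))
  exact RatPR.add (RatPR.neg' (p_sum hn h1)) (RatPR.mul (.const s)
    (RatPR.div (RatPR.pow (RatPR.sub (.const 1) hx) (Primrec.succ.comp hn)) hx))

lemma p_poQ {n k : α → ℕ} {l : α → ℚ} (hn : Primrec n) (hl : Primrec l) (hk : Primrec k) :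
    Primrec fun a => poQ (n a) (l a) (k a) := by
  have h1 : Primrec₂ fun a (i : ℕ) => l a / ((i + 1 : ℕ) : ℚ) :=
    RatPR.div (hl.comp Primrec.fst) (RatPR.natCast (Primrec.succ.comp Primrec.snd))
  exact RatPR.mul (RatPR.pow (p_max (RatPR.sub (.const 1)
    (RatPR.div hl (RatPR.natCast (Primrec.succ.comp hn)))) (.const 0)) (Primrec.succ.comp hn))
    (p_prod hk h1)

lemma p_siteQ {K n k : α → ℕ} {b : α → ℚ} {as ys : α → List ℕ} (hb : Primrec b) (hK : Primrec K)
    (hn : Primrec n) (has : Primrec as) (hys : Primrec ys) (hk : Primrec k) :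
    Primrec fun a => siteQ (b a) (K a) (n a) (as a) (ys a) (k a) := by
  have hB : Primrec fun a => (K a + 1) ^ (k a * 2) :=
    RatPR.nat_pow (Primrec.succ.comp hK) (Primrec.nat_mul.comp hk (.const 2))
  have f1 : Primrec fun y : (α × ℕ) × List ℕ => y.1.1 := Primrec.fst.comp Primrec.fst
  have hl : Primrec₂ fun (y : α × ℕ) (path : List ℕ) =>
      siteF (b y.1) (k y.1) y.2 (rd (K y.1 + 1) (yQ (n y.1) (ys y.1)) path) :=
    p_siteF (hb.comp f1) (hk.comp f1) (Primrec.snd.comp Primrec.fst)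
      (p_rd (Primrec.succ.comp (hK.comp f1)) (hn.comp f1) (hys.comp f1) Primrec.snd)
  have hp := p_pmQ (hn.comp Primrec.fst) (Primrec.const (0 : ℚ)) (hB.comp Primrec.fst) hl
  have f2 : Primrec fun y : (α × ℕ) × ℕ => y.1.1 := Primrec.fst.comp Primrec.fst
  have h2 : Primrec₂ fun (y : α × ℕ) (v : ℕ) => lg (n y.1) 1
      (pmQ (n y.1) 0 ((K y.1 + 1) ^ (k y.1 * 2))
        (fun path => siteF (b y.1) (k y.1) y.2 (rd (K y.1 + 1) (yQ (n y.1) (ys y.1)) path))
        (as y.1) [v]) :=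
    p_lg 1 (hn.comp f2) (hp.comp (Primrec.fst.pair ((has.comp f2).pair
      (Primrec.list_cons.comp Primrec.snd (.const [])))))
  exact p_av (RatPR.nat_pow (.const 8) hk) (p_av (hB.comp Primrec.fst) h2).to₂

lemma p_edgeQ {K n : α → ℕ} {b : α → ℚ} {as ys : α → List ℕ} (hb : Primrec b) (hK : Primrec K)
    (hn : Primrec n) (has : Primrec as) (hys : Primrec ys) :
    Primrec fun a => edgeQ (b a) (K a) (n a) (as a) (ys a) := by
  have hB : Primrec fun a => (K a + 1) ^ 3 :=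
    RatPR.nat_pow (Primrec.succ.comp hK) (.const 3)
  have f1 : Primrec fun y : (α × ℕ) × List ℕ => y.1.1 := Primrec.fst.comp Primrec.fst
  have hl : Primrec₂ fun (y : α × ℕ) (path : List ℕ) =>
      edgeF (b y.1) y.2 (rd (K y.1 + 1) (yQ (n y.1) (ys y.1)) path) :=
    p_edgeF (hb.comp f1) (Primrec.snd.comp Primrec.fst)
      (p_rd (Primrec.succ.comp (hK.comp f1)) (hn.comp f1) (hys.comp f1) Primrec.snd)
  have ht : Primrec fun y : α × ℕ => (1 : ℚ) / ((n y.1 + 1 : ℕ) : ℚ) :=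
    RatPR.div (.const 1) (RatPR.natCast (Primrec.succ.comp (hn.comp Primrec.fst)))
  have hp := p_pmQ (hn.comp Primrec.fst) ht (hB.comp Primrec.fst) hl
  have f2 : Primrec fun y : (α × ℕ) × ℕ => y.1.1 := Primrec.fst.comp Primrec.fst
  have h2 : Primrec₂ fun (y : α × ℕ) (v : ℕ) => lg (n y.1) (-1) (max (b y.1)
      (pmQ (n y.1) (1 / ((n y.1 + 1 : ℕ) : ℚ)) ((K y.1 + 1) ^ 3)
        (fun path => edgeF (b y.1) y.2 (rd (K y.1 + 1) (yQ (n y.1) (ys y.1)) path))
        (as y.1) [v])) :=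
    p_lg (-1) (hn.comp f2) (p_max (hb.comp f2) (hp.comp (Primrec.fst.pair ((has.comp f2).pair
      (Primrec.list_cons.comp Primrec.snd (.const []))))))
  exact p_av (.const 8) (p_av (hB.comp Primrec.fst) h2).to₂

lemma p_hiQ {K Km n : α → ℕ} {c b : α → ℚ} {as ys : α → List ℕ} (hc : Primrec c) (hb : Primrec b)
    (hK : Primrec K) (hKm : Primrec Km) (hn : Primrec n) (has : Primrec as) (hys : Primrec ys) :
    Primrec fun a => hiQ (c a) (b a) (K a) (Km a) (n a) (as a) (ys a) := by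
  have h1 : Primrec₂ fun a (k : ℕ) =>
      poQ (n a) (c a * 3) k * siteQ (b a) (K a) (n a) (as a) (ys a) k :=
    RatPR.mul (p_poQ (hn.comp Primrec.fst) (RatPR.mul (hc.comp Primrec.fst) (.const 3)) Primrec.snd)
      (p_siteQ (hb.comp Primrec.fst) (hK.comp Primrec.fst) (hn.comp Primrec.fst)
        (has.comp Primrec.fst) (hys.comp Primrec.fst) Primrec.snd)
  exact RatPR.sub (RatPR.add (RatPR.neg' (p_lg (-1) hn (.const (1 / 2)))) (p_sum hKm h1))
    (RatPR.mul (RatPR.mul hc (.const 2)) (p_edgeQ hb hK hn has hys))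

lemma p_forall_lt {n : α → ℕ} {R : α → ℕ → Prop} (hn : Primrec n) (hR : PrimrecRel R) :
    PrimrecPred fun a => ∀ i < n a, R a i := by
  have h := (PrimrecRel.forall_mem_list hR.swap).comp (Primrec.list_range.comp hn) Primrec.id
  exact h.of_eq fun a => by simp [Function.swap]

lemma p_Chk {n : α → ℕ} {as : α → List ℕ} (hn : Primrec n) (has : Primrec as) :
    PrimrecPred fun a => Chk (n a) (as a) := by
  have f2 : Primrec fun y : (α × ℕ) × ℕ => y.1.1 := Primrec.fst.comp Primrec.fst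
  have h1 : PrimrecRel fun (y : α × ℕ) (i : ℕ) =>
      fr (n y.1) ((as y.1).getD i 0) < fr (n y.1) ((as y.1).getD y.2 0) :=
    RatPR.lt (p_fr (hn.comp f2) ((Primrec.list_getD 0).comp (has.comp f2) Primrec.snd))
      (p_fr (hn.comp f2) ((Primrec.list_getD 0).comp (has.comp f2) (Primrec.snd.comp Primrec.fst)))
  exact p_forall_lt (Primrec.list_length.comp has) (p_forall_lt Primrec.snd h1)

lemma p_Ok : PrimrecRel Ok := by
  have c1 : Primrec fun y : (ℚ × ℚ) × Code => y.2.2 := Primrec.snd.comp Primrec.snd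
  have c2 : Primrec fun y : (ℚ × ℚ) × Code => y.2.2.2 := Primrec.snd.comp c1
  have c3 : Primrec fun y : (ℚ × ℚ) × Code => y.2.2.2.2 := Primrec.snd.comp c2
  exact PrimrecPred.and (p_Chk (Primrec.fst.comp c2) (Primrec.fst.comp c3))
    (RatPR.lt (p_hiQ (Primrec.fst.comp Primrec.fst) (Primrec.snd.comp Primrec.fst)
      (Primrec.fst.comp Primrec.snd) (Primrec.fst.comp c1) (Primrec.fst.comp c2)
      (Primrec.fst.comp c3) (Primrec.snd.comp c3)) (.const 0))

end prim

lemma exists_code {A C : Type} [Primcodable A] [Primcodable C] [Inhabited C] {R : A → C → Prop}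
    (hR : PrimrecRel R) : ∃ U : A → ℕ → Prop, PrimrecRel U ∧ ∀ a, (∃ n, U a n) ↔ ∃ x, R a x := by
  refine ⟨fun a N => R a ((Encodable.decode N).getD default),
    hR.comp Primrec.fst (Primrec.option_getD_default.comp (Primrec.decode.comp Primrec.snd)),
    fun a => ⟨fun ⟨N, h⟩ => ⟨_, h⟩, fun ⟨x, h⟩ => ⟨Encodable.encode x, ?_⟩⟩⟩
  simpa [Encodable.encodek] using h

lemma exists_U : ∃ U : ℚ × ℚ → ℕ → Prop, PrimrecRel U ∧ ∀ cb, (∃ n, U cb n) ↔ ∃ x, Ok cb x :=
  exists_code p_Ok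

end Crest.Agent.R153.D
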