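import Crest.Agent.R153.CertQ

/-! Row 153, certificates: comparison of the rational approximations with the real quantities. -/

set_option autoImplicit false
open Finset Filter Topology
open scoped BigOperators

namespace Crest.Agent.R153.D

/-- nested power means on the tree with `B` children per node -/
noncomputable def pmR (B : ℕ) (leaf : List ℕ → ℝ) : List ℝ → List ℕ → ℝ
  | [], path => leaf path
  | m :: ms, path => (av B fun v => pmR B leaf ms (v :: path) ^ m) ^ (1 / m)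

lemma av_cast (B : ℕ) (f : ℕ → ℚ) : ((av B f : ℚ) : ℝ) = av B fun v => (f v : ℝ) := by
  simp [av]

lemma av_mono {B : ℕ} {f g : ℕ → ℝ} (h : ∀ v, f v ≤ g v) : av B f ≤ av B g :=
  div_le_div_of_nonneg_right (sum_le_sum fun v _ => h v) (Nat.cast_nonneg _)

lemma av_const {B : ℕ} (hB : 0 < B) (c : ℝ) : av B (fun _ => c) = c := by
  have : (B : ℝ) ≠ 0 := by exact_mod_cast hB.ne'
  simp [av, this]

lemma av_mem {B : ℕ} (hB : 0 < B) {f : ℕ → ℝ} {lo hi : ℝ} (h : ∀ v, lo ≤ f v ∧ f v ≤ hi) :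
    lo ≤ av B f ∧ av B f ≤ hi :=
  ⟨(av_const hB lo).symm.le.trans (av_mono fun v => (h v).1),
    (av_mono fun v => (h v).2).trans (av_const hB hi).le⟩

lemma av_tendsto {B : ℕ} {f : ℕ → ℕ → ℝ} {g : ℕ → ℝ}
    (h : ∀ v, Tendsto (fun n => f n v) atTop (𝓝 (g v))) :
    Tendsto (fun n => av B (f n)) atTop (𝓝 (av B g)) :=
  (tendsto_finsetSum _ fun v _ => h v).div_const _

lemma pmR_mem {B : ℕ} (hB : 0 < B) {leaf : List ℕ → ℝ} {β : ℝ} (hβ : 0 ≤ β)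
    (h : ∀ p, β ≤ leaf p ∧ leaf p ≤ 1) {ms : List ℝ} (hm : ∀ m ∈ ms, 0 < m) (path : List ℕ) :
    β ≤ pmR B leaf ms path ∧ pmR B leaf ms path ≤ 1 := by
  induction ms generalizing path with
  | nil => exact h path
  | cons m ms ih =>
    have hm0 : 0 < m := hm m List.mem_cons_self
    have ih' := ih fun x hx => hm x (List.mem_cons_of_mem _ hx)
    have h1 := av_mem hB (f := fun v => pmR B leaf ms (v :: path) ^ m) (lo := β ^ m) (hi := 1)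
      fun v => ⟨Real.rpow_le_rpow hβ (ih' _).1 hm0.le,
        Real.rpow_le_one (hβ.trans (ih' _).1) (ih' _).2 hm0.le⟩
    have h0 : 0 ≤ β ^ m := Real.rpow_nonneg hβ _
    refine ⟨?_, Real.rpow_le_one (h0.trans h1.1) h1.2 (one_div_pos.2 hm0).le⟩
    have := Real.rpow_le_rpow h0 h1.1 (one_div_pos.2 hm0).le
    rwa [← Real.rpow_mul hβ, mul_one_div_cancel hm0.ne', Real.rpow_one] at this

lemma cnt_eq (n : ℕ) (x : ℚ) (p q : ℕ) (hx0 : 0 ≤ x) (hx1 : x ≤ 1) (hq : 0 < q) :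
    ((av (n + 1) (fun i => if ((i : ℚ) / ((n + 1 : ℕ) : ℚ)) ^ q < x ^ p then 1 else 0) : ℚ) : ℝ) =
      (⌈((n + 1 : ℕ) : ℝ) * (x : ℝ) ^ ((p : ℝ) / q)⌉₊ : ℝ) / ((n + 1 : ℕ) : ℝ) := by
  have hx0' : (0 : ℝ) ≤ x := by exact_mod_cast hx0
  have hx1' : (x : ℝ) ≤ 1 := by exact_mod_cast hx1
  have hN : (0 : ℝ) < ((n + 1 : ℕ) : ℝ) := by positivity
  set t := (x : ℝ) ^ ((p : ℝ) / q) with ht
  have ht0 : 0 ≤ t := Real.rpow_nonneg hx0' _
  have ht1 : t ≤ 1 := Real.rpow_le_one hx0' hx1' (by positivity)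
  have htq : t ^ q = (x : ℝ) ^ p := by
    rw [ht, ← Real.rpow_natCast, ← Real.rpow_mul hx0', div_mul_cancel₀ _ (by positivity),
      Real.rpow_natCast]
  have key : ∀ i : ℕ, (((i : ℚ) / ((n + 1 : ℕ) : ℚ)) ^ q < x ^ p) ↔
      i < ⌈((n + 1 : ℕ) : ℝ) * t⌉₊ := by
    intro i
    rw [Nat.lt_ceil, ← Rat.cast_lt (K := ℝ), Rat.cast_pow, Rat.cast_pow, Rat.cast_div,
      Rat.cast_natCast, Rat.cast_natCast, ← htq, pow_lt_pow_iff_left₀ (by positivity) ht0 hq.ne',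
      div_lt_iff₀ hN, mul_comm]
  have hle : ⌈((n + 1 : ℕ) : ℝ) * t⌉₊ ≤ n + 1 := Nat.ceil_le.2 (by nlinarith)
  rw [av_cast, av]
  congr 1
  simp only [key]
  rw [← sum_range_add_sum_Ico _ hle, sum_congr rfl (g := fun _ => (1 : ℝ)),
    sum_congr (s₁ := Ico _ _) rfl (g := fun _ => (0 : ℝ))]
  · simp
  · intro i hi
    rw [if_neg (not_lt.2 (mem_Ico.1 hi).1)]; simp
  · intro i hi
    rw [if_pos (mem_range.1 hi)]; simp

lemma pwQ_spec (n : ℕ) (t x : ℚ) (p q : ℕ) (hx0 : (0 : ℝ) ≤ x) (hx1 : (x : ℝ) ≤ 1) (hq : 0 < q)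
    (ht : (0 : ℝ) ≤ t) :
    (0 : ℝ) ≤ pwQ n t x p q ∧ (pwQ n t x p q : ℝ) ≤ 1 ∧
      (x : ℝ) ^ ((p : ℝ) / q) - t ≤ pwQ n t x p q ∧
      (pwQ n t x p q : ℝ) ≤ max ((x : ℝ) ^ ((p : ℝ) / q) + 1 / ((n + 1 : ℕ) : ℝ) - t) 0 := by
  have hN : (0 : ℝ) < ((n + 1 : ℕ) : ℝ) := by positivity
  have e := cnt_eq n x p q (by exact_mod_cast hx0) (by exact_mod_cast hx1) hq
  set y := (x : ℝ) ^ ((p : ℝ) / q) with hy
  have hy0 : 0 ≤ y := Real.rpow_nonneg hx0 _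
  have hy1 : y ≤ 1 := Real.rpow_le_one hx0 hx1 (by positivity)
  have hle : (⌈((n + 1 : ℕ) : ℝ) * y⌉₊ : ℝ) ≤ ((n + 1 : ℕ) : ℝ) := by
    exact_mod_cast Nat.ceil_le.2 (show ((n + 1 : ℕ) : ℝ) * y ≤ ((n + 1 : ℕ) : ℝ) by nlinarith)
  have h1 : (⌈((n + 1 : ℕ) : ℝ) * y⌉₊ : ℝ) / ((n + 1 : ℕ) : ℝ) ≤ 1 := (div_le_one hN).2 hle
  have h2 : y ≤ (⌈((n + 1 : ℕ) : ℝ) * y⌉₊ : ℝ) / ((n + 1 : ℕ) : ℝ) := by
    rw [le_div_iff₀ hN, mul_comm]; exact Nat.le_ceil _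
  have h3 : (⌈((n + 1 : ℕ) : ℝ) * y⌉₊ : ℝ) / ((n + 1 : ℕ) : ℝ) ≤ y + 1 / ((n + 1 : ℕ) : ℝ) := by
    rw [div_le_iff₀ hN, add_mul, one_div_mul_cancel hN.ne', mul_comm y]
    exact (Nat.ceil_lt_add_one (by positivity)).le
  rw [pwQ, Rat.cast_max, Rat.cast_sub, e, Rat.cast_zero]
  refine ⟨le_max_right _ _, max_le (by linarith) zero_le_one, le_max_of_le_left (by linarith),
    max_le_max (by linarith) le_rfl⟩

lemma pwQ_lo (n : ℕ) (x : ℚ) (p q : ℕ) (hx0 : (0 : ℝ) ≤ x) (hx1 : (x : ℝ) ≤ 1) (hq : 0 < q) :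
    (pwQ n (1 / ((n + 1 : ℕ) : ℚ)) x p q : ℝ) ≤ (x : ℝ) ^ ((p : ℝ) / q) := by
  have := (pwQ_spec n (1 / ((n + 1 : ℕ) : ℚ)) x p q hx0 hx1 hq (by positivity)).2.2.2
  rw [Rat.cast_div, Rat.cast_one, Rat.cast_natCast, add_sub_cancel_right] at this
  exact this.trans (max_le le_rfl (Real.rpow_nonneg hx0 _))

lemma pwQ_hi (n : ℕ) (x : ℚ) (p q : ℕ) (hx0 : (0 : ℝ) ≤ x) (hx1 : (x : ℝ) ≤ 1) (hq : 0 < q) :
    (x : ℝ) ^ ((p : ℝ) / q) ≤ (pwQ n 0 x p q : ℝ) := by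
  simpa using (pwQ_spec n 0 x p q hx0 hx1 hq (by simp)).2.2.1

lemma pwQ_tendsto {t x : ℕ → ℚ} {p q : ℕ → ℕ} {y m : ℝ} (hm : 0 < m)
    (hx : ∀ n, (0 : ℝ) ≤ x n ∧ (x n : ℝ) ≤ 1) (hq : ∀ n, 0 < q n)
    (ht : ∀ n, (0 : ℝ) ≤ t n ∧ (t n : ℝ) ≤ 1 / ((n + 1 : ℕ) : ℝ))
    (h1 : Tendsto (fun n => (x n : ℝ)) atTop (𝓝 y))
    (h2 : Tendsto (fun n => (p n : ℝ) / q n) atTop (𝓝 m)) :
    Tendsto (fun n => (pwQ n (t n) (x n) (p n) (q n) : ℝ)) atTop (𝓝 (y ^ m)) := by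
  have h3 := h1.rpow h2 (Or.inr hm)
  have h4 : Tendsto (fun n : ℕ => 1 / ((n + 1 : ℕ) : ℝ)) atTop (𝓝 0) := by
    simpa using tendsto_one_div_add_atTop_nhds_zero_nat (𝕜 := ℝ)
  have h5 := h3.sub h4
  have h6 := h3.add h4
  rw [sub_zero] at h5
  rw [add_zero] at h6
  refine tendsto_of_tendsto_of_tendsto_of_le_of_le h5 h6 (fun n => ?_) fun n => ?_
  · have := (pwQ_spec n (t n) (x n) (p n) (q n) (hx n).1 (hx n).2 (hq n) (ht n).1).2.2.1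
    have := (ht n).2
    dsimp only
    linarith
  · have := (pwQ_spec n (t n) (x n) (p n) (q n) (hx n).1 (hx n).2 (hq n) (ht n).1).2.2.2
    have a := (ht n).1
    have b : 0 ≤ (x n : ℝ) ^ ((p n : ℝ) / q n) := Real.rpow_nonneg (hx n).1 _
    have c : (0 : ℝ) ≤ 1 / ((n + 1 : ℕ) : ℝ) := by positivity
    exact this.trans (max_le (by linarith) (by linarith))

lemma fr_cast (n a : ℕ) : (fr n a : ℝ) = ((min a n + 1 : ℕ) : ℝ) / ((n + 2 : ℕ) : ℝ) := by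
  rw [fr, Rat.cast_div, Rat.cast_natCast, Rat.cast_natCast]

lemma fr_mem (n a : ℕ) : (0 : ℝ) < fr n a ∧ (fr n a : ℝ) < 1 := by
  rw [fr_cast]
  refine ⟨by positivity, (div_lt_one (by positivity)).2 ?_⟩
  exact_mod_cast (by omega : min a n + 1 < n + 2)

lemma fr_inv (n a : ℕ) : 1 / (fr n a : ℝ) = ((n + 2 : ℕ) : ℝ) / ((min a n + 1 : ℕ) : ℝ) := by
  rw [fr_cast, one_div_div]

lemma fr_tendsto {y : ℝ} (h0 : 0 ≤ y) (h1 : y ≤ 1) :
    Tendsto (fun n : ℕ => (fr n ⌊y * n⌋₊ : ℝ)) atTop (𝓝 y) := by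
  have h4 : Tendsto (fun n : ℕ => 2 * (1 / ((n : ℝ) + 1))) atTop (𝓝 (2 * 0)) :=
    (tendsto_one_div_add_atTop_nhds_zero_nat (𝕜 := ℝ)).const_mul 2
  have h5 := h4.const_sub y
  have h6 := h4.const_add y
  rw [mul_zero, sub_zero] at h5
  rw [mul_zero, add_zero] at h6
  have key : ∀ n : ℕ, |(fr n ⌊y * n⌋₊ : ℝ) - y| ≤ 2 * (1 / ((n : ℝ) + 1)) := by
    intro n
    have hn : (0 : ℝ) ≤ n := Nat.cast_nonneg n
    have a1 : ⌊y * n⌋₊ ≤ n := Nat.floor_le_of_le (by nlinarith)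
    have a2 := Nat.floor_le (mul_nonneg h0 hn)
    have a3 := Nat.lt_floor_add_one (y * n)
    rw [fr_cast, min_eq_left a1]
    push_cast
    have e : ((⌊y * n⌋₊ : ℝ) + 1) / (n + 2) - y = ((⌊y * n⌋₊ : ℝ) + 1 - y * (n + 2)) / (n + 2) := by
      field_simp
    rw [e, abs_div, abs_of_pos (by positivity : (0 : ℝ) < n + 2), mul_one_div]
    refine div_le_div₀ (by norm_num) (abs_le.2 ⟨by linarith, by linarith⟩) (by positivity)
      (by linarith)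
  refine tendsto_of_tendsto_of_tendsto_of_le_of_le h5 h6 (fun n => ?_) fun n => ?_
  · have := abs_le.1 (key n); dsimp only; linarith
  · have := abs_le.1 (key n); dsimp only; linarith

lemma pmQ_mem {n B : ℕ} (hB : 0 < B) {t : ℚ} (ht : (0 : ℝ) ≤ t) {leaf : List ℕ → ℚ}
    (h : ∀ p, (0 : ℝ) ≤ leaf p ∧ (leaf p : ℝ) ≤ 1) (as path : List ℕ) :
    (0 : ℝ) ≤ pmQ n t B leaf as path ∧ (pmQ n t B leaf as path : ℝ) ≤ 1 := by
  induction as generalizing path with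
  | nil => exact h path
  | cons a as ih =>
    have h1 := av_mem hB (f := fun v => (pwQ n t (pmQ n t B leaf as (v :: path)) (min a n + 1)
      (n + 2) : ℝ)) (lo := 0) (hi := 1) fun v =>
      ⟨(pwQ_spec _ _ _ _ _ (ih _).1 (ih _).2 (by omega) ht).1,
        (pwQ_spec _ _ _ _ _ (ih _).1 (ih _).2 (by omega) ht).2.1⟩
    rw [← av_cast] at h1
    exact ⟨(pwQ_spec _ _ _ _ _ h1.1 h1.2 (by omega) ht).1,
      (pwQ_spec _ _ _ _ _ h1.1 h1.2 (by omega) ht).2.1⟩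

lemma pmQ_av_mem {n B : ℕ} (hB : 0 < B) {t : ℚ} (ht : (0 : ℝ) ≤ t) {leaf : List ℕ → ℚ}
    (h : ∀ p, (0 : ℝ) ≤ leaf p ∧ (leaf p : ℝ) ≤ 1) (a : ℕ) (as path : List ℕ) :
    (0 : ℝ) ≤ (av B fun v => pwQ n t (pmQ n t B leaf as (v :: path)) (min a n + 1) (n + 2) : ℚ) ∧
      ((av B fun v => pwQ n t (pmQ n t B leaf as (v :: path)) (min a n + 1) (n + 2) : ℚ) : ℝ)
        ≤ 1 := by
  have ih := pmQ_mem (n := n) hB ht h as
  rw [av_cast]
  exact av_mem hB fun v => ⟨(pwQ_spec _ _ _ _ _ (ih _).1 (ih _).2 (by omega) ht).1,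
    (pwQ_spec _ _ _ _ _ (ih _).1 (ih _).2 (by omega) ht).2.1⟩

lemma fr_pos_mem (n : ℕ) (as : List ℕ) : ∀ m ∈ as.map fun a => (fr n a : ℝ), 0 < m := by
  intro m hm
  obtain ⟨a, _, rfl⟩ := List.mem_map.1 hm
  exact (fr_mem n a).1

lemma pmQ_hi {n B : ℕ} (hB : 0 < B) {leaf : List ℕ → ℚ}
    (h : ∀ p, (0 : ℝ) ≤ leaf p ∧ (leaf p : ℝ) ≤ 1) (as path : List ℕ) :
    pmR B (fun p => leaf p) (as.map fun a => (fr n a : ℝ)) path ≤ pmQ n 0 B leaf as path := by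
  induction as generalizing path with
  | nil => exact le_rfl
  | cons a as ih =>
    have h0 := pmR_mem hB le_rfl h (fr_pos_mem n as)
    have hq := pmQ_mem (n := n) (t := 0) hB (by simp) h as
    have ha := pmQ_av_mem (n := n) (t := 0) hB (by simp) h a as path
    rw [List.map_cons, pmR, pmQ]
    refine le_trans ?_ (pwQ_hi _ _ _ _ ha.1 ha.2 (by omega))
    rw [fr_inv]
    refine Real.rpow_le_rpow (av_mem hB (hi := 1) fun v => ⟨Real.rpow_nonneg (h0 _).1 _,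
      Real.rpow_le_one (h0 _).1 (h0 _).2 (fr_mem n a).1.le⟩).1 ?_ (by positivity)
    rw [av_cast]
    refine av_mono fun v => le_trans ?_ (pwQ_hi _ _ _ _ (hq _).1 (hq _).2 (by omega))
    rw [← fr_cast]
    exact Real.rpow_le_rpow (h0 _).1 (ih _) (fr_mem n a).1.le

lemma pmQ_lo {n B : ℕ} (hB : 0 < B) {leaf : List ℕ → ℚ}
    (h : ∀ p, (0 : ℝ) ≤ leaf p ∧ (leaf p : ℝ) ≤ 1) (as path : List ℕ) :
    (pmQ n (1 / ((n + 1 : ℕ) : ℚ)) B leaf as path : ℝ) ≤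
      pmR B (fun p => leaf p) (as.map fun a => (fr n a : ℝ)) path := by
  induction as generalizing path with
  | nil => exact le_rfl
  | cons a as ih =>
    have hq := pmQ_mem (n := n) (t := 1 / ((n + 1 : ℕ) : ℚ)) hB (by positivity) h as
    have ha := pmQ_av_mem (n := n) (t := 1 / ((n + 1 : ℕ) : ℚ)) hB (by positivity) h a as path
    rw [List.map_cons, pmR, pmQ]
    refine (pwQ_lo _ _ _ _ ha.1 ha.2 (by omega)).trans ?_
    rw [fr_inv]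
    refine Real.rpow_le_rpow ha.1 ?_ (by positivity)
    rw [av_cast]
    refine av_mono fun v => (pwQ_lo _ _ _ _ (hq _).1 (hq _).2 (by omega)).trans ?_
    rw [← fr_cast]
    exact Real.rpow_le_rpow (hq _).1 (ih _) (fr_mem n a).1.le

lemma pmQ_tendsto {B : ℕ} (hB : 0 < B) {t : ℕ → ℚ}
    (ht : ∀ n, (0 : ℝ) ≤ t n ∧ (t n : ℝ) ≤ 1 / ((n + 1 : ℕ) : ℝ)) {leaf : ℕ → List ℕ → ℚ}
    (h : ∀ n p, (0 : ℝ) ≤ leaf n p ∧ (leaf n p : ℝ) ≤ 1) {lf : List ℕ → ℝ}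
    (hl : ∀ p, Tendsto (fun n => (leaf n p : ℝ)) atTop (𝓝 (lf p))) {ms : List ℝ}
    (hm : ∀ m ∈ ms, 0 < m ∧ m ≤ 1) (path : List ℕ) :
    Tendsto (fun n : ℕ => (pmQ n (t n) B (leaf n) (ms.map fun m : ℝ => ⌊m * (n : ℝ)⌋₊) path : ℝ)) atTop
      (𝓝 (pmR B lf ms path)) := by
  induction ms generalizing path with
  | nil => exact hl path
  | cons m ms ih =>
    have hm0 := hm m List.mem_cons_self
    have ih' := ih fun x hx => hm x (List.mem_cons_of_mem _ hx)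
    have h1 := fr_tendsto hm0.1.le hm0.2
    simp only [List.map_cons, pmR, pmQ]
    refine pwQ_tendsto (one_div_pos.2 hm0.1) (fun n => pmQ_av_mem hB (ht n).1 (h n) _ _ _)
      (fun n => by omega) ht ?_ ?_
    · simp only [av_cast]
      refine av_tendsto fun v => pwQ_tendsto hm0.1 (fun n => pmQ_mem hB (ht n).1 (h n) _ _)
        (fun n => by omega) ht (ih' _) ?_
      simpa only [fr_cast] using h1
    · simp only [← fr_inv]
      exact tendsto_const_nhds.div h1 hm0.1.ne'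

lemma lg_err (n : ℕ) (s x : ℚ) (h0 : (0 : ℝ) < x) (h1 : (x : ℝ) ≤ 1) :
    |(lg n s x : ℝ) - s * lgE n x - Real.log x| ≤ lgE n x := by
  have h := Real.abs_log_sub_add_sum_range_le (x := 1 - (x : ℝ))
    (by rw [abs_of_nonneg (by linarith)]; linarith) n
  rw [abs_of_nonneg (by linarith : 0 ≤ 1 - (x : ℝ)), sub_sub_cancel] at h
  rw [abs_sub_comm]
  simp only [lg, lgE]
  push_cast
  convert h using 2
  ring

lemma lg_hi (n : ℕ) (x : ℚ) (h0 : (0 : ℝ) < x) (h1 : (x : ℝ) ≤ 1) : Real.log x ≤ lg n 1 x := by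
  have := abs_le.1 (lg_err n 1 x h0 h1)
  push_cast at this
  linarith

lemma lg_lo (n : ℕ) (x : ℚ) (h0 : (0 : ℝ) < x) (h1 : (x : ℝ) ≤ 1) :
    (lg n (-1) x : ℝ) ≤ Real.log x := by
  have := abs_le.1 (lg_err n (-1) x h0 h1)
  push_cast at this
  linarith

lemma lg_tendsto (s : ℚ) {x : ℕ → ℚ} {y : ℝ} (hy : 0 < y) (hx : ∀ n, (x n : ℝ) ≤ 1)
    (h : Tendsto (fun n => (x n : ℝ)) atTop (𝓝 y)) :
    Tendsto (fun n => (lg n s (x n) : ℝ)) atTop (𝓝 (Real.log y)) := by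
  have hy1 : y ≤ 1 := le_of_tendsto' h hx
  have hev : ∀ᶠ n in atTop, y / 2 < (x n : ℝ) := h.eventually (lt_mem_nhds (by linarith))
  have hE : Tendsto (fun n => (lgE n (x n) : ℝ)) atTop (𝓝 0) := by
    have h1 : Tendsto (fun n : ℕ => (1 - y / 2) ^ (n + 1) / (y / 2)) atTop (𝓝 (0 / (y / 2))) :=
      ((tendsto_add_atTop_iff_nat 1).2
        (tendsto_pow_atTop_nhds_zero_of_lt_one (by linarith) (by linarith))).div_const _
    rw [zero_div] at h1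
    refine tendsto_of_tendsto_of_tendsto_of_le_of_le' tendsto_const_nhds h1
      (hev.mono fun n hn => ?_) (hev.mono fun n hn => ?_)
    · have := hx n
      simp only [lgE]
      push_cast
      exact div_nonneg (pow_nonneg (by linarith) _) (by linarith)
    · have := hx n
      simp only [lgE]
      push_cast
      exact div_le_div₀ (pow_nonneg (by linarith) _)
        (pow_le_pow_left₀ (by linarith) (by linarith) _) (by linarith) hn.le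
  have hL := (h.log hy.ne').add (hE.const_mul (s : ℝ))
  have h5 := hL.sub hE
  have h6 := hL.add hE
  rw [mul_zero, add_zero, sub_zero] at h5
  rw [mul_zero, add_zero, add_zero] at h6
  refine tendsto_of_tendsto_of_tendsto_of_le_of_le' h5 h6
    (hev.mono fun n hn => ?_) (hev.mono fun n hn => ?_)
  · have := abs_le.1 (lg_err n s (x n) (by linarith) (hx n)); linarith
  · have := abs_le.1 (lg_err n s (x n) (by linarith) (hx n)); linarith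

lemma prod_div_succ (l : ℝ) (k : ℕ) : ∏ i ∈ range k, l / ((i + 1 : ℕ) : ℝ) = l ^ k / k.factorial := by
  rw [prod_div_distrib, prod_const, card_range, ← Nat.cast_prod, prod_range_add_one_eq_factorial]

lemma poQ_cast (n : ℕ) (l : ℚ) (k : ℕ) : (poQ n l k : ℝ) =
    max (1 - (l : ℝ) / ((n + 1 : ℕ) : ℝ)) 0 ^ (n + 1) * ((l : ℝ) ^ k / k.factorial) := by
  rw [← prod_div_succ, poQ]
  simp only [Rat.cast_mul, Rat.cast_pow, Rat.cast_max, Rat.cast_sub, Rat.cast_one, Rat.cast_div,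
    Rat.cast_natCast, Rat.cast_zero, Rat.cast_prod]

lemma poQ_mem (n : ℕ) {l : ℚ} (hl : (0 : ℝ) ≤ l) (k : ℕ) :
    (0 : ℝ) ≤ poQ n l k ∧ (poQ n l k : ℝ) ≤ Real.exp (-l) * (l : ℝ) ^ k / k.factorial := by
  rw [poQ_cast, mul_div_assoc]
  refine ⟨mul_nonneg (pow_nonneg (le_max_right _ _) _) (by positivity),
    mul_le_mul_of_nonneg_right ?_ (by positivity)⟩
  rcases le_total (1 - (l : ℝ) / ((n + 1 : ℕ) : ℝ)) 0 with h | h
  · rw [max_eq_right h, zero_pow (Nat.succ_ne_zero n)]; exact (Real.exp_pos _).le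
  · rw [max_eq_left h]
    refine Real.one_sub_div_pow_le_exp_neg ?_
    rwa [sub_nonneg, div_le_one (by positivity)] at h

lemma poQ_tendsto (l : ℚ) (k : ℕ) : Tendsto (fun n => (poQ n l k : ℝ)) atTop
    (𝓝 (Real.exp (-l) * (l : ℝ) ^ k / k.factorial)) := by
  simp only [poQ_cast, mul_div_assoc]
  refine Tendsto.mul_const _ ?_
  have h := (tendsto_add_atTop_iff_nat 1).2 (Real.tendsto_one_add_div_pow_exp (-(l : ℝ)))
  refine h.congr' ?_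
  obtain ⟨N, hN⟩ := exists_nat_ge (l : ℝ)
  filter_upwards [eventually_ge_atTop N] with n hn
  have : (N : ℝ) ≤ n := by exact_mod_cast hn
  rw [max_eq_left, neg_div, sub_eq_add_neg]
  rw [sub_nonneg, div_le_one (by positivity)]
  push_cast; linarith

section leaves

lemma lit_cast (d l : ℕ) (y : ℚ) : ((lit d l y : ℚ) : ℝ) = lit d l (y : ℝ) := by
  unfold lit; split_ifs <;> simp

lemma cl_cast (b : ℚ) (d : ℕ) (y0 y1 y2 : ℚ) :
    ((cl b d y0 y1 y2 : ℚ) : ℝ) = cl (b : ℝ) d y0 y1 y2 := by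
  simp [cl, lit_cast]

lemma edgeF_cast (b : ℚ) (a : ℕ) (y : ℕ → ℚ) :
    ((edgeF b a y : ℚ) : ℝ) = edgeF (b : ℝ) a fun i => y i := cl_cast ..

lemma siteF_cast (b : ℚ) (k a : ℕ) (y : ℕ → ℚ) :
    ((siteF b k a y : ℚ) : ℝ) = siteF (b : ℝ) k a fun i => y i := by
  simp [siteF, cl_cast]

lemma lit_mem (d l : ℕ) {y : ℝ} (h : 0 ≤ y ∧ y ≤ 1) : 0 ≤ lit d l y ∧ lit d l y ≤ 1 := by
  unfold lit; split_ifs <;> constructor <;> linarith [h.1, h.2]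

lemma cl_mem {b : ℝ} (hb : b ≤ 1) (d : ℕ) {y0 y1 y2 : ℝ} (h0 : 0 ≤ y0 ∧ y0 ≤ 1)
    (h1 : 0 ≤ y1 ∧ y1 ≤ 1) (h2 : 0 ≤ y2 ∧ y2 ≤ 1) :
    b ≤ cl b d y0 y1 y2 ∧ cl b d y0 y1 y2 ≤ 1 := by
  have a0 := lit_mem d 0 h0
  have a1 := lit_mem d 1 h1
  have a2 := lit_mem d 2 h2
  have b0 : 0 ≤ lit d 0 y0 * lit d 1 y1 * lit d 2 y2 := mul_nonneg (mul_nonneg a0.1 a1.1) a2.1
  have b1 : lit d 0 y0 * lit d 1 y1 * lit d 2 y2 ≤ 1 :=
    mul_le_one₀ (mul_le_one₀ a0.2 a1.1 a1.2) a2.1 a2.2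
  unfold cl
  constructor <;> nlinarith

lemma edgeF_mem {b : ℝ} (hb : b ≤ 1) (a : ℕ) {y : ℕ → ℝ} (h : ∀ i, 0 ≤ y i ∧ y i ≤ 1) :
    b ≤ edgeF b a y ∧ edgeF b a y ≤ 1 := cl_mem hb a (h 0) (h 1) (h 2)

lemma siteF_mem {b : ℝ} (hb0 : 0 ≤ b) (hb : b ≤ 1) (k a : ℕ) {y : ℕ → ℝ}
    (h : ∀ i, 0 ≤ y i ∧ y i ≤ 1) : b ^ k ≤ siteF b k a y ∧ siteF b k a y ≤ 1 := by
  have key : ∀ z : ℝ, 0 ≤ z ∧ z ≤ 1 →
      b ^ k ≤ ∏ j ∈ range k, cl b (dg 8 j a) (y (0 + 2 * j)) (y (1 + 2 * j)) z ∧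
      ∏ j ∈ range k, cl b (dg 8 j a) (y (0 + 2 * j)) (y (1 + 2 * j)) z ≤ 1 := fun z hz =>
    ⟨by
      have := prod_le_prod (s := range k) (f := fun _ => b) (fun _ _ => hb0)
        fun j _ => (cl_mem hb (dg 8 j a) (h (0 + 2 * j)) (h (1 + 2 * j)) hz).1
      rwa [prod_const, card_range] at this,
    prod_le_one (fun j _ => hb0.trans (cl_mem hb _ (h _) (h _) hz).1)
      fun j _ => (cl_mem hb _ (h _) (h _) hz).2⟩
  have a1 := key 1 ⟨zero_le_one, le_rfl⟩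
  have a0 := key 0 ⟨le_rfl, zero_le_one⟩
  unfold siteF
  constructor <;> linarith [a1.1, a1.2, a0.1, a0.2]

lemma continuous_lit (d l : ℕ) : Continuous fun y : ℝ => lit d l y := by
  unfold lit; split_ifs <;> fun_prop

lemma continuous_edgeF (b : ℝ) (a : ℕ) : Continuous fun y : ℕ → ℝ => edgeF b a y := by
  have := continuous_lit a
  unfold edgeF cl; fun_prop

lemma continuous_siteF (b : ℝ) (k a : ℕ) : Continuous fun y : ℕ → ℝ => siteF b k a y := by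
  have := continuous_lit
  unfold siteF cl; fun_prop

end leaves

end Crest.Agent.R153.D
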