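import Crest.Agent.R141.Stmts2
import Crest.Prelude.Def_RandomSAT

/-!
Row 153 (S0217, S0218): definitions and the intermediate statements for the computability of the
3-SAT threshold.

Soft random 3-SAT: a violated clause multiplies the weight of an assignment by `b ∈ (0,1]`.
`FN c b N` is the pressure of the Poisson model with replacement at clause density `c`, and
`Neg c b B` says that some measurable hierarchical trial has cavity functional below `B`.

* `MPStmt`: Mezard-Parisi formula for soft 3-SAT (from the R141 machinery).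
* `CertStmt`: `Neg c b 0` is recursively enumerable in rational `(c, b)`.
* `PresLoStmt`, `PresUpStmt`, `TSLeStmt`, `TSPrimStmt`: comparison of `FN` with satisfiability probabilities.
* `TailStmt`: sub-Gaussian upper tail above a sharp threshold.
-/

set_option autoImplicit false
open MeasureTheory Finset Function Filter
open scoped BigOperators
open Crest.ProbabilityR.Diluted Crest.ProbabilityR.RandomSAT Crest.Agent.R141

namespace Crest.Agent.R153

/-- the interaction of a soft clause with required values `J` -/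
noncomputable def th (b : ℝ) (J : Fin 3 → Bool) : Inter 3 :=
  fun s => if ∃ l, s l = J l then 0 else Real.log b

/-- uniformly random required values -/
noncomputable def muB (b : ℝ) : FLaw (Inter 3) where
  Θ := Fin 3 → Bool
  w := fun _ => 1 / 8
  w0 := fun _ => by norm_num
  w1 := by simp
  val := th b

/-- no external field -/
noncomputable def nu0 : FLaw ℝ where
  Θ := Unit
  w := fun _ => 1
  w0 := fun _ => by norm_num
  w1 := by simp
  val := fun _ => 0

/-- the pressure of soft random 3-SAT -/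
noncomputable def FN (c b : ℝ) (N : ℕ) : ℝ := finPressure 3 c (muB b) nu0 N

/-- the cavity functional of soft random 3-SAT -/
noncomputable def TF (c b : ℝ) (r : ℕ) (m : Fin r → ℝ) (X : (Fin (r + 1) → unitInterval) → ℝ) : ℝ :=
  trialFunctional 3 c (muB b).toM nu0.toM r m X

/-- some admissible trial has cavity functional below `B` -/
def Neg (c b B : ℝ) : Prop :=
  ∃ (r : ℕ) (m : Fin r → ℝ) (X : (Fin (r + 1) → unitInterval) → ℝ),
    AdmissibleExponents m ∧ Measurable X ∧ TF c b r m X < B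

/-- clauses whose variables are chosen with replacement -/
abbrev Raw (N : ℕ) : Type := (Fin 3 → Fin N) × (Fin 3 → Bool)

open Classical in
/-- the probability that the clauses on distinct variables among `m` raw clauses are satisfiable -/
noncomputable def tS (N m : ℕ) : ℝ :=
  𝔼 x : Fin m → Raw N, if ∃ σ : Fin N → Bool, ∀ i, Injective (x i).1 →
    ∃ l, σ ((x i).1 l) = (x i).2 l then (1 : ℝ) else 0

/-- Mezard-Parisi formula for soft 3-SAT -/
def MPStmt : Prop :=
  ∀ c b : ℝ, 0 < c → 0 < b → b ≤ 1 →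
    (∀ (r : ℕ) (m : Fin r → ℝ) (X : (Fin (r + 1) → unitInterval) → ℝ), AdmissibleExponents m →
      Measurable X → ∀ N : ℕ, 0 < N → FN c b N ≤ TF c b r m X) ∧
    ∀ B ε : ℝ, 0 < ε → (∀ᶠ N : ℕ in atTop, FN c b N ≤ B - ε) → Neg c b B

/-- negativity of the cavity functional is recursively enumerable -/
def CertStmt : Prop :=
  ∃ U : ℚ × ℚ → ℕ → Prop, PrimrecRel U ∧
    ∀ c b : ℚ, 0 < c → 0 < b → b ≤ 1 → ((∃ n, U (c, b) n) ↔ Neg c b 0)

def PresLoStmt : Prop :=
  ∀ (c b : ℝ) (N m s : ℕ), 0 < c → 0 < b → b ≤ 1 → 0 < N → 0 < s → c * N ≤ m → m ≤ s ^ 2 →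
    Real.log b * (3 * s + 3 * m / N + m * (1 - tS N m)) / N ≤ FN c b N

def PresUpStmt : Prop :=
  ∀ (c ε t y : ℝ) (n N m : ℕ), 0 < c → 0 < ε → ε ≤ 1 → 0 ≤ t → 3 ≤ N →
    satProb 3 N m + Real.exp (t * m - c * N * ((1 - ε) * (1 - 3 / N)) * (1 - Real.exp (-t))) ≤ y →
    FN c (ε ^ n) N ≤ Real.log 2 + n / N * Real.log y

def TSLeStmt : Prop := ∀ N m : ℕ, 3 ≤ N → satProb 3 N m ≤ tS N m

def TSPrimStmt : Prop := ∃ t : ℕ → ℕ → ℚ, Primrec₂ t ∧ ∀ N m, 0 < N → (t N m : ℝ) = tS N m

def TailStmt : Prop :=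
  ∃ C : ℕ, 0 < C ∧ ∀ α : ℝ, IsSharpThreshold (satProb 3) α → 0 ≤ α ∧ α ≤ 6 ∧
    ∀ δ : ℝ, 0 < δ → δ ≤ 1 → ∀ᶠ n : ℕ in atTop,
      satProb 3 n ⌊(α + δ) * n⌋₊ ≤ Real.exp (-(δ ^ 2 * n / C))

/-- the statement of S0218 -/
def MainStmt : Prop :=
  ∀ α : ℝ, IsSharpThreshold (satProb 3) α →
    ∃ f : ℕ → ℕ, Computable f ∧ ∀ r : ℕ, |(f r : ℝ) / 2 ^ r - α| ≤ 1 / 2 ^ r

end Crest.Agent.R153
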