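import Crest.Agent.R153.CertR
import Crest.Agent.R153.Defs
import Crest.Agent.R141.Sim5

/-! Row 153, certificates: the cavity functional of a cell trial as a finite expression. -/

set_option autoImplicit false
open MeasureTheory Finset Function Filter Topology
open scoped BigOperators
open Crest.ProbabilityR.Diluted Crest.Agent.R141

namespace Crest.Agent.R153.D

noncomputable def msg (y : ℝ) : ℝ := (1 / 2) * Real.log (y / (1 - y))

lemma tilt_msg {y : ℝ} (h : 0 < y ∧ y < 1) (s : Bool) : tilt (msg y) s = if s then y else 1 - y :=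
  tilt_half_log h.1 (by linarith [h.2]) (by ring) s

/-- the list `[u d, …, u 0]` -/
def pth (u : ℕ → ℕ) : ℕ → List ℕ
  | 0 => [u 0]
  | d + 1 => u (d + 1) :: pth u d

lemma pth_map (f : ℕ → ℕ) (u : ℕ → ℕ) (d : ℕ) : (pth u d).map f = pth (fun j => f (u j)) d := by
  induction d with
  | zero => rfl
  | succ d ih => simp [pth, ih]

lemma pth_congr {u u' : ℕ → ℕ} (d : ℕ) (h : ∀ j, j ≤ d → u j = u' j) : pth u d = pth u' d := by
  induction d with
  | zero => simp [pth, h 0 le_rfl]
  | succ d ih => simp only [pth, ih fun j hj => h j (by omega), h (d + 1) le_rfl]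

lemma pth_getD (u : ℕ → ℕ) (d j : ℕ) (hj : j ≤ d) : (pth u d).getD (d - j) 0 = u j := by
  induction d with
  | zero => simp [pth, Nat.le_zero.1 hj]
  | succ d ih =>
    rcases hj.eq_or_lt with rfl | h
    · simp [pth]
    · rw [pth, show d + 1 - j = d - j + 1 by omega, List.getD_cons_succ]
      exact ih (by omega)

/-- the trial that reads the table `Y` at the cells of the uniform variables -/
noncomputable def XC {K : ℕ} (c : unitInterval → Fin K) (Y : List ℕ → ℝ) (r : ℕ)
    (u : Fin (r + 1) → unitInterval) : ℝ :=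
  msg (Y (pth (fun j => c (extU u j)) r))

lemma measurable_XC {K : ℕ} {c : unitInterval → Fin K} (hc : ∀ s, MeasurableSet (c ⁻¹' {s}))
    (Y : List ℕ → ℝ) (r : ℕ) : Measurable (XC c Y r) := by
  have hb : ∀ d, Bnd fun u : Fin (r + 1) → unitInterval => pth (fun j => c (extU u j)) d := by
    have h1 : ∀ j, Bnd fun u : Fin (r + 1) → unitInterval => c (extU u j) := fun j =>
      bnd_of_fiber fun s => measurable_extU r j (hc s)
    intro d
    induction d with
    | zero => exact (Bnd.const ()).bind (h := fun _ u => c (extU u 0)) (fun _ => h1 0)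
                fun _ s => [(s : ℕ)]
    | succ d ih =>
      exact ih.bind (h := fun _ u => c (extU u (d + 1))) (fun _ => h1 _) fun l s => (s : ℕ) :: l
  exact hb r (fun l _ => msg (Y l)) fun _ => measurable_const

section enc
variable {L : Type} [Fintype L] [DecidableEq L] {N K : ℕ}

/-- the number whose digits are the given cells -/
def enc (e : L ≃ Fin N) (s : L → Fin K) : ℕ := finFunctionFinEquiv fun i => s (e.symm i)

omit [Fintype L] [DecidableEq L] in
lemma dg_enc (e : L ≃ Fin N) (s : L → Fin K) (l : L) : dg K (e l) (enc e s) = s l := by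
  rw [dg, enc, ← finFunctionFinEquiv_symm_apply_val, Equiv.symm_apply_apply, Equiv.symm_apply_apply]

lemma sum_enc (e : L ≃ Fin N) (H : ℕ → ℝ) :
    ∑ s : L → Fin K, H (enc e s) = ∑ v ∈ range (K ^ N), H v := by
  rw [← Fin.sum_univ_eq_sum_range]
  exact Fintype.sum_equiv ((Equiv.arrowCongr e (Equiv.refl _)).trans finFunctionFinEquiv) _ _
    fun s => rfl

lemma integral_enc {U : Type} [MeasurableSpace U] (κ : Measure U) [IsProbabilityMeasure κ]
    {f : U → Fin K} (hf : Rep κ f fun _ => (K : ℝ)⁻¹) (e : L ≃ Fin N) (H : ℕ → ℝ) :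
    ∫ w : L → U, H (enc e fun l => f (w l)) ∂(Measure.pi fun _ => κ) = av (K ^ N) H := by
  rw [integral_pi_rep κ (fun _ => f) _ (fun _ => hf) fun s => H (enc e s), ← mul_sum, sum_enc, av,
    prod_const, card_univ, Fintype.card_congr e, Fintype.card_fin, inv_pow, Nat.cast_pow,
    div_eq_inv_mul]

lemma cavV_XC {c : unitInterval → Fin K} (hc : Rep volume c fun _ => (K : ℝ)⁻¹) (e : L ≃ Fin N)
    (Y : List ℕ → ℝ) {r : ℕ} (m : Fin r → ℝ) (v : (L → Bool) → ℝ) (G : (ℕ → ℝ) → ℝ)
    (hG : ∀ path, mixV v (fun l => msg (rd K Y path (e l))) = G (rd K Y path)) :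
    cavV r m (XC c Y r) L v = av (K ^ N) fun w =>
      Real.log (pmR (K ^ N) (fun path => G (rd K Y path)) (List.ofFn m) [w]) := by
  have key := powerMeans_ind m
    (fun u' : L → Fin (r + 1) → unitInterval => mixV v fun l => XC c Y r (u' l))
    (fun d acc => ∀ u, acc u = pmR (K ^ N) (fun path => G (rd K Y path)) ((List.ofFn m).drop d)
      (pth (fun j => enc e fun l => c (extU (u l) j)) d))
    (fun u => by
      rw [List.drop_eq_nil_of_le (by simp), pmR, ← hG]
      simp only [XC, rd, pth_map, dg_enc]) ?_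
  · rw [cavV]
    simp only [key, List.drop_zero, pth]
    have h1 : Rep (Measure.pi fun _ : Fin (r + 1) => (volume : Measure unitInterval))
        (fun u => c (extU u 0)) fun _ => (K : ℝ)⁻¹ :=
      hc.comp (measurePreserving_eval (fun _ : Fin (r + 1) => (volume : Measure unitInterval)) 0)
    exact integral_enc _ h1 e fun w =>
      Real.log (pmR (K ^ N) (fun path => G (rd K Y path)) (List.ofFn m) [w])
  · intro d acc ih u
    have e1 : ∀ w : L → unitInterval, pth (fun j => enc e fun l =>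
        c (extU (fun j => if j = d.succ then w l else u l j) j)) (d + 1) =
        (enc e fun l => c (w l)) :: pth (fun j => enc e fun l => c (extU (u l) j)) d := by
      intro w
      rw [pth]
      congr 1
      · have hj' : (d : ℕ) + 1 < r + 1 := by omega
        have : (⟨d + 1, hj'⟩ : Fin (r + 1)) = d.succ := rfl
        simp only [extU, hj', dif_pos, this, if_true]
      · refine pth_congr d fun j hj => ?_
        have hj' : j < r + 1 := by omega
        have : (⟨j, hj'⟩ : Fin (r + 1)) ≠ d.succ := by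
          simp only [ne_eq, Fin.ext_iff, Fin.val_succ]; omega
        simp [extU, hj', this]
    rw [pmStep, List.drop_eq_getElem_cons (by simp), List.getElem_ofFn, pmR]
    simp only [ih, e1]
    rw [integral_enc volume hc e fun v => pmR (K ^ N) (fun path => G (rd K Y path))
      ((List.ofFn m).drop (d + 1)) (v :: pth (fun j => enc e fun l => c (extU (u l) j)) d) ^ m d]

end enc

/-- the required values of the clause number `d` -/
def JJ (d : ℕ) : Fin 3 → Bool := fun l => decide (dg 2 l d = 1)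

lemma JJ_bij : Bijective fun d : Fin 8 => JJ d := by decide

lemma ex_muB (b : ℝ) (g : Inter 3 → ℝ) : (muB b).ex g = av 8 fun a => g (th b (JJ a)) := by
  rw [av, ← Fin.sum_univ_eq_sum_range (fun a => g (th b (JJ a))), sum_div]
  refine (Fintype.sum_bijective _ JJ_bij _ _ fun d => ?_).symm
  simp only [muB]
  push_cast
  ring

lemma exPi_muB (b : ℝ) (k : ℕ) (g : (Fin k → Inter 3) → ℝ) :
    (muB b).exPi (Fin k) g = av (8 ^ k) fun a => g fun j => th b (JJ (dg 8 j a)) := by
  rw [av, ← sum_enc (Equiv.refl (Fin k)) fun a => g fun j => th b (JJ (dg 8 j a)), sum_div]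
  refine (Fintype.sum_bijective (fun (s : Fin k → Fin 8) j => JJ (s j))
    (JJ_bij.comp_left) _ _ fun s => ?_).symm
  have := dg_enc (Equiv.refl (Fin k)) s
  simp only [Equiv.refl_apply] at this
  simp only [muB, this, prod_const, card_univ, Fintype.card_fin]
  push_cast
  rw [one_div, inv_pow, div_eq_inv_mul]

lemma ex_nu0 (g : ℝ → ℝ) : nu0.ex g = g 0 := by
  show ∑ _x : Unit, 1 * g 0 = g 0
  simp

lemma exp_th {b : ℝ} (hb : 0 < b) (J s : Fin 3 → Bool) :
    Real.exp (th b J s) = 1 - (1 - b) * if s = fun l => !J l then 1 else 0 := by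
  unfold th
  by_cases h : ∃ l, s l = J l
  · obtain ⟨l, hl⟩ := id h
    have : s ≠ fun l => !J l := fun e => by simpa [hl] using congrFun e l
    simp [h, this]
  · have : s = fun l => !J l := funext fun l => by
      have := not_exists.1 h l
      cases h1 : s l <;> cases h2 : J l <;> simp_all
    rw [if_neg h, if_pos this, Real.exp_log hb]; ring

lemma sum_one_sub {L : Type} [Fintype L] [DecidableEq L] (κ : ℝ) (s0 : L → Bool) (x : L → ℝ) :
    ∑ s : L → Bool, (1 - κ * if s = s0 then 1 else 0) * ∏ l, tilt (x l) (s l) =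
      1 - κ * ∏ l, tilt (x l) (s0 l) := by
  simp only [sub_mul, one_mul, sum_sub_distrib, sum_prod_tilt, mul_assoc, ← mul_sum]
  simp

lemma tilt_JJ {y : ℝ} (h : 0 < y ∧ y < 1) (d : ℕ) (l : Fin 3) :
    tilt (msg y) (!JJ d l) = lit d l y := by
  rw [tilt_msg h, lit, JJ]
  by_cases h : dg 2 l d = 1 <;> simp [h]

lemma mixV_edge {b : ℝ} (hb : 0 < b) (a : ℕ) {y : ℕ → ℝ} (hy : ∀ i, 0 < y i ∧ y i < 1) :
    mixV (th b (JJ a)) (fun l => msg (y (Equiv.refl (Fin 3) l))) = edgeF b a y := by
  simp only [mixV, exp_th hb, sum_one_sub]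
  simp only [tilt_JJ (hy _), Fin.prod_univ_three]
  rfl

lemma exp_siteMessage {b : ℝ} (hb : 0 < b) (d : ℕ) {y : Fin 2 → ℝ} (hy : ∀ i, 0 < y i ∧ y i < 1)
    (ε : Bool) : Real.exp (siteMessage (th b (JJ d)) (fun l => msg (y l)) ε) =
      cl b d (y 0) (y 1) (if ε then 1 else 0) := by
  rw [siteMessage, Real.exp_log (sum_pos (fun _ _ =>
    mul_pos (Real.exp_pos _) (prod_pos fun _ _ => tilt_pos _ _)) univ_nonempty)]
  have e : ∀ s' : Fin 2 → Bool, Real.exp (th b (JJ d) fun l : Fin 3 =>
      if h : l.val < 3 - 1 then s' ⟨l.val, h⟩ else ε) =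
      1 - ((1 - b) * lit d 2 (if ε then (1 : ℝ) else 0)) *
        if s' = fun l : Fin 2 => !JJ d l.castSucc then 1 else 0 := by
    intro s'
    rw [exp_th hb, mul_assoc]
    congr 2
    have h1 : ((fun l : Fin 3 => if h : l.val < 3 - 1 then s' ⟨l.val, h⟩ else ε) =
        fun l => !JJ d l) ↔ (ε = !JJ d 2) ∧ s' = fun l : Fin 2 => !JJ d l.castSucc := by
      simp only [funext_iff, Fin.forall_fin_succ]
      simp
      tauto
    have h2 : lit d 2 (if ε then (1 : ℝ) else 0) = if ε = !JJ d 2 then 1 else 0 := by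
      have : JJ d 2 = decide (dg 2 2 d = 1) := rfl
      rw [lit, this]
      by_cases h : dg 2 2 d = 1 <;> cases ε <;> simp [h]
    rw [h2]
    simp only [h1]
    by_cases a1 : ε = !JJ d 2 <;> simp [a1]
  simp only [e]
  refine (sum_one_sub (L := Fin 2) _ _ _).trans ?_
  rw [Fin.prod_univ_two, tilt_JJ (hy _), tilt_JJ (hy _), cl]
  simp only [Fin.castSucc_zero, Fin.castSucc_one, Fin.val_zero, Fin.val_one]
  ring

lemma mixV_site {b : ℝ} (hb : 0 < b) (k a : ℕ) {y : ℕ → ℝ} (hy : ∀ i, 0 < y i ∧ y i < 1) :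
    mixV (siteV (p := 3) 0 fun j : Fin k => th b (JJ (dg 8 j a)))
      (fun l => msg (y ((finProdFinEquiv : Fin k × Fin 2 ≃ Fin (k * 2)) l))) = siteF b k a y := by
  rw [← siteTerm_eq, siteTerm, siteF, ← Fin.prod_univ_eq_prod_range, ← Fin.prod_univ_eq_prod_range]
  simp only [zero_mul, zero_add, Real.exp_sum, Fintype.sum_bool]
  have e := fun (j : Fin k) (ε : Bool) => exp_siteMessage hb (dg 8 j a)
    (y := fun l => y (l + 2 * j)) (fun _ => hy _) ε
  simp only [finProdFinEquiv_apply_val]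
  erw [prod_congr rfl fun j _ => e j true, prod_congr rfl fun j _ => e j false]
  simp
  ring

/-- the site term of a cell trial -/
noncomputable def siteR (b : ℝ) (K : ℕ) (ms : List ℝ) (Y : List ℕ → ℝ) (k : ℕ) : ℝ :=
  av (8 ^ k) fun a => av ((K + 1) ^ (k * 2)) fun v => Real.log
    (pmR ((K + 1) ^ (k * 2)) (fun path => siteF b k a (rd (K + 1) Y path)) ms [v])

/-- the edge term of a cell trial -/
noncomputable def edgeR (b : ℝ) (K : ℕ) (ms : List ℝ) (Y : List ℕ → ℝ) : ℝ :=
  av 8 fun a => av ((K + 1) ^ 3) fun v => Real.log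
    (pmR ((K + 1) ^ 3) (fun path => edgeF b a (rd (K + 1) Y path)) ms [v])

lemma site_XC {K : ℕ} {c : unitInterval → Fin (K + 1)}
    (hc : Rep volume c fun _ => ((K + 1 : ℕ) : ℝ)⁻¹) {Y : List ℕ → ℝ} (hY : ∀ l, 0 < Y l ∧ Y l < 1)
    {r : ℕ} (m : Fin r → ℝ) {b : ℝ} (hb : 0 < b) (k : ℕ) :
    ((muB b).exPi (Fin k) fun θs => nu0.ex fun h =>
      cavV r m (XC c Y r) (Fin k × Fin (3 - 1)) (siteV h θs)) = siteR b K (List.ofFn m) Y k := by
  rw [exPi_muB, siteR]
  congr 1
  funext a
  rw [ex_nu0]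
  exact cavV_XC hc (finProdFinEquiv : Fin k × Fin 2 ≃ Fin (k * 2)) Y m _ _
    fun path => mixV_site hb k a fun _ => hY _

lemma TF_XC {K : ℕ} {c : unitInterval → Fin (K + 1)}
    (hc : Rep volume c fun _ => ((K + 1 : ℕ) : ℝ)⁻¹) {Y : List ℕ → ℝ} (hY : ∀ l, 0 < Y l ∧ Y l < 1)
    {r : ℕ} (m : Fin r → ℝ) (α : ℝ) {b : ℝ} (hb : 0 < b) :
    TF α b r m (XC c Y r) = Real.log 2 +
      (∑' k : ℕ, poissonWeight (α * 3) k * siteR b K (List.ofFn m) Y k) -
      α * 2 * edgeR b K (List.ofFn m) Y := by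
  rw [TF, trialFunctional_toM]
  simp only [site_XC hc hY m hb]
  rw [ex_muB, edgeR]
  congr 2
  · norm_num
  · congr 1
    funext a
    exact cavV_XC hc (Equiv.refl _) Y m _ _ fun path => mixV_edge hb a fun _ => hY _

end Crest.Agent.R153.D
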