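import Mathlib
import Crest.Prelude.Def_RandomSAT

/-! Row 153: indicators and counting of clauses. -/

set_option autoImplicit false
open Finset Function
open scoped BigOperators Classical
open Crest.ProbabilityR.RandomSAT

namespace Crest.Agent.R153.A

/-- the indicator of a proposition -/
noncomputable def io (p : Prop) : ℝ := if p then 1 else 0

lemma io_pos {p : Prop} (h : p) : io p = 1 := if_pos h
lemma io_neg {p : Prop} (h : ¬ p) : io p = 0 := if_neg h
lemma io_nonneg (p : Prop) : 0 ≤ io p := by unfold io; split_ifs <;> norm_num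
lemma io_le_one (p : Prop) : io p ≤ 1 := by unfold io; split_ifs <;> norm_num
lemma io_mono {p q : Prop} (h : p → q) : io p ≤ io q := by
  by_cases hp : p
  · rw [io_pos hp, io_pos (h hp)]
  · rw [io_neg hp]; exact io_nonneg q
lemma io_congr {p q : Prop} (h : p ↔ q) : io p = io q := by rw [propext h]
lemma io_and (p q : Prop) : io (p ∧ q) = io p * io q := by
  by_cases hp : p <;> by_cases hq : q <;> simp [io, hp, hq]
lemma io_mul_le {p : Prop} {x y : ℝ} (h : p → x ≤ y) : io p * x ≤ io p * y := by
  by_cases hp : p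
  · simpa [io_pos hp] using h hp
  · simp [io_neg hp]
lemma io_mul_le' {p : Prop} {x y : ℝ} (h : p → x ≤ y) (hy : 0 ≤ y) : io p * x ≤ y := by
  by_cases hp : p
  · simpa [io_pos hp] using h hp
  · simpa [io_neg hp] using hy
lemma sum_io {α : Type*} (s : Finset α) (p : α → Prop) [DecidablePred p] :
    ∑ a ∈ s, io (p a) = ((s.filter p).card : ℝ) := by
  rw [card_filter]
  push_cast
  exact sum_congr rfl fun a _ => by unfold io; congr

variable {k n : ℕ}

/-- the literals of a clause -/
def lits (c : Clause k n) : Fin k → Fin n × Bool := fun a => (c.1.1 a, c.2 a)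

lemma lits_inj : Injective (lits : Clause k n → _) := by
  rintro ⟨⟨v, hv⟩, b⟩ ⟨⟨v', hv'⟩, b'⟩ h
  have h1 : v = v' := funext fun a => congrArg Prod.fst (congrFun h a)
  have h2 : b = b' := funext fun a => congrArg Prod.snd (congrFun h a)
  subst h1 h2; rfl

lemma card_pi_le (L : Fin k → Finset (Fin n × Bool)) :
    (univ.filter fun c : Clause k n => ∀ a, lits c a ∈ L a).card ≤ ∏ a, (L a).card := by
  rw [← Fintype.card_piFinset]
  exact card_le_card_of_injOn lits (fun c hc => by simpa using hc) lits_inj.injOn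

lemma card_all_le (L : Finset (Fin n × Bool)) :
    (univ.filter fun c : Clause k n => ∀ a, lits c a ∈ L).card ≤ L.card ^ k := by
  simpa using card_pi_le (k := k) fun _ => L

lemma card_but_le (x : Fin n) (L : Finset (Fin n × Bool)) :
    (univ.filter fun c : Clause k n =>
      (∃ a, c.1.1 a = x) ∧ ∀ a, c.1.1 a ≠ x → lits c a ∈ L).card ≤ k * (2 * L.card ^ (k - 1)) := by
  have h : (univ.filter fun c : Clause k n =>
      (∃ a, c.1.1 a = x) ∧ ∀ a, c.1.1 a ≠ x → lits c a ∈ L) ⊆ univ.biUnion fun a₀ : Fin k =>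
        univ.filter fun c : Clause k n => ∀ a, lits c a ∈
          update (fun _ => L) a₀ ({x} ×ˢ univ) a := by
    intro c hc
    simp only [mem_filter, mem_univ, true_and, mem_biUnion] at hc ⊢
    obtain ⟨⟨a₀, h0⟩, h1⟩ := hc
    refine ⟨a₀, fun a => ?_⟩
    by_cases ha : a = a₀
    · subst ha; simp [lits, h0]
    · rw [update_of_ne ha]
      exact h1 a fun h => ha (c.1.2 (h.trans h0.symm))
  refine (card_le_card h).trans (card_biUnion_le.trans ?_)
  refine (sum_le_sum fun a₀ _ => card_pi_le _).trans (le_of_eq ?_)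
  have : ∀ a₀ : Fin k, ∏ a, (update (fun _ : Fin k => L) a₀ ({x} ×ˢ univ) a).card =
      2 * L.card ^ (k - 1) := by
    intro a₀
    rw [← mul_prod_erase univ _ (mem_univ a₀), update_self,
      prod_congr rfl (g := fun _ => L.card) fun a ha => by rw [update_of_ne (ne_of_mem_erase ha)]]
    simp
  rw [sum_congr rfl fun a₀ _ => this a₀]
  simp

lemma le_card_all (L : Finset (Fin n × Bool)) (hL : Set.InjOn Prod.fst (L : Set (Fin n × Bool))) :
    (L.card + 1 - k) ^ k ≤ (univ.filter fun c : Clause k n => ∀ a, lits c a ∈ L).card := by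
  refine (Nat.pow_sub_le_descFactorial _ _).trans ?_
  have : L.card.descFactorial k = (univ : Finset (Fin k ↪ L)).card := by simp
  rw [this]
  refine card_le_card_of_injOn (fun e => (⟨fun a => (e a).1.1, fun a a' h => e.injective
    (Subtype.ext (hL (e a).2 (e a').2 h))⟩, fun a => (e a).1.2)) (fun e _ => ?_) fun e _ e' _ h => ?_
  · simp [lits]
  · have := congrArg lits h
    ext a
    · exact congrArg (fun f => ((f a).1 : ℕ)) this
    · exact congrArg (fun f => (f a).2) this

lemma card_inj : Fintype.card {v : Fin k → Fin n // Injective v} = n.descFactorial k := by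
  rw [Fintype.card_congr (Equiv.subtypeInjectiveEquivEmbedding _ _)]; simp

lemma card_clause : Fintype.card (Clause k n) = n.descFactorial k * 2 ^ k := by
  rw [Fintype.card_prod, card_inj]; simp

lemma pow_le_card (h : 2 * k ≤ n) : n ^ k ≤ Fintype.card (Clause k n) := by
  rw [card_clause]
  refine le_trans ?_ (Nat.mul_le_mul_right _ (Nat.pow_sub_le_descFactorial _ _))
  rw [← mul_pow]
  exact Nat.pow_le_pow_left (by omega) _

lemma card_le_pow : Fintype.card (Clause k n) ≤ (2 * n) ^ k := by
  have := card_all_le (k := k) (univ : Finset (Fin n × Bool))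
  simpa [mul_comm] using this

lemma nonempty_clause (h : k ≤ n) : Nonempty (Clause k n) :=
  ⟨(⟨Fin.castLE h, Fin.castLE_injective h⟩, fun _ => true)⟩

lemma card_unsat (σ : Fin n → Bool) :
    (univ.filter fun c : Clause k n => ¬ ClauseSat σ c).card * 2 ^ k ≤
      Fintype.card (Clause k n) := by
  rw [card_clause, ← card_inj]
  refine Nat.mul_le_mul_right _ ?_
  refine card_le_card_of_injOn Prod.fst (fun _ _ => by simp) ?_
  rintro ⟨v, b⟩ h ⟨v', b'⟩ h' (rfl : v = v')
  simp only [coe_filter, mem_univ, true_and, Set.mem_ofPred_eq, ClauseSat, not_exists] at h h'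
  congr 1
  funext a
  have h1 := h a
  have h2 := h' a
  revert h1 h2
  cases σ (v.1 a) <;> cases b a <;> cases b' a <;> simp

lemma sum_sat (σ : Fin n → Bool) :
    (1 - (1 / 2 : ℝ) ^ k) * Fintype.card (Clause k n) ≤ ∑ c : Clause k n, io (ClauseSat σ c) := by
  have h1 : ∑ c : Clause k n, io (ClauseSat σ c) + ∑ c : Clause k n, io (¬ ClauseSat σ c) =
      Fintype.card (Clause k n) := by
    rw [← sum_add_distrib, sum_congr rfl (g := fun _ => (1 : ℝ)) fun c _ => by
      by_cases h : ClauseSat σ c <;> simp [io, h]]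
    simp
  have h2 : (((univ.filter fun c : Clause k n => ¬ ClauseSat σ c).card * 2 ^ k : ℕ) : ℝ) ≤
      Fintype.card (Clause k n) := by exact_mod_cast card_unsat σ
  rw [sum_io univ fun c => ¬ ClauseSat σ c] at h1
  push_cast at h2
  have h3 : (0 : ℝ) < 2 ^ k := by positivity
  rw [← le_div_iff₀ h3] at h2
  have : (1 / 2 : ℝ) ^ k * Fintype.card (Clause k n) = Fintype.card (Clause k n) / 2 ^ k := by
    rw [one_div, inv_pow]; field_simp
  rw [sub_mul, this]
  linarith

lemma sum_sat_le (σ : Fin n → Bool) :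
    ∑ c : Clause k n, io (ClauseSat σ c) ≤ (1 - (1 / 2 : ℝ) ^ k) * Fintype.card (Clause k n) := by
  have h1 : ∑ c : Clause k n, io (ClauseSat σ c) + ∑ c : Clause k n, io (¬ ClauseSat σ c) =
      Fintype.card (Clause k n) := by
    rw [← sum_add_distrib, sum_congr rfl (g := fun _ => (1 : ℝ)) fun c _ => by
      by_cases h : ClauseSat σ c <;> simp [io, h]]
    simp
  have h2 : n.descFactorial k ≤ (univ.filter fun c : Clause k n => ¬ ClauseSat σ c).card := by
    rw [← card_inj]
    refine card_le_card_of_injOn (fun v => (v, fun a => !σ (v.1 a))) (fun v _ => ?_)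
      fun v _ v' _ h => congrArg Prod.fst h
    simp [ClauseSat]
  rw [sum_io univ fun c => ¬ ClauseSat σ c] at h1
  have h3 : (1 / 2 : ℝ) ^ k * Fintype.card (Clause k n) = n.descFactorial k := by
    rw [card_clause, one_div, inv_pow]; push_cast; field_simp
  have h4 : (n.descFactorial k : ℝ) ≤
      (univ.filter fun c : Clause k n => ¬ ClauseSat σ c).card := by exact_mod_cast h2
  rw [sub_mul, h3, one_mul]
  linarith

end Crest.Agent.R153.A
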