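import Crest.Agent.R153.Defs
import Crest.Agent.RatPR.Basic

/-! Row 153, task E: `tS` is a primitive recursive rational function. -/

set_option autoImplicit false
open Finset Function
open scoped BigOperators

namespace Crest.Agent.R153.E

section PR
variable {α : Type*} [Primcodable α]

theorem exLt {b : α → ℕ} {R : α → ℕ → Prop} (hb : Primrec b)
    (hR : PrimrecPred fun p : α × ℕ => R p.1 p.2) : PrimrecPred fun a => ∃ x < b a, R a x := by
  have h : PrimrecRel fun (x : ℕ) (a : α) => R a x := hR.comp (Primrec.pair Primrec.snd Primrec.fst)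
  exact (h.exists_mem_list.comp (Primrec.list_range.comp hb) Primrec.id).of_eq (by simp)

theorem allLt {b : α → ℕ} {R : α → ℕ → Prop} (hb : Primrec b)
    (hR : PrimrecPred fun p : α × ℕ => R p.1 p.2) : PrimrecPred fun a => ∀ x < b a, R a x := by
  have h : PrimrecRel fun (x : ℕ) (a : α) => R a x := hR.comp (Primrec.pair Primrec.snd Primrec.fst)
  exact (h.forall_mem_list.comp (Primrec.list_range.comp hb) Primrec.id).of_eq (by simp)

open Classical in
theorem cntLt {b : α → ℕ} {R : α → ℕ → Prop} (hb : Primrec b)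
    (hR : PrimrecPred fun p : α × ℕ => R p.1 p.2) :
    Primrec fun a => ((range (b a)).filter (R a)).card := by
  have h : PrimrecRel fun (x : ℕ) (a : α) => R a x := hR.comp (Primrec.pair Primrec.snd Primrec.fst)
  refine (Primrec.list_length.comp
    (h.listFilter.comp (Primrec.list_range.comp hb) Primrec.id)).of_eq fun a => ?_
  rfl

theorem impP {p q : α → Prop} (hp : PrimrecPred p) (hq : PrimrecPred q) :
    PrimrecPred fun a => p a → q a := (hp.not.or hq).of_eq fun a => by tauto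

/-- digit number `j` of `a` in base `B` -/
def dig (B a j : ℕ) : ℕ := a / B ^ j % B

theorem dig_pr {B a j : α → ℕ} (hB : Primrec B) (ha : Primrec a) (hj : Primrec j) :
    Primrec fun x => dig (B x) (a x) (j x) :=
  Primrec.nat_mod.comp (Primrec.nat_div.comp ha (RatPR.nat_pow hB hj)) hB

/-- variable number `l` of the clause with code `x` -/
def var (N x l : ℕ) : ℕ := dig N (x / 2 ^ 3) l

/-- required value number `l` of the clause with code `x` -/
def sg (x l : ℕ) : ℕ := dig 2 (x % 2 ^ 3) l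

/-- the clause with code `x` is improper or satisfied by the assignment with code `s` -/
def cl (N s x : ℕ) : Prop :=
  (∀ l < 3, ∀ l' < 3, var N x l = var N x l' → l = l') → ∃ l < 3, dig 2 s (var N x l) = sg x l

theorem var_pr {N x l : α → ℕ} (hN : Primrec N) (hx : Primrec x) (hl : Primrec l) :
    Primrec fun a => var (N a) (x a) (l a) :=
  dig_pr hN (Primrec.nat_div.comp hx (.const _)) hl

theorem sg_pr {x l : α → ℕ} (hx : Primrec x) (hl : Primrec l) :
    Primrec fun a => sg (x a) (l a) :=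
  dig_pr (.const _) (Primrec.nat_mod.comp hx (.const _)) hl

theorem cl_pr {N s x : α → ℕ} (hN : Primrec N) (hs : Primrec s) (hx : Primrec x) :
    PrimrecPred fun a => cl (N a) (s a) (x a) := by
  refine impP (allLt (.const 3) (allLt (.const 3) (impP ?_ ?_))) (exLt (.const 3) ?_)
  · exact Primrec.eq.comp
      (var_pr (hN.comp (Primrec.fst.comp .fst)) (hx.comp (Primrec.fst.comp .fst))
        (Primrec.snd.comp .fst))
      (var_pr (hN.comp (Primrec.fst.comp .fst)) (hx.comp (Primrec.fst.comp .fst)) .snd)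
  · exact Primrec.eq.comp (Primrec.snd.comp .fst) .snd
  · exact Primrec.eq.comp
      (dig_pr (.const 2) (hs.comp .fst) (var_pr (hN.comp .fst) (hx.comp .fst) .snd))
      (sg_pr (hx.comp .fst) .snd)

/-- the formula with code `a` is good -/
def Good (N m a : ℕ) : Prop := ∃ s < 2 ^ N, ∀ i < m, cl N s (dig (N ^ 3 * 2 ^ 3) a i)

theorem good_pr {N m a : α → ℕ} (hN : Primrec N) (hm : Primrec m) (ha : Primrec a) :
    PrimrecPred fun x => Good (N x) (m x) (a x) := by
  refine exLt (RatPR.nat_pow (.const 2) hN) (allLt (hm.comp .fst) ?_)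
  have hN' : Primrec fun p : (α × ℕ) × ℕ => N p.1.1 := hN.comp (Primrec.fst.comp .fst)
  exact cl_pr hN' (Primrec.snd.comp .fst)
    (dig_pr (Primrec.nat_mul.comp (RatPR.nat_pow hN' (.const 3)) (.const _))
      (ha.comp (Primrec.fst.comp .fst)) .snd)

end PR

/-- bit vectors -/
def bits (n : ℕ) : Fin (2 ^ n) ≃ (Fin n → Bool) :=
  finFunctionFinEquiv.symm.trans (Equiv.piCongrRight fun _ => finTwoEquiv)

/-- raw clauses -/
def rawE (N : ℕ) : Fin (N ^ 3 * 2 ^ 3) ≃ Raw N :=
  finProdFinEquiv.symm.trans (Equiv.prodCongr finFunctionFinEquiv.symm (bits 3))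

/-- formulas -/
def formE (N m : ℕ) : Fin ((N ^ 3 * 2 ^ 3) ^ m) ≃ (Fin m → Raw N) :=
  finFunctionFinEquiv.symm.trans (Equiv.piCongrRight fun _ => rawE N)

theorem raw_var (N : ℕ) (x : Fin (N ^ 3 * 2 ^ 3)) (l : Fin 3) :
    ((rawE N x).1 l : ℕ) = var N x l := rfl

theorem bits_eq {n n' : ℕ} (s : Fin (2 ^ n)) (s' : Fin (2 ^ n')) (v : Fin n) (v' : Fin n') :
    bits n s v = bits n' s' v' ↔ dig 2 s v = dig 2 s' v' := by
  change finTwoEquiv _ = finTwoEquiv _ ↔ _
  rw [finTwoEquiv.apply_eq_iff_eq, Fin.ext_iff]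
  rfl

theorem cl_iff (N : ℕ) (s : Fin (2 ^ N)) (x : Fin (N ^ 3 * 2 ^ 3)) :
    cl N s x ↔ (Injective (rawE N x).1 → ∃ l, bits N s ((rawE N x).1 l) = (rawE N x).2 l) := by
  have h1 : (∀ l < 3, ∀ l' < 3, var N x l = var N x l' → l = l') ↔ Injective (rawE N x).1 := by
    constructor
    · intro h l l' hl
      exact Fin.ext (h l l.2 l' l'.2 (by rw [← raw_var, ← raw_var, hl]))
    · intro h l hl l' hl' e
      have := @h ⟨l, hl⟩ ⟨l', hl'⟩ (Fin.ext (by rw [raw_var, raw_var]; exact e))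
      exact congrArg Fin.val this
  have h2 : ∀ l : Fin 3, bits N s ((rawE N x).1 l) = (rawE N x).2 l ↔
      dig 2 s (var N x l) = sg x l := fun l => bits_eq s (finProdFinEquiv.symm x).2 _ l
  rw [cl, h1]
  refine imp_congr_right fun _ => ⟨?_, ?_⟩
  · rintro ⟨l, hl, h⟩; exact ⟨⟨l, hl⟩, (h2 _).2 h⟩
  · rintro ⟨l, h⟩; exact ⟨l, l.2, (h2 _).1 h⟩

theorem good_iff (N m : ℕ) (a : Fin ((N ^ 3 * 2 ^ 3) ^ m)) :
    Good N m a ↔ ∃ σ : Fin N → Bool, ∀ i, Injective (formE N m a i).1 →
      ∃ l, σ ((formE N m a i).1 l) = (formE N m a i).2 l := by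
  constructor
  · rintro ⟨s, hs, h⟩
    exact ⟨bits N ⟨s, hs⟩, fun i => (cl_iff N ⟨s, hs⟩ (finFunctionFinEquiv.symm a i)).1 (h i i.2)⟩
  · rintro ⟨σ, h⟩
    obtain ⟨s, rfl⟩ := (bits N).surjective σ
    exact ⟨s, s.2, fun i hi => (cl_iff N s (finFunctionFinEquiv.symm a ⟨i, hi⟩)).2 (h ⟨i, hi⟩)⟩

end Crest.Agent.R153.E

namespace Crest.Agent.R153
open E

theorem tsPrim : TSPrimStmt := by
  classical
  refine ⟨fun N m => (((range ((N ^ 3 * 2 ^ 3) ^ m)).filter (Good N m)).card : ℚ) /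
    (((N ^ 3 * 2 ^ 3) ^ m : ℕ) : ℚ), ?_, fun N m _ => ?_⟩
  · have hB : Primrec fun p : ℕ × ℕ => (p.1 ^ 3 * 2 ^ 3) ^ p.2 :=
      RatPR.nat_pow (Primrec.nat_mul.comp (RatPR.nat_pow .fst (.const 3)) (.const _)) .snd
    refine RatPR.div (RatPR.natCast ?_) (RatPR.natCast hB)
    exact cntLt (R := fun p : ℕ × ℕ => Good p.1 p.2) hB
      (good_pr (Primrec.fst.comp .fst) (Primrec.snd.comp .fst) .snd)
  · rw [tS, ← Fintype.expect_equiv (formE N m) (fun a => if Good N m a then (1 : ℝ) else 0) _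
      (fun a => by rw [good_iff]; congr), Fintype.expect_eq_sum_div_card,
      Fin.sum_univ_eq_sum_range (fun a => if Good N m a then (1 : ℝ) else 0), Finset.sum_boole]
    simp

end Crest.Agent.R153
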