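import Crest.Agent.R153.FinA

/-! Row 153, task E: the computability of the threshold from the intermediate statements. -/

set_option autoImplicit false
open Finset Function Filter Topology
open scoped BigOperators
open Crest.ProbabilityR.RandomSAT

namespace Crest.Agent.R153.E

/-- the softness parameter -/
def bq (D q : ℕ) : ℚ := (1 / ((D * q : ℕ) : ℚ)) ^ (D * q ^ 2)

theorem bq_cast (D q : ℕ) : (bq D q : ℝ) = (1 / ((D : ℝ) * q)) ^ (D * q ^ 2) := by
  simp [bq]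

theorem one_le_Dq {D q : ℕ} (hD : 0 < D) (hq : 0 < q) : (1 : ℝ) ≤ (D : ℝ) * q := by
  exact_mod_cast Nat.mul_pos hD hq

theorem bq_pos {D q : ℕ} (hD : 0 < D) (hq : 0 < q) : (0 : ℝ) < bq D q := by
  have := one_le_Dq hD hq
  rw [bq_cast]; positivity

theorem bq_le {D q : ℕ} (hD : 0 < D) (hq : 0 < q) : (bq D q : ℝ) ≤ 1 := by
  have := one_le_Dq hD hq
  rw [bq_cast]
  exact pow_le_one₀ (by positivity) (by rw [div_le_one (by positivity)]; exact this)

theorem log_bq {D q : ℕ} (hD : 0 < D) (hq : 0 < q) :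
    -((D : ℝ) ^ 2 * q ^ 3) ≤ Real.log (bq D q) := by
  have h := one_le_Dq hD hq
  rw [bq_cast, Real.log_pow, one_div, Real.log_inv]
  have h1 : Real.log ((D : ℝ) * q) ≤ D * q := (Real.log_le_sub_one_of_pos (by linarith)).trans
    (by linarith)
  push_cast
  have h2 : (0 : ℝ) ≤ (D : ℝ) * q ^ 2 := by positivity
  nlinarith [mul_le_mul_of_nonneg_left h1 h2]

theorem expo_aux {δ ε u c N m γ : ℝ} (hδ0 : 0 < δ) (hδ1 : δ ≤ 1) (hε0 : 0 ≤ ε)
    (hε : ε ≤ δ / 128) (h8 : 0 ≤ u) (h7 : u ≤ δ / 128) (hc0 : 0 < c) (h2 : c ≤ 8) (hN0 : 0 < N)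
    (hm : m ≤ (c - δ / 2) * N) (h13 : γ ≤ δ / 32 * (δ / 8)) :
    δ / 32 * m - c * N * ((1 - ε) * (1 - u)) * (1 - Real.exp (-(δ / 32))) ≤ -(γ * N) := by
  obtain ⟨t, ht⟩ : ∃ t, t = δ / 32 := ⟨_, rfl⟩
  rw [← ht] at h13 ⊢
  have ht0 : 0 < t := by rw [ht]; positivity
  have he : t * (1 - t) ≤ 1 - Real.exp (-t) := by
    have h5 : Real.exp (-t) * (1 + t) ≤ 1 := by
      rw [Real.exp_neg, inv_mul_le_iff₀ (Real.exp_pos t)]
      linarith [Real.add_one_le_exp t]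
    have h6 : Real.exp (-t) ≤ 1 - t + t ^ 2 := by
      refine le_of_mul_le_mul_right (h5.trans ?_) (by linarith : 0 < 1 + t)
      nlinarith [pow_pos ht0 3]
    nlinarith
  have h9 : 1 - δ / 64 ≤ (1 - ε) * (1 - u) := by nlinarith [mul_nonneg hε0 h8]
  have h10 : (1 - δ / 64) * (t * (1 - t)) ≤ (1 - ε) * (1 - u) * (1 - Real.exp (-t)) :=
    mul_le_mul h9 he (mul_nonneg ht0.le (by linarith)) (by linarith)
  have h11 : t * (1 - 3 * δ / 64) ≤ (1 - δ / 64) * (t * (1 - t)) := by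
    have : (1 - 3 * δ / 64) ≤ (1 - δ / 64) * (1 - t) := by rw [ht]; nlinarith
    nlinarith
  have h12 : c * N * (t * (1 - 3 * δ / 64)) ≤
      c * N * ((1 - ε) * (1 - u)) * (1 - Real.exp (-t)) := by
    rw [mul_assoc (c * N)]
    exact mul_le_mul_of_nonneg_left (h11.trans h10) (by positivity)
  have h13' : γ * N ≤ t * (δ / 8) * N := mul_le_mul_of_nonneg_right h13 hN0.le
  have h14 : t * m ≤ t * ((c - δ / 2) * N) := mul_le_mul_of_nonneg_left hm ht0.le
  have h15 : t * N * (c * (3 * δ / 64)) ≤ t * N * (8 * (3 * δ / 64)) := by gcongr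
  linarith

/-- Above the threshold the pressure is very negative. -/
theorem above (hU : PresUpStmt) {C : ℕ} (hC : 0 < C) {α : ℝ} (hα : 0 ≤ α)
    (hT : ∀ δ : ℝ, 0 < δ → δ ≤ 1 → ∀ᶠ n : ℕ in atTop,
      satProb 3 n ⌊(α + δ) * n⌋₊ ≤ Real.exp (-(δ ^ 2 * n / C)))
    {q : ℕ} (hq : 0 < q) {c : ℝ} (h1 : α + 1 / q ≤ c) (h2 : c ≤ 8) :
    ∀ᶠ N : ℕ in atTop, FN c (bq (768 * C) q) N ≤ -1 := by
  have hq1 : (1 : ℝ) ≤ q := by exact_mod_cast hq
  have hC1 : (1 : ℝ) ≤ C := by exact_mod_cast hC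
  set δ : ℝ := 1 / q with hδ
  have hδ0 : 0 < δ := by positivity
  have hδ1 : δ ≤ 1 := by rw [hδ, div_le_one (by positivity)]; exact hq1
  have hδq : δ * q = 1 := by rw [hδ]; field_simp
  filter_upwards [hT (δ / 2) (by positivity) (by linarith), eventually_ge_atTop (384 * q),
    eventually_ge_atTop (768 * C * q ^ 2)] with N hN h3 h4
  have hN3 : 3 ≤ N := by omega
  have h3' : (384 : ℝ) * q ≤ N := by exact_mod_cast h3
  have h4' : (768 : ℝ) * C * q ^ 2 ≤ N := by exact_mod_cast h4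
  have hN0 : (0 : ℝ) < N := by linarith
  set ε : ℝ := 1 / ((768 * C : ℕ) * q) with hε
  have hεδ : ε ≤ δ / 128 := by
    rw [hε, hδ, div_div]
    push_cast
    exact one_div_le_one_div_of_le (by positivity) (by nlinarith)
  have hε0 : 0 < ε := by rw [hε]; push_cast; positivity
  set γ : ℝ := δ ^ 2 / (256 * C) with hγ
  have hγ0 : 0 < γ := by positivity
  have hc0 : 0 < c := by linarith
  have key := hU c ε (δ / 32) (2 * Real.exp (-(γ * N))) (768 * C * q ^ 2) N ⌊(α + δ / 2) * N⌋₊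
    hc0 hε0 (by linarith) (by positivity) hN3 (by
      rw [two_mul]
      refine add_le_add (hN.trans (Real.exp_le_exp.2 ?_)) (Real.exp_le_exp.2 ?_)
      · rw [neg_le_neg_iff, hγ, div_mul_eq_mul_div, div_le_div_iff₀ (by positivity) (by positivity)]
        have : 0 ≤ δ ^ 2 * N * C := by positivity
        nlinarith
      · have hm : (⌊(α + δ / 2) * N⌋₊ : ℝ) ≤ (c - δ / 2) * N :=
          (Nat.floor_le (by positivity)).trans
            (mul_le_mul_of_nonneg_right (by linarith) hN0.le)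
        have h7 : 3 / (N : ℝ) ≤ δ / 128 := by
          rw [div_le_div_iff₀ hN0 (by norm_num)]
          have := mul_le_mul_of_nonneg_left h3' hδ0.le
          nlinarith
        have h13 : γ ≤ δ / 32 * (δ / 8) := by
          rw [hγ, div_le_iff₀ (by positivity)]
          nlinarith [sq_nonneg δ]
        exact expo_aux hδ0 hδ1 hε0.le hεδ (by positivity) h7 hc0 h2 hN0 hm h13)
  have hb : (bq (768 * C) q : ℝ) = ε ^ (768 * C * q ^ 2) := by rw [bq_cast]
  rw [hb]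
  refine key.trans ?_
  rw [Real.log_mul two_ne_zero (Real.exp_pos _).ne', Real.log_exp]
  have hl : Real.log 2 ≤ 1 := (Real.log_le_sub_one_of_pos two_pos).trans (by norm_num)
  have hl0 : 0 ≤ Real.log 2 := Real.log_nonneg (by norm_num)
  have e1 : ((768 * C * q ^ 2 : ℕ) : ℝ) / N * (γ * N) = 3 := by
    push_cast
    rw [hγ, hδ]; field_simp; norm_num
  have e2 : ((768 * C * q ^ 2 : ℕ) : ℝ) / N ≤ 1 := by
    rw [div_le_one hN0]; exact_mod_cast h4
  have e3 : 0 ≤ ((768 * C * q ^ 2 : ℕ) : ℝ) / N := by positivity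
  nlinarith [mul_le_mul e2 hl hl0 zero_le_one]

/-- the error term of the lower bound along the grid -/
noncomputable def err (q i n : ℕ) : ℝ :=
  (3 * ((i * n : ℕ) : ℝ) + 3 * ((i * n ^ 2 : ℕ) : ℝ) / ((q * n ^ 2 : ℕ) : ℝ) +
    ((i * n ^ 2 : ℕ) : ℝ) * (1 - tS (q * n ^ 2) (i * n ^ 2))) / ((q * n ^ 2 : ℕ) : ℝ)

theorem lo_err (hL : PresLoStmt) {q i n : ℕ} (hq : 0 < q) (hi : 0 < i) (hn : 0 < n) {b K η : ℝ}
    (hb : 0 < b) (hb1 : b ≤ 1) (hK : -K ≤ Real.log b) (hη : 0 < η) (h : K * err q i n < η) :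
    -η < FN (i / q) b (q * n ^ 2) := by
  have hq' : (0 : ℝ) < q := by exact_mod_cast hq
  have hi' : (0 : ℝ) < i := by exact_mod_cast hi
  have h1 := hL (i / q) b (q * n ^ 2) (i * n ^ 2) (i * n) (by positivity) hb hb1 (by positivity)
    (by positivity) (le_of_eq (by push_cast; field_simp)) (by nlinarith [Nat.zero_le (n ^ 2)])
  rw [mul_div_assoc] at h1
  change Real.log b * err q i n ≤ _ at h1
  have h2 : Real.log b ≤ 0 := Real.log_nonpos hb.le hb1
  refine lt_of_lt_of_le ?_ h1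
  rcases le_total 0 (err q i n) with h3 | h3
  · nlinarith
  · nlinarith

theorem err_small (hT : TSLeStmt) {α : ℝ} (hα : IsSharpThreshold (satProb 3) α) {q i : ℕ}
    (hq : 0 < q) (h : (i : ℝ) / q < α) {K η : ℝ} (hK : 0 ≤ K) (hη : 0 < η) :
    ∃ n, 0 < n ∧ K * err q i n < η := by
  have hq' : (0 : ℝ) < q := by exact_mod_cast hq
  have hq1 : (1 : ℝ) ≤ q := by exact_mod_cast hq
  have h0 : Tendsto (fun n : ℕ => q * n ^ 2) atTop atTop :=
    tendsto_atTop_mono (fun n => (Nat.le_self_pow two_ne_zero n).trans (Nat.le_mul_of_pos_left _ hq)) tendsto_id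
  have h1 := ((hα (i / q) (by positivity)).1 h).comp h0
  have h2 : Tendsto (fun n : ℕ => K * (6 * i * (n : ℝ)⁻¹ +
      i / q * (1 - satProb 3 (q * n ^ 2) ⌊(i : ℝ) / q * ((q * n ^ 2 : ℕ) : ℝ)⌋₊))) atTop
      (𝓝 (K * (6 * i * 0 + i / q * (1 - 1)))) :=
    ((tendsto_inv_atTop_nhds_zero_nat.const_mul _).add
      ((h1.const_sub 1).const_mul _)).const_mul K
  simp only [mul_zero, sub_self, add_zero] at h2
  obtain ⟨n, h3, h4⟩ := ((h2.eventually (gt_mem_nhds hη)).and (eventually_ge_atTop 3)).exists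
  refine ⟨n, by omega, lt_of_le_of_lt (mul_le_mul_of_nonneg_left ?_ hK) h3⟩
  have hn : (3 : ℝ) ≤ n := by exact_mod_cast h4
  have e1 : ⌊(i : ℝ) / q * ((q * n ^ 2 : ℕ) : ℝ)⌋₊ = i * n ^ 2 := by
    have : (i : ℝ) / q * ((q * n ^ 2 : ℕ) : ℝ) = ((i * n ^ 2 : ℕ) : ℝ) := by
      push_cast; field_simp
    rw [this, Nat.floor_natCast]
  rw [e1]
  have h5 := hT (q * n ^ 2) (i * n ^ 2) (by nlinarith)
  have e2 : err q i n = 3 * i * (n : ℝ)⁻¹ * (1 / q) + 3 * i * (n : ℝ)⁻¹ * (1 / (q * q * n)) +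
      i / q * (1 - tS (q * n ^ 2) (i * n ^ 2)) := by
    rw [err]; push_cast; field_simp
  rw [e2]
  have a1 : 1 / (q : ℝ) ≤ 1 := by rw [div_le_one hq']; exact hq1
  have a2 : 1 / ((q : ℝ) * q * n) ≤ 1 := by
    rw [div_le_one (by positivity)]; nlinarith [mul_le_mul hq1 hq1 zero_le_one hq'.le]
  have a3 : 0 ≤ 3 * i * (n : ℝ)⁻¹ := by positivity
  have a4 : (i : ℝ) / q * (1 - tS (q * n ^ 2) (i * n ^ 2)) ≤
      i / q * (1 - satProb 3 (q * n ^ 2) (i * n ^ 2)) :=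
    mul_le_mul_of_nonneg_left (by linarith) (by positivity)
  nlinarith [mul_le_mul_of_nonneg_left a1 a3, mul_le_mul_of_nonneg_left a2 a3]

/-- rational version of the error term -/
def errQ (t : ℕ → ℕ → ℚ) (q i n : ℕ) : ℚ :=
  (3 * ((i * n : ℕ) : ℚ) + 3 * ((i * n ^ 2 : ℕ) : ℚ) / ((q * n ^ 2 : ℕ) : ℚ) +
    ((i * n ^ 2 : ℕ) : ℚ) * (1 - t (q * n ^ 2) (i * n ^ 2))) / ((q * n ^ 2 : ℕ) : ℚ)

theorem errQ_cast {t : ℕ → ℕ → ℚ} (ht : ∀ N m, 0 < N → (t N m : ℝ) = tS N m) {q i n : ℕ}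
    (hq : 0 < q) (hn : 0 < n) : (errQ t q i n : ℝ) = err q i n := by
  rw [err, ← ht _ _ (by positivity), errQ]
  simp only [Rat.cast_div, Rat.cast_add, Rat.cast_mul, Rat.cast_natCast, Rat.cast_sub,
    Rat.cast_one, Rat.cast_ofNat]

theorem errQ_pr {α : Type*} [Primcodable α] {t : ℕ → ℕ → ℚ} (ht : Primrec₂ t) {q i n : α → ℕ}
    (hq : Primrec q) (hi : Primrec i) (hn : Primrec n) :
    Primrec fun a => errQ t (q a) (i a) (n a) := by
  have h2 := RatPR.nat_pow hn (.const 2)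
  have hm := Primrec.nat_mul.comp hi h2
  have hN := Primrec.nat_mul.comp hq h2
  exact RatPR.div (RatPR.add (RatPR.add
    (RatPR.mul (.const 3) (RatPR.natCast (Primrec.nat_mul.comp hi hn)))
    (RatPR.div (RatPR.mul (.const 3) (RatPR.natCast hm)) (RatPR.natCast hN)))
    (RatPR.mul (RatPR.natCast hm) (RatPR.sub (.const 1) (ht.comp hN hm)))) (RatPR.natCast hN)

/-- the certificate -/
def Cert (U : ℚ × ℚ → ℕ → Prop) (t : ℕ → ℕ → ℚ) (D q i n k : ℕ) : Prop :=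
  i ≤ 7 * q ∧ (i = 0 ∨ (0 < n ∧ ((D ^ 2 * q ^ 3 : ℕ) : ℚ) * errQ t q i n < 1 / 2)) ∧
    U (((i + 2 : ℕ) : ℚ) / (q : ℚ), bq D q) k

theorem cert_pr {α : Type*} [Primcodable α] {U : ℚ × ℚ → ℕ → Prop} (hU : PrimrecRel U)
    {t : ℕ → ℕ → ℚ} (ht : Primrec₂ t) (D : ℕ) {q i n k : α → ℕ}
    (hq : Primrec q) (hi : Primrec i) (hn : Primrec n) (hk : Primrec k) :
    PrimrecPred fun a => Cert U t D (q a) (i a) (n a) (k a) := by
  refine (Primrec.nat_le.comp hi (Primrec.nat_mul.comp (.const 7) hq)).and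
    (((Primrec.eq.comp hi (.const 0)).or ((Primrec.nat_lt.comp (.const 0) hn).and ?_)).and ?_)
  · exact RatPR.lt (RatPR.mul (RatPR.natCast (Primrec.nat_mul.comp (.const _)
      (RatPR.nat_pow hq (.const 3)))) (errQ_pr ht hq hi hn)) (.const _)
  · refine hU.comp (Primrec.pair (RatPR.div (RatPR.natCast (Primrec.nat_add.comp hi (.const 2)))
      (RatPR.natCast hq)) ?_) hk
    exact RatPR.pow (RatPR.div (.const 1) (RatPR.natCast (Primrec.nat_mul.comp (.const D) hq)))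
      (Primrec.nat_mul.comp (.const D) (RatPR.nat_pow hq (.const 2)))

end Crest.Agent.R153.E

namespace Crest.Agent.R153
open E

theorem main_of (hMP : MPStmt) (hC : CertStmt) (hL : PresLoStmt) (hU : PresUpStmt)
    (hT : TSLeStmt) (hP : TSPrimStmt) (hTail : TailStmt) : MainStmt := by
  classical
  intro α hα
  obtain ⟨C, hC0, hTail⟩ := hTail
  obtain ⟨hα0, hα6, hTail⟩ := hTail α hα
  obtain ⟨U, hUp, hU'⟩ := hC
  obtain ⟨t, htp, ht⟩ := hP
  set D := 768 * C with hD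
  have hD0 : 0 < D := by omega
  have hUU : ∀ q i : ℕ, 0 < q → ((∃ k, U (((i + 2 : ℕ) : ℚ) / (q : ℚ), bq D q) k) ↔
      Neg (((i + 2 : ℕ) : ℝ) / q) (bq D q) 0) := fun q i hq => by
    have h1 : (0 : ℚ) < ((i + 2 : ℕ) : ℚ) / (q : ℚ) := by positivity
    rw [hU' _ _ h1 (by exact_mod_cast bq_pos hD0 hq) (by exact_mod_cast bq_le hD0 hq)]
    simp only [Rat.cast_div, Rat.cast_natCast]
  -- soundness
  have sound : ∀ q i n k : ℕ, 0 < q → Cert U t D q i n k →
      (i : ℝ) - 1 ≤ α * q ∧ α * q ≤ i + 2 := by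
    rintro q i n k hq ⟨h1, h2, h3⟩
    have hq' : (0 : ℝ) < q := by exact_mod_cast hq
    have hb := bq_pos hD0 hq
    have hb1 := bq_le hD0 hq
    constructor
    · rcases Nat.eq_zero_or_pos i with hi | hi
      · subst hi; have := mul_nonneg hα0 hq'.le; push_cast; linarith
      obtain ⟨hn, h2⟩ := h2.resolve_left hi.ne'
      have hi' : (0 : ℝ) < i := by exact_mod_cast hi
      by_contra hcon
      have h4 : α + 1 / q ≤ (i : ℝ) / q := by
        rw [le_div_iff₀ hq', add_mul, one_div_mul_cancel hq'.ne']; linarith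
      have h5 : (i : ℝ) / q ≤ 8 := by
        rw [div_le_iff₀ hq']
        have : (i : ℝ) ≤ 7 * q := by exact_mod_cast h1
        linarith
      have h6 := above hU hC0 hα0 hTail hq h4 h5
      obtain ⟨m1, m2⟩ := hMP (i / q) (bq D q) (by positivity) hb hb1
      obtain ⟨r, m, X, a1, a2, a3⟩ := m2 (-(1 / 2)) (1 / 2) (by norm_num)
        (h6.mono fun N hN => by linarith)
      have h7 := m1 r m X a1 a2 (q * n ^ 2) (by positivity)
      have h8 : (D : ℝ) ^ 2 * q ^ 3 * err q i n < 1 / 2 := by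
        rw [← errQ_cast ht hq hn]
        have : ((((D ^ 2 * q ^ 3 : ℕ) : ℚ) * errQ t q i n : ℚ) : ℝ) < ((1 / 2 : ℚ) : ℝ) :=
          Rat.cast_lt.2 h2
        simpa using this
      have h9 := lo_err hL hq hi hn hb hb1 (log_bq hD0 hq) (by norm_num) h8
      linarith
    · by_contra hcon
      have h4 : ((i + 2 : ℕ) : ℝ) / q < α := by
        rw [div_lt_iff₀ hq']; push_cast; linarith
      obtain ⟨r, m, X, a1, a2, a3⟩ := (hUU q i hq).1 ⟨k, h3⟩
      obtain ⟨n', hn', h5⟩ := err_small hT hα hq h4 (K := (D : ℝ) ^ 2 * q ^ 3) (by positivity)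
        (neg_pos.2 a3)
      have h6 := lo_err hL hq (by omega) hn' hb hb1 (log_bq hD0 hq) (neg_pos.2 a3) h5
      have h7 := (hMP (((i + 2 : ℕ) : ℝ) / q) (bq D q) (by positivity) hb hb1).1 r m X a1 a2
        (q * n' ^ 2) (by positivity)
      linarith
  -- completeness
  have compl : ∀ q : ℕ, 0 < q → ∃ i n k, Cert U t D q i n k := by
    intro q hq
    have hq' : (0 : ℝ) < q := by exact_mod_cast hq
    have hq1 : (1 : ℝ) ≤ q := by exact_mod_cast hq
    have hb := bq_pos hD0 hq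
    have hb1 := bq_le hD0 hq
    obtain ⟨i, hi1, hi2⟩ : ∃ i : ℕ, α * q ≤ i + 1 ∧ (i = 0 ∨ (i : ℝ) < α * q) := by
      rcases Nat.eq_zero_or_pos ⌈α * q⌉₊ with h | h
      · exact ⟨0, by have := Nat.ceil_eq_zero.1 h; push_cast; linarith, Or.inl rfl⟩
      · obtain ⟨i, hi⟩ := Nat.exists_eq_succ_of_ne_zero h.ne'
        refine ⟨i, ?_, Or.inr (Nat.lt_ceil.1 (by omega))⟩
        have := Nat.le_ceil (α * q)
        rw [hi] at this; exact_mod_cast this
    have hi6 : (i : ℝ) ≤ 6 * q := by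
      rcases hi2 with h | h
      · rw [h]; push_cast; positivity
      · nlinarith
    have h4 : α + 1 / q ≤ ((i + 2 : ℕ) : ℝ) / q := by
      rw [le_div_iff₀ hq', add_mul, one_div_mul_cancel hq'.ne']; push_cast; linarith
    have h5 : ((i + 2 : ℕ) : ℝ) / q ≤ 8 := by
      rw [div_le_iff₀ hq']; push_cast; linarith
    have h6 := above hU hC0 hα0 hTail hq h4 h5
    obtain ⟨k, hk⟩ := (hUU q i hq).2 ((hMP _ (bq D q) (by positivity) hb hb1).2 0 1 one_pos
      (h6.mono fun N hN => by linarith))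
    have hi7 : i ≤ 7 * q := by
      have : (i : ℝ) ≤ 7 * q := by linarith
      exact_mod_cast this
    rcases hi2 with h | h
    · exact ⟨i, 0, k, hi7, Or.inl h, hk⟩
    · obtain ⟨n, hn, h7⟩ := err_small hT hα hq (i := i) (by rwa [div_lt_iff₀ hq'])
        (K := (D : ℝ) ^ 2 * q ^ 3) (by positivity) (by norm_num : (0 : ℝ) < 1 / 2)
      refine ⟨i, n, k, hi7, Or.inr ⟨hn, ?_⟩, hk⟩
      rw [← errQ_cast ht hq hn] at h7
      have : ((((D ^ 2 * q ^ 3 : ℕ) : ℚ) * errQ t q i n : ℚ) : ℝ) < ((1 / 2 : ℚ) : ℝ) := by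
        simpa using h7
      exact Rat.cast_lt.1 this
  let P : ℕ → ℕ → Prop := fun r w =>
    Cert U t D (4 * 2 ^ r) w.unpair.1 w.unpair.2.unpair.1 w.unpair.2.unpair.2
  have hPp : PrimrecPred fun p : ℕ × ℕ => P p.1 p.2 := by
    have u2 : Primrec fun p : ℕ × ℕ => p.2.unpair.2 :=
      Primrec.snd.comp (Primrec.unpair.comp .snd)
    exact cert_pr hUp htp D (Primrec.nat_mul.comp (.const 4) (RatPR.nat_pow (.const 2) .fst))
      (Primrec.fst.comp (Primrec.unpair.comp .snd)) (Primrec.fst.comp (Primrec.unpair.comp u2))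
      (Primrec.snd.comp (Primrec.unpair.comp u2))
  have hPe : ∀ r, ∃ w, P r w := fun r => by
    obtain ⟨i, n, k, h⟩ := compl (4 * 2 ^ r) (by positivity)
    exact ⟨Nat.pair i (Nat.pair n k), by simpa [P] using h⟩
  have hf := Computable.find hPp.computablePred hPe
  refine ⟨fun r => ((Nat.find (hPe r)).unpair.1 + 1) / 4, ?_, fun r => ?_⟩
  · have : Primrec fun w : ℕ => (w.unpair.1 + 1) / 4 :=
      Primrec.nat_div.comp (Primrec.succ.comp (Primrec.fst.comp Primrec.unpair)) (.const 4)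
    exact this.to_comp.comp hf
  · obtain ⟨h1, h2⟩ := sound _ _ _ _ (by positivity) (Nat.find_spec (hPe r))
    set i := (Nat.find (hPe r)).unpair.1
    have h3 : (4 : ℝ) * ((i + 1) / 4 : ℕ) ≤ i + 1 := by
      exact_mod_cast (by omega : 4 * ((i + 1) / 4) ≤ i + 1)
    have h4 : (i : ℝ) ≤ 4 * ((i + 1) / 4 : ℕ) + 2 := by
      exact_mod_cast (by omega : i ≤ 4 * ((i + 1) / 4) + 2)
    have h5 : (0 : ℝ) < 2 ^ r := by positivity
    push_cast at h1 h2
    have e : (((i + 1) / 4 : ℕ) : ℝ) / 2 ^ r - α = ((((i + 1) / 4 : ℕ) : ℝ) - α * 2 ^ r) / 2 ^ r := by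
      field_simp
    rw [e, abs_div, abs_of_pos h5]
    refine div_le_div_of_nonneg_right (abs_le.2 ⟨by linarith, by linarith⟩) h5.le

end Crest.Agent.R153
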