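import Crest.Agent.R153.Defs
import Crest.Agent.R141.Key
import Crest.Agent.R141.Ass4
import Crest.Agent.R141.Dcp
import Crest.Agent.R141.Up3
import Crest.Agent.R141.Sim5

/-! Row 153, task B: the Mezard-Parisi formula for soft random 3-SAT. -/

set_option autoImplicit false
open Finset Function Filter Topology
open scoped BigOperators
open Crest.ProbabilityR.Diluted Crest.Agent.R141 Crest.Agent.R141.KeyAux

namespace Crest.Agent.R153.B

/-- indicator of disagreement -/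
def ne (s J : Bool) : ℝ := if s = J then 0 else 1

lemma ne_nonneg (s J : Bool) : 0 ≤ ne s J := by unfold ne; split_ifs <;> norm_num

/-- the multiplicative form of a soft clause -/
def xJ (b : ℝ) (J s : Fin 3 → Bool) : ℝ := -(1 - b) * ∏ l, ne (s l) (J l)

lemma prod_ne (J s : Fin 3 → Bool) :
    ∏ l, ne (s l) (J l) = if ∃ l, s l = J l then 0 else 1 := by
  split_ifs with h
  · obtain ⟨l, hl⟩ := h
    exact prod_eq_zero (mem_univ l) (by simp [ne, hl])
  · exact prod_eq_one fun l _ => by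
      have : s l ≠ J l := fun e => h ⟨l, e⟩
      simp [ne, this]

lemma th_eq (b : ℝ) (J : Fin 3 → Bool) : th b J = fun s => Real.log (1 + xJ b J s) := by
  funext s
  rw [th, xJ, prod_ne]
  split_ifs <;> simp

lemma xJ_abs {b : ℝ} (hb : b ≤ 1) (J s : Fin 3 → Bool) : |xJ b J s| ≤ 1 - b := by
  rw [xJ, prod_ne]
  split_ifs
  · simpa using hb
  · rw [mul_one, abs_neg, abs_of_nonneg (by linarith)]

/-- moments of the disagreement indicator -/
noncomputable def mm {n : ℕ} (z : Fin n → Bool) : ℝ := ∑ β : Bool, 1 / 2 * ∏ i, ne (z i) β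

lemma mm_nonneg {n : ℕ} (z : Fin n → Bool) : 0 ≤ mm z :=
  sum_nonneg fun β _ => mul_nonneg (by norm_num) (prod_nonneg fun i _ => ne_nonneg _ _)

lemma moment (b : ℝ) {n : ℕ} (k : Fin n → Fin 3 → Bool) :
    ∑ J : Fin 3 → Bool, 1 / 8 * ∏ i, xJ b J (k i) =
      (-(1 - b)) ^ n * ∏ l, mm fun i => k i l := by
  simp only [mm]
  rw [Fintype.prod_sum, mul_sum]
  refine sum_congr rfl fun J _ => ?_
  simp only [xJ]
  rw [prod_mul_distrib, prod_mul_distrib, Finset.prod_comm (s := univ) (t := univ)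
    (f := fun i l => ne (k i l) (J l))]
  simp only [prod_const, card_univ, Fintype.card_fin]
  ring

lemma LD_nonpos3 (d : Dat) (ha : d.a ≤ d.P.r) (j : ℕ) (m : (Fin (j + 1) → Bool) → ℝ)
    (hm : ∀ z, 0 ≤ m z) : LD d 3 j (fun k => ∏ l, m fun i => k i l) ≤ 0 := by
  rw [LD_apply, LL_prod, LL_prod, LL_prod, ← lin_mul, ← lin_mul, ← lin_sub, ← lin_sub]
  refine (Q_mono d.P ha j (Φ' := fun _ => 0) fun A _ hA => ?_).trans_eq (Q_const d.P ha j 0)
  simp only [dif_pos hA]
  rw [← lin_mul, ← lin_mul, ← lin_sub, ← lin_sub]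
  refine (nuE_isP d.P _ _ _ _).le fun y => ?_
  rw [prod_last (by norm_num)]
  have hx : 0 ≤ xx d m hA y := expect_nonneg fun _ _ => hm _
  have hq : 0 ≤ qq d m hA := expect_nonneg fun _ _ => (nuE_isP d.P _ _ _ _).nonneg _ fun _ => hm _
  simp only [if_true, prod_const, card_univ, Fintype.card_fin, Bool.false_eq_true, if_false]
  generalize xx d m hA y = x at hx
  generalize qq d m hA = q at hq
  push_cast
  nlinarith [mul_nonneg (sq_nonneg (x - q)) (by positivity : 0 ≤ x + 2 * q)]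

lemma DD_sum (d : Dat) (ha : d.a ≤ d.P.r) {b : ℝ} (hb0 : 0 < b) (hb : b ≤ 1) :
    0 ≤ ∑ J : Fin 3 → Bool, 1 / 8 * DD d (th b J) := by
  have h1 : 1 - b < 1 := by linarith
  have h0 : 0 ≤ 1 - b := by linarith
  have key : ∀ n : ℕ, -(2 * ((1 - b) ^ (n + 1) / (1 - (1 - b)))) ≤
      ∑ J : Fin 3 → Bool, 1 / 8 * DD d (th b J) := by
    intro n
    have pos : 0 ≤ ∑ J : Fin 3 → Bool, 1 / 8 * ∑ j ∈ range n, (-1 : ℝ) ^ j / (j + 1) *
        LD d 3 j (fun k => ∏ i, xJ b J (k i)) := by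
      simp only [mul_sum]
      rw [sum_comm]
      refine sum_nonneg fun j _ => ?_
      have e : ∑ J : Fin 3 → Bool, 1 / 8 * ((-1 : ℝ) ^ j / (j + 1) *
          LD d 3 j (fun k => ∏ i, xJ b J (k i))) = (-1 : ℝ) ^ j / (j + 1) *
          LD d 3 j (fun k => ∑ J : Fin 3 → Bool, 1 / 8 * ∏ i, xJ b J (k i)) := by
        rw [lin_sum, mul_sum]
        refine sum_congr rfl fun J _ => ?_
        rw [lin_mul]; ring
      rw [e]
      simp only [moment]
      rw [lin_mul]
      have a1 := LD_nonpos3 d ha j mm mm_nonneg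
      have a4 := mul_nonneg (mul_nonneg (pow_nonneg h0 (j + 1)) (neg_nonneg.2 a1))
        (show (0 : ℝ) ≤ 1 / (j + 1) by positivity)
      have a5 : ((-1 : ℝ) ^ j) ^ 2 = 1 := by rw [← pow_mul, mul_comm, pow_mul]; simp
      convert a4 using 1
      rw [neg_pow (1 - b), pow_succ (-1 : ℝ)]
      linear_combination (-(1 - b) ^ (j + 1) * (1 / (j + 1)) *
        LD d 3 j (fun k => ∏ l, mm fun i => k i l)) * a5
    have h3 : ∑ J : Fin 3 → Bool, 1 / 8 * (∑ j ∈ range n, (-1 : ℝ) ^ j / (j + 1) *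
        LD d 3 j (fun k => ∏ i, xJ b J (k i)) - 2 * ((1 - b) ^ (n + 1) / (1 - (1 - b)))) ≤
        ∑ J : Fin 3 → Bool, 1 / 8 * DD d (th b J) := by
      refine sum_le_sum fun J _ => mul_le_mul_of_nonneg_left ?_ (by norm_num)
      have := (abs_le.1 (DD_expand d ha (by norm_num) (xJ_abs hb J) h1 n)).1
      rw [th_eq]
      linarith
    simp only [mul_sub, sum_sub_distrib, sum_const, card_univ, Fintype.card_fun,
      Fintype.card_bool, Fintype.card_fin, nsmul_eq_mul] at h3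
    push_cast at h3
    linarith
  have lim : Tendsto (fun n : ℕ => -(2 * ((1 - b) ^ (n + 1) / (1 - (1 - b))))) atTop
      (𝓝 (-(2 * (0 / (1 - (1 - b)))))) :=
    ((((tendsto_pow_atTop_nhds_zero_of_lt_one h0 h1).comp
      (tendsto_add_atTop_nat 1)).div_const _).const_mul _).neg
  simpa using le_of_tendsto' lim key

lemma DD_sum' (d : Dat) {b : ℝ} (hb0 : 0 < b) (hb : b ≤ 1) :
    0 ≤ ∑ J : Fin 3 → Bool, 1 / 8 * DD d (th b J) := by
  rcases le_or_gt d.a d.P.r with ha | ha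
  · exact DD_sum d ha hb0 hb
  · have := DD_sum d.flat (Nat.zero_le _) hb0 hb
    simpa only [DD, incD_flat d ha] using this

lemma key {b : ℝ} (hb0 : 0 < b) (hb : b ≤ 1) : Key 3 (muB b).ex 0 := by
  intro T N hN S _ _ H σ ω
  let d : Dat :=
    { P := T.P, a := T.a, N := N, I := T.I, S := S, S' := T.S, nN := ⟨⟨0, hN⟩⟩,
      H := H, H' := T.H, σ := σ, s := T.s, ω := ω, ω' := T.ω₀ }
  have e : ∀ c : Fin 3 → Bool, inc T H σ ω c = incD d c := fun c => rfl
  have h := DD_sum' d hb0 hb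
  have e2 : ∀ g, (muB b).ex g = ∑ J : Fin 3 → Bool, 1 / 8 * g (th b J) := fun g => rfl
  simp only [DD, mul_sub, sum_sub_distrib, mul_left_comm (1 / 8 : ℝ), ← mul_sum] at h
  simp only [e, e2, ← mul_sum]
  linarith

lemma symm (b : ℝ) (π : Equiv.Perm (Fin 3)) (g : Inter 3 → ℝ) :
    (muB b).ex (fun θ => g fun s => θ (s ∘ π)) = (muB b).ex g := by
  have e2 : ∀ g, (muB b).ex g = ∑ J : Fin 3 → Bool, 1 / 8 * g (th b J) := fun g => rfl
  rw [e2, e2]
  refine Fintype.sum_equiv (Equiv.arrowCongr π (Equiv.refl Bool)) _ _ fun J => ?_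
  congr 2
  funext s
  simp only [th]
  refine if_congr ?_ rfl rfl
  exact ⟨fun ⟨l, h⟩ => ⟨π l, by simpa using h⟩, fun ⟨l, h⟩ => ⟨π.symm l, by simpa using h⟩⟩

end Crest.Agent.R153.B

namespace Crest.Agent.R153

theorem mp : MPStmt := by
  intro c b hc hb0 hb
  refine ⟨fun r m X hm hX N hN => ?_, fun B ε hε h => ?_⟩
  · simpa [FN, TF] using upperMeas 3 (by norm_num) c hc (muB b) nu0 0 (B.key hb0 hb) r m X hm hX N hN
  · by_contra hn
    have h1 := finLower_of decouple 3 (by norm_num) c hc (muB b) nu0 (R153.B.symm b) B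
      (fun T hT => by
        obtain ⟨r, m, X, hm, hX, e⟩ := sim 3 (by norm_num) c hc (muB b) nu0 T hT
        rw [← e]
        exact not_lt.1 fun hlt => hn ⟨r, m, X, hm, hX, hlt⟩) (ε / 2) (by positivity)
    obtain ⟨N, h2, h3⟩ := (h.and h1).exists
    have : B - ε / 2 ≤ FN c b N := h3
    linarith

end Crest.Agent.R153
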