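import Crest.Agent.R153.Boot2

/-! Row 153: a finite Doob martingale with one-sided increments. -/

set_option autoImplicit false
open Finset Function
open scoped BigOperators Classical

namespace Crest.Agent.R153.A

variable {C : Type} [Fintype C] [Nonempty C] {M : ℕ}

/-- the past of `G` and the future of `G'` -/
def pw (j : ℕ) (G G' : Fin M → C) : Fin M → C := fun i => if (i : ℕ) < j then G i else G' i

/-- conditional expectation given the first `j` coordinates -/
noncomputable def cond (j : ℕ) (f : (Fin M → C) → ℝ) (G : Fin M → C) : ℝ := 𝔼 G', f (pw j G G')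

lemma expect_upd (i : Fin M) (f : (Fin M → C) → ℝ) : 𝔼 G, f G = 𝔼 G, 𝔼 c, f (update G i c) := by
  have hc : (Fintype.card C : ℝ) ≠ 0 := by exact_mod_cast Fintype.card_ne_zero
  simp only [Fintype.expect_eq_sum_div_card, ← sum_div, sum_update]
  field_simp

omit [Nonempty C] in
lemma cond_zero (f : (Fin M → C) → ℝ) (G : Fin M → C) : cond 0 f G = 𝔼 G', f G' :=
  expect_congr rfl fun G' _ => by congr 1

lemma cond_top (f : (Fin M → C) → ℝ) (G : Fin M → C) : cond M f G = f G := by
  have : ∀ G', pw M G G' = G := fun G' => by funext i; simp [pw]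
  simp [cond, this]

omit [Fintype C] [Nonempty C] in
lemma pw_update_ge {j : ℕ} {i : Fin M} (h : j ≤ i) (G G' : Fin M → C) (c : C) :
    pw j (update G i c) G' = pw j G G' := by
  funext i'
  unfold pw
  split_ifs with h1
  · exact update_of_ne (by rintro rfl; omega) _ _
  · rfl

omit [Fintype C] [Nonempty C] in
lemma pw_update_lt {j : ℕ} {i : Fin M} (h : (i : ℕ) < j) (G G' : Fin M → C) (c : C) :
    pw j (update G i c) G' = update (pw j G G') i c := by
  funext i'
  by_cases h1 : i' = i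
  · subst h1; simp [pw, h]
  · simp [pw, update_of_ne h1]

omit [Fintype C] [Nonempty C] in
lemma pw_succ (j : Fin M) (G G' : Fin M → C) (c : C) :
    pw (j + 1) (update G j c) G' = update (pw j G G') j c := by
  funext i'
  by_cases h1 : i' = j
  · subst h1; simp [pw]
  · have : (i' : ℕ) ≠ j := fun h => h1 (Fin.ext h)
    simp only [pw, update_of_ne h1]
    congr 1
    exact propext (by omega)

omit [Fintype C] [Nonempty C] in
lemma pw_update' (j : Fin M) (G G' : Fin M → C) (c : C) :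
    pw j G (update G' j c) = update (pw j G G') j c := by
  funext i'
  by_cases h1 : i' = j
  · subst h1; simp [pw]
  · simp [pw, update_of_ne h1]

omit [Nonempty C] in
lemma cond_update {j : ℕ} {i : Fin M} (h : j ≤ i) (f : (Fin M → C) → ℝ) (G : Fin M → C) (c : C) :
    cond j f (update G i c) = cond j f G := by
  simp only [cond, pw_update_ge h]

lemma cond_step (j : Fin M) (f : (Fin M → C) → ℝ) (G : Fin M → C) :
    cond j f G = 𝔼 c, cond (j + 1) f (update G j c) := by
  simp only [cond, pw_succ]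
  rw [expect_upd j, expect_comm]
  simp only [pw_update']

omit [Nonempty C] in
lemma cond_pw (j : ℕ) (f : (Fin M → C) → ℝ) (G G' : Fin M → C) :
    cond j f (pw j G G') = cond j f G :=
  expect_congr rfl fun H _ => by
    congr 1; funext i; unfold pw; split_ifs <;> rfl

lemma tower (j : ℕ) {v : (Fin M → C) → ℝ} (hv : ∀ G G', v (pw j G G') = v G)
    (f : (Fin M → C) → ℝ) : 𝔼 G, v G * cond j f G = 𝔼 G, v G * f G := by
  let Φ : (Fin M → C) × (Fin M → C) ≃ (Fin M → C) × (Fin M → C) :=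
    Involutive.toPerm (fun q => (pw j q.1 q.2, pw j q.2 q.1)) fun q => by
      ext i <;> simp only [pw] <;> split_ifs <;> rfl
  have h1 := Fintype.expect_equiv Φ (fun q => v q.1 * f (pw j q.1 q.2)) (fun q => v q.1 * f q.1)
    fun q => by simp [Φ, hv]
  rw [← univ_product_univ, expect_product, expect_product] at h1
  simpa [cond, mul_expect] using h1

lemma exp_neg_le {x : ℝ} (h : 0 ≤ x) : Real.exp (-x) ≤ 1 - x + x ^ 2 / 2 := by
  have h1 := Real.quadratic_le_exp_of_nonneg h
  rw [Real.exp_neg, inv_le_iff_one_le_mul₀ (Real.exp_pos _)]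
  have h2 : 0 ≤ 1 - x + x ^ 2 / 2 := by nlinarith [sq_nonneg (x - 1)]
  nlinarith [mul_le_mul_of_nonneg_left h1 h2, sq_nonneg (x ^ 2)]

variable {Z : (Fin M → C) → ℝ} {V : ℕ → (Fin M → C) → ℝ}

lemma mart_var (h : ∀ (j : Fin M) G, ∃ (a : ℝ) (Δ : C → ℝ),
    (∀ c, cond (j + 1) Z (update G j c) = a - Δ c) ∧ 𝔼 c, Δ c ^ 2 ≤ V j G) :
    𝔼 G, Z G ^ 2 - (𝔼 G, Z G) ^ 2 ≤ ∑ j ∈ range M, 𝔼 G, V j G := by
  have key : ∀ j ≤ M, 𝔼 G, cond j Z G ^ 2 ≤ (𝔼 G, Z G) ^ 2 + ∑ i ∈ range j, 𝔼 G, V i G := by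
    intro j
    induction j with
    | zero => simp [cond_zero]
    | succ j ih =>
      intro hj
      rw [sum_range_succ, ← add_assoc]
      refine le_trans ?_ (add_le_add (ih (by omega)) le_rfl)
      rw [expect_upd ⟨j, hj⟩, ← expect_add_distrib]
      refine expect_le_expect fun G _ => ?_
      obtain ⟨a, Δ, h1, h2⟩ := h ⟨j, hj⟩ G
      have h3 := cond_step ⟨j, hj⟩ Z G
      simp only at h1 h2 h3
      simp only [h1, h3, sub_sq, expect_add_distrib, expect_sub_distrib, Fintype.expect_const,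
        ← mul_expect]
      nlinarith [sq_nonneg (𝔼 c, Δ c)]
  have := key M le_rfl
  simp only [cond_top] at this
  linarith

lemma mart_exp (hV : ∀ (j : ℕ) (i : Fin M), j ≤ i → ∀ G c, V j (update G i c) = V j G)
    (h : ∀ (j : Fin M) G, ∃ (a : ℝ) (Δ : C → ℝ), (∀ c, 0 ≤ Δ c) ∧
    (∀ c, cond (j + 1) Z (update G j c) = a - Δ c) ∧ 𝔼 c, Δ c ^ 2 ≤ V j G) {l : ℝ} (hl : 0 ≤ l) :
    𝔼 G, Real.exp (l * Z G - l ^ 2 / 2 * ∑ j ∈ range M, V j G) ≤ Real.exp (l * 𝔼 G, Z G) := by
  have key : ∀ j ≤ M, 𝔼 G, Real.exp (l * cond j Z G - l ^ 2 / 2 * ∑ i ∈ range j, V i G) ≤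
      Real.exp (l * 𝔼 G, Z G) := by
    intro j
    induction j with
    | zero => simp [cond_zero]
    | succ j ih =>
      intro hj
      refine le_trans ?_ (ih (by omega))
      rw [expect_upd ⟨j, hj⟩]
      refine expect_le_expect fun G _ => ?_
      obtain ⟨a, Δ, h0, h1, h2⟩ := h ⟨j, hj⟩ G
      have h3 := cond_step ⟨j, hj⟩ Z G
      simp only at h1 h2 h3
      have h4 : ∀ c, ∑ i ∈ range (j + 1), V i (update G ⟨j, hj⟩ c) = ∑ i ∈ range (j + 1), V i G :=
        fun c => sum_congr rfl fun i hi => hV i _ (Nat.lt_succ_iff.1 (mem_range.1 hi)) _ _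
      simp only [h1, h3, h4, expect_sub_distrib, Fintype.expect_const]
      have h5 : ∀ c, Real.exp (l * (a - Δ c) - l ^ 2 / 2 * ∑ i ∈ range (j + 1), V i G) ≤
          Real.exp (l * a - l ^ 2 / 2 * ∑ i ∈ range (j + 1), V i G) *
            (1 - l * Δ c + l ^ 2 / 2 * Δ c ^ 2) := by
        intro c
        rw [show l * (a - Δ c) - l ^ 2 / 2 * ∑ i ∈ range (j + 1), V i G =
          (l * a - l ^ 2 / 2 * ∑ i ∈ range (j + 1), V i G) + -(l * Δ c) by ring, Real.exp_add]
        refine mul_le_mul_of_nonneg_left ((exp_neg_le (mul_nonneg hl (h0 c))).trans_eq ?_)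
          (Real.exp_pos _).le
        ring
      refine (expect_le_expect fun c _ => h5 c).trans ?_
      simp only [← mul_expect, expect_add_distrib, expect_sub_distrib, Fintype.expect_const]
      have h6 : 1 - l * 𝔼 c, Δ c + l ^ 2 / 2 * 𝔼 c, Δ c ^ 2 ≤
          Real.exp (-(l * 𝔼 c, Δ c) + l ^ 2 / 2 * V j G) := by
        refine le_trans ?_ (Real.add_one_le_exp _)
        nlinarith [mul_le_mul_of_nonneg_left h2 (show 0 ≤ l ^ 2 / 2 by positivity)]
      refine (mul_le_mul_of_nonneg_left h6 (Real.exp_pos _).le).trans_eq ?_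
      rw [← Real.exp_add, sum_range_succ]
      congr 1
      ring
  simpa only [cond_top] using key M le_rfl

omit [Nonempty C] in
lemma tail_of_exp {Ω : Type*} [Fintype Ω] {e u : Ω → ℝ} (h0 : ∀ G, 0 ≤ e G) (h1 : ∀ G, e G ≤ 1)
    {s t : ℝ} (h : 𝔼 G, Real.exp (u G) ≤ Real.exp s) (ht : t * 𝔼 G, e G ≤ 𝔼 G, e G * u G) :
    𝔼 G, e G ≤ Real.exp (s - t) := by
  have h2 : ∀ G, Real.exp t * (e G + e G * u G - t * e G) ≤ Real.exp (u G) := by
    intro G
    have a1 : Real.exp t * (1 + u G - t) ≤ Real.exp (u G) := by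
      have := Real.add_one_le_exp (u G - t)
      rw [Real.exp_sub, le_div_iff₀ (Real.exp_pos _)] at this
      linarith
    have a2 := mul_le_mul_of_nonneg_left a1 (h0 G)
    have a3 := mul_le_mul_of_nonneg_right (h1 G) (Real.exp_pos (u G)).le
    nlinarith
  have h3 := (expect_le_expect fun G _ => h2 G).trans h
  simp only [← mul_expect, expect_add_distrib, expect_sub_distrib] at h3
  rw [Real.exp_sub, le_div_iff₀ (Real.exp_pos _)]
  nlinarith [Real.exp_pos t]

end Crest.Agent.R153.A
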