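import Crest.Agent.R153.Mart1
import Crest.Agent.R153.Boot4
import Crest.Agent.R141.Up1

/-! Row 153: variance and upper tail of the truncated hitting time. -/

set_option autoImplicit false
open Finset Function
open scoped BigOperators Classical
open Crest.ProbabilityR.RandomSAT

namespace Crest.Agent.R153.A

variable {k n M : ℕ}

lemma sq_expect_le {Ω : Type*} [Fintype Ω] [Nonempty Ω] (f : Ω → ℝ) :
    (𝔼 x, f x) ^ 2 ≤ 𝔼 x, f x ^ 2 := by
  have : 0 ≤ 𝔼 x, (f x - 𝔼 y, f y) ^ 2 := expect_nonneg fun _ _ => sq_nonneg _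
  simp only [sub_sq, expect_add_distrib, expect_sub_distrib, Fintype.expect_const,
    ← mul_expect, ← expect_mul] at this
  linarith

/-- the first `m` clauses are satisfiable -/
def Sm (m : ℕ) (G : Om k n M) : Prop := ∃ σ, ∀ i : Fin M, (i : ℕ) < m → ClauseSat σ (G i)

lemma Sm.mono {m m' : ℕ} {G : Om k n M} (h : Sm m G) (hm : m' ≤ m) : Sm m' G :=
  h.imp fun _ h i hi => h i (hi.trans_le hm)

noncomputable def ZZ (G : Om k n M) : ℝ := ∑ s ∈ range M, io (Sm s G)

lemma satProb_eq (m : ℕ) : satProb k n m = 𝔼 F : Fin m → Clause k n, io (Satisfiable F) := by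
  rw [Fintype.expect_eq_sum_div_card, sum_io]
  rfl

lemma expect_Sm [Nonempty (Clause k n)] {m : ℕ} (hm : m ≤ M) :
    𝔼 G : Om k n M, io (Sm m G) = satProb k n m := by
  rw [satProb_eq, ← R141.Up.expect_comp (Fin.castLE_injective hm)]
  refine expect_congr rfl fun G _ => io_congr (exists_congr fun σ => ⟨fun h j => h _ j.2,
    fun h i hi => h ⟨i, hi⟩⟩)

lemma sq_sum_anti {e : ℕ → Prop} (h : ∀ s t, s ≤ t → e t → e s) (t : ℕ) :
    (∑ s ∈ range t, io (e s)) ^ 2 = ∑ s ∈ range t, (2 * (s : ℝ) + 1) * io (e s) := by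
  induction t with
  | zero => simp
  | succ t ih =>
    rw [sum_range_succ, sum_range_succ, ← ih]
    by_cases ht : e t
    · rw [io_pos ht, sum_congr rfl fun s hs => io_pos (h s t (mem_range.1 hs).le ht)]
      simp; ring
    · simp [io_neg ht]

lemma ZZ_update (j : Fin M) (G : Om k n M) (c : Clause k n) :
    ZZ (update G j c) = ∑ s, io (Al Set.univ (univ.erase j) G s) -
      DD (j + 1) Set.univ {σ | ClauseSat σ c} (univ.erase j) G := by
  rw [ZZ, DD, ← sum_sub_distrib, ← Fin.sum_univ_eq_sum_range (fun s => io (Sm s (update G j c)))]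
  refine sum_congr rfl fun s _ => ?_
  by_cases hs : (j : ℕ) + 1 ≤ s
  · have h1 : Sm s (update G j c) ↔ Al (Set.univ ∩ {σ | ClauseSat σ c}) (univ.erase j) G s := by
      refine exists_congr fun σ => ⟨fun h => ⟨⟨trivial, by simpa using h j hs⟩, fun i hi h2 => ?_⟩,
        fun h i hi => ?_⟩
      · simpa [update_of_ne (ne_of_mem_erase hi)] using h i h2
      · by_cases h2 : i = j
        · subst h2; simpa using h.1.2
        · rw [update_of_ne h2]; exact h.2 i (by simp [h2]) hi
    rw [io_congr h1]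
    by_cases h2 : Al (Set.univ ∩ {σ | ClauseSat σ c}) (univ.erase j) G s
    · rw [io_pos h2, io_pos (h2.mono Set.inter_subset_left subset_rfl le_rfl), io_neg (by tauto)]
      simp
    · rw [io_neg h2, eq_comm, sub_eq_zero]
      exact io_congr (by tauto)
  · rw [io_neg (p := _ ∧ _) (by tauto), sub_zero]
    refine io_congr (exists_congr fun σ => ⟨fun h => ⟨trivial, fun i hi h2 => ?_⟩,
      fun h i hi => ?_⟩)
    · simpa [update_of_ne (ne_of_mem_erase hi)] using h i h2
    · have h2 : i ≠ j := by rintro rfl; omega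
      rw [update_of_ne h2]; exact h.2 i (by simp [h2]) hi

lemma ok_cond [Nonempty (Clause k n)] (j : Fin M) (m : ℕ) :
    Ok (j + 1) (1 - (1 / 2) ^ k) ∅ Set.univ (univ.erase j)
      (cond j fun G : Om k n M => io (Sm m G)) := by
  have h0 : ∀ G, 0 ≤ cond j (fun G : Om k n M => io (Sm m G)) G := fun G =>
    expect_nonneg fun _ _ => io_nonneg _
  refine ⟨h0, fun _ _ _ _ _ => trivial, fun i _ G => ?_, fun i _ hi G c _ =>
    (cond_update (by omega) _ _ _).ge⟩
  rcases lt_or_ge (i : ℕ) j with h | h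
  · simp only [cond, pw_update_lt h, mul_expect]
    rw [← expect_sum_comm]
    refine expect_le_expect fun G' _ => ?_
    rw [mul_comm]
    refine io_mul_le' (fun ⟨σ, hσ⟩ => (sum_sat σ).trans (sum_le_sum fun c _ => io_mono fun hc =>
      ⟨σ, fun i' hi' => ?_⟩)) (sum_nonneg fun _ _ => io_nonneg _)
    by_cases h2 : i' = i
    · subst h2; simpa using hc
    · rw [update_of_ne h2]; exact hσ i' hi'
  · simp only [cond_update h, sum_const, card_univ, nsmul_eq_mul]
    refine mul_le_mul_of_nonneg_right (mul_le_of_le_one_left (Nat.cast_nonneg _) ?_) (h0 G)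
    simp

theorem mart (hk : 3 ≤ k) {C : ℝ} (hC : 0 < C) : ∃ (R : ℝ) (n₀ : ℕ), 0 ≤ R ∧
    ∀ n, n₀ ≤ n → ∀ M : ℕ, (M : ℝ) ≤ C * n →
      (∑ m ∈ range M, (2 * (m : ℝ) + 1) * satProb k n m - (∑ m ∈ range M, satProb k n m) ^ 2 ≤
        R * M) ∧ ∀ m ≤ M, ∀ l : ℝ, 0 ≤ l → satProb k n m ≤
          Real.exp (-(l * (m - ∑ s ∈ range M, satProb k n s)) + l ^ 2 * R * M) := by
  obtain ⟨R, n₀, hR, h2k, H⟩ := boot hk hC
  refine ⟨8 * R, max n₀ (4 * (k * 2 ^ k)), by positivity, fun n hn M hM => ?_⟩
  have hn1 : n₀ ≤ n := le_of_max_le_left hn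
  have hn2 : 4 * ((k : ℝ) * 2 ^ k) ≤ n := by exact_mod_cast le_of_max_le_right hn
  have hn0 : (0 : ℝ) < n := by exact_mod_cast (by omega : 0 < n)
  have hk0 : (0 : ℝ) < k := by exact_mod_cast (by omega : 0 < k)
  have hκ : (0 : ℝ) < k * 2 ^ k := by positivity
  haveI : Nonempty (Clause k n) := nonempty_clause (by omega)
  have hc : (n : ℝ) ^ k ≤ Fintype.card (Clause k n) := by exact_mod_cast pow_le_card (h2k.trans hn1)
  have hC' : (0 : ℝ) < Fintype.card (Clause k n) := lt_of_lt_of_le (by positivity) hc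
  let D : Fin M → Clause k n → Om k n M → ℝ := fun j c G =>
    DD (j + 1) Set.univ {σ | ClauseSat σ c} (univ.erase j) G
  let V : ℕ → Om k n M → ℝ := fun j =>
    if h : j < M then cond j fun G => 𝔼 c, D ⟨j, h⟩ c G ^ 2 else 0
  have hinc : ∀ (j : Fin M) G, ∃ (a : ℝ) (Δ : Clause k n → ℝ), (∀ c, 0 ≤ Δ c) ∧
      (∀ c, cond (j + 1) ZZ (update G j c) = a - Δ c) ∧ 𝔼 c, Δ c ^ 2 ≤ V j G := by
    intro j G
    refine ⟨cond j (fun G => ∑ s, io (Al Set.univ (univ.erase j) G s)) G, fun c => cond j (D j c) G,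
      fun c => expect_nonneg fun _ _ => DD_nonneg .., fun c => ?_, ?_⟩
    · simp only [cond, pw_succ, ZZ_update, expect_sub_distrib, D]
    · simp only [V, dif_pos j.2, cond]
      rw [expect_comm]
      exact expect_le_expect fun c _ => sq_expect_le _
  have hV : ∀ m, m ≤ M → ∀ j ∈ range M,
      𝔼 G, io (Sm m G) * V j G ≤ 8 * R * satProb k n m := by
    intro m hm j hj
    have hj := mem_range.1 hj
    simp only [V, dif_pos hj]
    rw [expect_congr rfl fun G _ => mul_comm _ _, ← tower j (cond_pw j _),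
      expect_congr rfl fun G _ => mul_comm _ _, tower j (cond_pw j _), ← expect_Sm hm]
    have h1 := tower j (v := fun _ : Om k n M => (1 : ℝ)) (fun _ _ => rfl) fun G => io (Sm m G)
    simp only [one_mul] at h1
    rw [← h1]
    have h2 := H n hn1 M hM (j + 1) ⌈(n : ℝ) / (8 * (k * 2 ^ k))⌉₊ _ _ _ _ _ (ok_cond ⟨j, hj⟩ m)
      (by
        have a1 : ((1 : ℝ) / 2) ^ k ≤ (1 / 2) ^ 3 := pow_le_pow_of_le_one (by norm_num) (by norm_num) hk
        have a2 := (Nat.ceil_lt_add_one (show 0 ≤ (n : ℝ) / (8 * (k * 2 ^ k)) by positivity)).le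
        have a3 := mul_le_mul_of_nonneg_right a2 (show 0 ≤ k * 2 ^ k / (n : ℝ) by positivity)
        have a4 : (n : ℝ) / (8 * (k * 2 ^ k)) * (k * 2 ^ k / n) = 1 / 8 := by field_simp
        have a5 : k * 2 ^ k / (n : ℝ) ≤ 1 / 4 := by rw [div_le_iff₀ hn0]; linarith
        linarith)
      (by
        have := Nat.le_ceil ((n : ℝ) / (8 * (k * 2 ^ k)))
        rw [div_le_iff₀ (by positivity)] at this
        simpa [mul_comm] using this)
    have h3 : (univ.erase (⟨j, hj⟩ : Fin M))ᶜ.card = 1 := by simp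
    rw [h3] at h2
    simp only [Fintype.expect_eq_sum_div_card (f := fun G : Om k n M => cond j _ G * _),
      Fintype.expect_eq_sum_div_card (f := fun G : Om k n M => cond j _ G), ← mul_div_assoc]
    refine div_le_div_of_nonneg_right ?_ (Nat.cast_nonneg _)
    have h4 : ∀ G, 𝔼 c, D ⟨j, hj⟩ c G ^ 2 ≤
        2 / n * Ph (j + 1) ∅ Set.univ (univ.erase (⟨j, hj⟩ : Fin M)) G := by
      intro G
      rw [Fintype.expect_eq_sum_div_card, div_le_iff₀ hC']
      refine (sum_le_sum fun c _ => DD_le ..).trans ?_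
      rw [← mul_sum]
      refine (mul_le_mul_of_nonneg_left (sum_sat_kill _ _ _ _ (by omega)) two_pos.le).trans
        (le_trans (le_of_eq ?_) (mul_le_mul_of_nonneg_left hc
          (mul_nonneg (by positivity) (Ph_nonneg ..))))
      rw [← pow_sub_one_mul (show k ≠ 0 by omega) (n : ℝ)]
      field_simp
    refine (sum_le_sum fun G _ => mul_le_mul_of_nonneg_left (h4 G)
      ((ok_cond ⟨j, hj⟩ m).nn G)).trans ?_
    simp only [mul_left_comm _ (2 / (n : ℝ)), ← mul_sum]
    refine (mul_le_mul_of_nonneg_left h2 (by positivity)).trans_eq ?_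
    simp only [card_empty, Nat.cast_zero, Nat.cast_one]
    field_simp
    ring
  have hZ : 𝔼 G : Om k n M, ZZ G = ∑ s ∈ range M, satProb k n s := by
    simp only [ZZ, expect_sum_comm]
    exact sum_congr rfl fun s hs => expect_Sm (mem_range.1 hs).le
  refine ⟨?_, fun m hm l hl => ?_⟩
  · have h1 := mart_var (Z := ZZ) (V := V) fun j G => (hinc j G).imp fun a h => h.imp fun _ h => h.2
    have h2 : 𝔼 G : Om k n M, ZZ G ^ 2 = ∑ m ∈ range M, (2 * (m : ℝ) + 1) * satProb k n m := by
      simp only [ZZ, fun G : Om k n M => sq_sum_anti (e := fun s => Sm s G) fun _ _ h h' => h'.mono h,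
        expect_sum_comm, ← mul_expect]
      exact sum_congr rfl fun s hs => by rw [expect_Sm (mem_range.1 hs).le]
    rw [hZ, h2] at h1
    have h3 : ∀ G : Om k n M, io (Sm 0 G) = 1 := fun G => io_pos ⟨fun _ => true, by simp⟩
    have h4 := hV 0 (Nat.zero_le _)
    rw [← expect_Sm (Nat.zero_le M)] at h4
    simp only [h3, one_mul, Fintype.expect_const, mul_one] at h4
    exact h1.trans ((sum_le_sum h4).trans_eq (by simp [mul_comm]))
  · have h1 := mart_exp (Z := ZZ) (V := V) (fun j i hi G c => by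
      simp only [V]
      split_ifs
      · exact cond_update hi _ _ _
      · rfl) hinc hl
    have h2 := tail_of_exp (e := fun G : Om k n M => io (Sm m G)) (fun _ => io_nonneg _)
      (fun _ => io_le_one _) h1 (t := l * m - l ^ 2 * (8 * R) * M) (by
        have a1 : 𝔼 G : Om k n M, io (Sm m G) * m ≤ 𝔼 G : Om k n M, io (Sm m G) * ZZ G :=
          expect_le_expect fun G _ => io_mul_le fun h => by
            refine le_trans (le_of_eq ?_) (sum_le_sum_of_subset_of_nonneg (range_subset_range.2 hm)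
              fun _ _ _ => io_nonneg _)
            rw [sum_congr rfl fun s hs => io_pos (h.mono (mem_range.1 hs).le)]
            simp
        have a2 := sum_le_sum (hV m hm)
        simp only [mul_sub, mul_left_comm (io _), mul_sum, expect_sub_distrib, expect_sum_comm,
          ← mul_expect]
        rw [← expect_mul] at a1
        rw [← mul_sum]
        rw [expect_Sm hm] at a1 ⊢
        simp only [sum_const, card_range, nsmul_eq_mul] at a2
        have a3 : 0 ≤ M * (8 * R * satProb k n m) := by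
          rw [← expect_Sm hm]
          have : 0 ≤ 𝔼 G : Om k n M, io (Sm m G) := expect_nonneg fun _ _ => io_nonneg _
          positivity
        nlinarith [mul_le_mul_of_nonneg_left a1 hl, mul_le_mul_of_nonneg_left a2 (sq_nonneg l),
          mul_nonneg (sq_nonneg l) a3])
    rw [expect_Sm hm, hZ] at h2
    refine h2.trans_eq ?_
    congr 1
    ring

end Crest.Agent.R153.A
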