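import Crest.Agent.R153.PresA

/-! Row 153, part C: pressure versus satisfiability probabilities. -/

set_option autoImplicit false
open Finset Function
open scoped BigOperators
open Crest.ProbabilityR.Diluted Crest.ProbabilityR.RandomSAT Crest.Agent.R141

namespace Crest.Agent.R153.C

variable {N : ℕ}

theorem WW_pos {b : ℝ} (hb : 0 < b) {M : ℕ} (σ : Fin N → Bool) (x : Fin M → Raw N) :
    0 < WW b σ x := prod_pos fun k _ => by split_ifs; exacts [one_pos, hb]

theorem WW_le {b : ℝ} (hb : 0 < b) (hb1 : b ≤ 1) {M : ℕ} (σ : Fin N → Bool) (x : Fin M → Raw N) :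
    WW b σ x ≤ 1 :=
  prod_le_one (fun k _ => by split_ifs; exacts [zero_le_one, hb.le])
    fun k _ => by split_ifs; exacts [le_rfl, hb1]

open Classical in
theorem WW_cons (b : ℝ) {M : ℕ} (σ : Fin N → Bool) (c : Raw N) (x : Fin M → Raw N) :
    WW b σ (Fin.cons c x : Fin (M + 1) → Raw N) = (if sat σ c then 1 else b) * WW b σ x := by
  rw [WW, Fin.prod_univ_succ]; rfl

theorem ZZ_pos {b : ℝ} (hb : 0 < b) {M : ℕ} (x : Fin M → Raw N) : 0 < ∑ σ, WW b σ x :=
  sum_pos (fun σ _ => WW_pos hb σ x) univ_nonempty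

theorem aM_succ (hN : 0 < N) {b : ℝ} (hb : 0 < b) (hb1 : b ≤ 1) (M : ℕ) :
    aM b N M + Real.log b ≤ aM b N (M + 1) ∧ aM b N (M + 1) ≤ aM b N M := by
  have := rawNe hN
  rw [aM, aM, expect_cons M]
  constructor
  · refine le_expect univ_nonempty fun c _ => ?_
    rw [← Fintype.expect_const (ι := Fin M → Raw N) (Real.log b), ← expect_add_distrib]
    refine expect_le_expect fun x _ => ?_
    rw [← Real.log_mul (ZZ_pos hb x).ne' hb.ne', sum_mul]
    refine Real.log_le_log (sum_pos (fun σ _ => mul_pos (WW_pos hb σ x) hb) univ_nonempty)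
      (sum_le_sum fun σ _ => ?_)
    rw [WW_cons, mul_comm]
    exact mul_le_mul_of_nonneg_right (by split_ifs; exacts [hb1, le_rfl]) (WW_pos hb σ x).le
  · refine expect_le univ_nonempty fun c _ => expect_le_expect fun x _ => ?_
    refine Real.log_le_log (ZZ_pos hb _) (sum_le_sum fun σ _ => ?_)
    rw [WW_cons]
    exact mul_le_of_le_one_left (WW_pos hb σ x).le (by split_ifs; exacts [le_rfl, hb1])

theorem aM_add (hN : 0 < N) {b : ℝ} (hb : 0 < b) (hb1 : b ≤ 1) (M k : ℕ) :
    aM b N M + k * Real.log b ≤ aM b N (M + k) ∧ aM b N (M + k) ≤ aM b N M := by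
  induction k with
  | zero => simp
  | succ k ih =>
    have := aM_succ hN hb hb1 (M + k)
    rw [← add_assoc]; push_cast
    constructor <;> linarith [ih.1, ih.2]

theorem poi_nonneg {l : ℝ} (h : 0 ≤ l) (M : ℕ) : 0 ≤ poissonWeight l M := by
  unfold poissonWeight; positivity

theorem hasSum_pow (l z : ℝ) :
    HasSum (fun M => poissonWeight l M * z ^ M) (Real.exp (l * (z - 1))) := by
  have := (Up.hasSum_poi (l * z)).mul_left (Real.exp (l * (z - 1)))
  rw [mul_one] at this
  refine (funext fun M => ?_ : _ = fun M => poissonWeight l M * z ^ M) ▸ this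
  rw [poissonWeight, poissonWeight, ← mul_div_assoc, ← mul_assoc, ← Real.exp_add, mul_pow]
  ring_nf

theorem summable_aM (hN : 0 < N) {b l : ℝ} (hb : 0 < b) (hb1 : b ≤ 1) (hl : 0 ≤ l) :
    Summable fun M => poissonWeight l M * aM b N M :=
  (((Up.hasSum_poi l).summable.mul_right |aM b N 0|).add
    ((Up.hasSum_poi_mul l).summable.mul_right (-Real.log b))).of_norm_bounded fun M => by
    have h := aM_add hN hb hb1 0 M
    rw [zero_add] at h
    have h1 : 0 ≤ M * -Real.log b :=
      mul_nonneg (by positivity) (neg_nonneg.mpr (Real.log_nonpos hb.le hb1))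
    rw [Real.norm_eq_abs, abs_mul, abs_of_nonneg (poi_nonneg hl M), mul_assoc, ← mul_add]
    refine mul_le_mul_of_nonneg_left (abs_le.mpr ⟨?_, ?_⟩) (poi_nonneg hl M)
    · linarith [neg_abs_le (aM b N 0)]
    · linarith [le_abs_self (aM b N 0)]

theorem aM_lower (hN : 0 < N) {b : ℝ} (hb : 0 < b) (hb1 : b ≤ 1) (m : ℕ) :
    Real.log b * (3 * m / N + m * (1 - tS N m)) ≤ aM b N m := by
  have := rawNe hN
  have hl := Real.log_nonpos hb.le hb1
  have h1 : ∀ x : Fin m → Raw N, Real.log b * (∑ k, ind (¬ Injective (x k).1) +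
      m * (1 - ind (∃ σ, True ∧ ∀ j, Injective (x j).1 → sat σ (x j)))) ≤
      Real.log (∑ σ, WW b σ x) := by
    intro x
    have h2 : ∀ σ, Real.log b * ∑ k, ind (¬ sat σ (x k)) ≤ Real.log (∑ σ, WW b σ x) := by
      intro σ
      refine le_trans (le_of_eq ?_) (Real.log_le_log (WW_pos hb σ x)
        (single_le_sum (fun σ _ => (WW_pos hb σ x).le) (mem_univ σ)))
      rw [WW, Real.log_prod (fun k _ => by split_ifs; exacts [one_ne_zero, hb.ne']), mul_sum]
      refine sum_congr rfl fun k _ => ?_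
      split_ifs with h
      · rw [ind_neg (not_not.mpr h)]; simp
      · rw [ind_pos h]; simp
    by_cases h : ∃ σ, True ∧ ∀ j, Injective (x j).1 → sat σ (x j)
    · rw [ind_pos h]
      obtain ⟨σ, -, hσ⟩ := h
      refine le_trans (mul_le_mul_of_nonpos_left ?_ hl) (h2 σ)
      rw [sub_self, mul_zero, add_zero]
      exact sum_le_sum fun k _ => ind_mono (mt (hσ k))
    · rw [ind_neg h]
      refine le_trans (mul_le_mul_of_nonpos_left ?_ hl) (h2 fun _ => true)
      have a1 : ∑ k, ind (¬ sat (fun _ => true) (x k)) ≤ ∑ _k : Fin m, (1 : ℝ) :=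
        sum_le_sum fun k _ => ind_le_one _
      have a2 : 0 ≤ ∑ k, ind (¬ Injective (x k).1) := sum_nonneg fun k _ => ind_nonneg _
      simp only [sum_const, card_univ, Fintype.card_fin, nsmul_eq_mul] at a1
      linarith
  refine le_trans ?_ (expect_le_expect fun x _ => h1 x)
  rw [← mul_expect, expect_add_distrib, ← mul_expect, expect_sub_distrib, Fintype.expect_const,
    ← tt_eq, expect_sum_comm]
  refine mul_le_mul_of_nonpos_left (add_le_add ?_ le_rfl) hl
  have h3 : ∀ k : Fin m, 𝔼 x : Fin m → Raw N, ind (¬ Injective (x k).1) ≤ 3 / N := fun k => by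
    rw [Up.expect_eval k (fun c : Raw N => ind (¬ Injective c.1)),
      split_raw hN _ 1 (fun c hc => ind_pos hc)]
    have : ∀ c : Clause 3 N, ind (¬ Injective (io c).1) = 0 := fun c => ind_neg (not_not.mpr c.1.2)
    simp only [this, expect_const_zero]
    linarith [rho_ge hN]
  refine (sum_le_sum fun k _ => h3 k).trans (le_of_eq ?_)
  simp only [sum_const, card_univ, Fintype.card_fin, nsmul_eq_mul]; ring

open Classical in
/-- maximal weight inside `S` -/
noncomputable def mx (ε : ℝ) {M : ℕ} (S : (Fin N → Bool) → Prop) (x : Fin M → Raw N) : ℝ :=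
  univ.sup' univ_nonempty fun σ => if S σ then WW ε σ x else 0

section
variable {ε : ℝ} {M : ℕ}

theorem le_mx {S : (Fin N → Bool) → Prop} {σ : Fin N → Bool} (h : S σ) (x : Fin M → Raw N) :
    WW ε σ x ≤ mx ε S x := by
  classical
  refine le_trans (le_of_eq ?_) (le_sup' _ (mem_univ σ))
  rw [if_pos h]

theorem mx_nonneg (h0 : 0 < ε) (S : (Fin N → Bool) → Prop) (x : Fin M → Raw N) :
    0 ≤ mx ε S x := by
  classical
  refine le_trans ?_ (le_sup' _ (mem_univ fun _ => true))
  split_ifs; exacts [(WW_pos h0 _ _).le, le_rfl]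

theorem mx_le {S : (Fin N → Bool) → Prop} {x : Fin M → Raw N} {A : ℝ} (hA : 0 ≤ A)
    (h : ∀ σ, S σ → WW ε σ x ≤ A) : mx ε S x ≤ A :=
  sup'_le _ _ fun σ _ => by split_ifs with h1; exacts [h σ h1, hA]

theorem mx_cons (h0 : 0 < ε) (h1 : ε ≤ 1) (S : (Fin N → Bool) → Prop) (c : Raw N)
    (x : Fin M → Raw N) : mx ε S (Fin.cons c x : Fin (M + 1) → Raw N) ≤ mx ε S x ∧
    mx ε S (Fin.cons c x : Fin (M + 1) → Raw N) ≤
      (1 - ε) * mx ε (fun σ => S σ ∧ sat σ c) x + ε * mx ε S x := by
  have a1 := mx_nonneg h0 S x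
  have a2 := mx_nonneg h0 (fun σ => S σ ∧ sat σ c) x
  have a3 := mul_nonneg (sub_nonneg.mpr h1) a2
  refine ⟨mx_le a1 fun σ hσ => ?_, mx_le (by positivity) fun σ hσ => ?_⟩
  · rw [WW_cons]
    exact (mul_le_of_le_one_left (WW_pos h0 σ x).le
      (by split_ifs; exacts [le_rfl, h1])).trans (le_mx hσ x)
  · rw [WW_cons]
    have b1 := mul_le_mul_of_nonneg_left (le_mx (ε := ε) hσ x) h0.le
    split_ifs with h
    · have b2 := mul_le_mul_of_nonneg_left
        (le_mx (ε := ε) (S := fun σ => S σ ∧ sat σ c) ⟨hσ, h⟩ x) (sub_nonneg.mpr h1)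
      linarith
    · linarith

end

noncomputable def hh (ε : ℝ) (M : ℕ) (S : (Fin N → Bool) → Prop) : ℝ :=
  𝔼 x : Fin M → Raw N, mx ε S x

theorem hh_succ (hN : 3 ≤ N) {ε : ℝ} (h0 : 0 < ε) (h1 : ε ≤ 1) (M : ℕ)
    (S : (Fin N → Bool) → Prop) :
    hh ε (M + 1) S ≤ (1 - ε) * rho N * 𝔼 c : Clause 3 N, hh ε M (fun σ => S σ ∧ sat σ (io c)) +
      (1 - (1 - ε) * rho N) * hh ε M S := by
  classical
  have := clNe hN
  have h2 : hh ε (M + 1) S ≤ 𝔼 c : Raw N, if Injective c.1 then
      (1 - ε) * hh ε M (fun σ => S σ ∧ sat σ c) + ε * hh ε M S else hh ε M S := by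
    rw [hh, expect_cons M]
    refine expect_le_expect fun c _ => ?_
    split_ifs
    · rw [hh, hh, mul_expect, mul_expect, ← expect_add_distrib]
      exact expect_le_expect fun x _ => (mx_cons h0 h1 S c x).2
    · exact expect_le_expect fun x _ => (mx_cons h0 h1 S c x).1
  rw [split_raw (by omega) _ (hh ε M S) (fun c hc => if_neg hc)] at h2
  have h3 : ∀ c : Clause 3 N, Injective (io c).1 := fun c => c.1.2
  simp only [h3, if_true, expect_add_distrib, ← mul_expect, Fintype.expect_const] at h2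
  linarith

theorem hh_le (hN : 3 ≤ N) {ε t : ℝ} (h0 : 0 < ε) (h1 : ε ≤ 1) (ht : 0 ≤ t) (M : ℕ) :
    ∀ (m : ℕ) (S : (Fin N → Bool) → Prop), hh ε M S ≤ gg m S +
      Real.exp (t * m) * (1 - (1 - ε) * rho N * (1 - Real.exp (-t))) ^ M := by
  have := clNe hN
  have := rawNe (N := N) (by omega)
  have r0 : 0 ≤ (1 - ε) * rho N := mul_nonneg (sub_nonneg.mpr h1) rho_nonneg
  have r1 : (1 - ε) * rho N ≤ 1 := mul_le_one₀ (by linarith) rho_nonneg (rho_le (by omega))
  have k0 : 0 ≤ 1 - (1 - ε) * rho N * (1 - Real.exp (-t)) := by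
    nlinarith [mul_nonneg r0 (Real.exp_pos (-t)).le]
  have base : ∀ (M : ℕ) (S : (Fin N → Bool) → Prop), hh ε M S ≤ gg 0 S := fun M S => by
    refine expect_le univ_nonempty fun x _ => mx_le (gg_nonneg 0 S) fun σ hσ => ?_
    refine (WW_le h0 h1 σ x).trans (le_expect univ_nonempty fun F _ => ?_)
    exact (ind_pos ⟨σ, hσ, fun j => j.elim0⟩).ge
  induction M with
  | zero =>
    intro m S
    have a1 : gg 0 S ≤ 1 := expect_le univ_nonempty fun F _ => ind_le_one _
    have a2 : 1 ≤ Real.exp (t * m) := Real.one_le_exp (by positivity)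
    linarith [base 0 S, gg_nonneg m S, pow_zero (1 - (1 - ε) * rho N * (1 - Real.exp (-t))),
      mul_one (Real.exp (t * m))]
  | succ M ih =>
    intro m S
    cases m with
    | zero => exact (base _ S).trans (le_add_of_nonneg_right (by positivity))
    | succ m =>
      refine (hh_succ hN h0 h1 M S).trans ?_
      have a1 := expect_le_expect fun (c : Clause 3 N) (_ : c ∈ univ) =>
        ih m (fun σ => S σ ∧ sat σ (io c))
      rw [expect_add_distrib, Fintype.expect_const, ← gg_succ] at a1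
      have a2 := mul_le_mul_of_nonneg_left a1 r0
      have a3 := mul_le_mul_of_nonneg_left (ih (m + 1) S) (sub_nonneg.mpr r1)
      have a4 : Real.exp (t * m) = Real.exp (t * (m + 1 : ℕ)) * Real.exp (-t) := by
        rw [← Real.exp_add]; push_cast; ring_nf
      rw [a4] at a2
      rw [pow_succ]
      linarith

theorem aM_upper (hN : 0 < N) {ε y : ℝ} (h0 : 0 < ε) (hy : 0 < y) (n M : ℕ) :
    aM (ε ^ n) N M ≤ N * Real.log 2 + n * Real.log y - n + n / y * hh ε M (fun _ : Fin N → Bool => True) := by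
  have := rawNe hN
  rw [hh, mul_expect, ← Fintype.expect_const (ι := Fin M → Raw N)
    (N * Real.log 2 + n * Real.log y - n), ← expect_add_distrib]
  refine expect_le_expect fun x _ => ?_
  set u := mx ε (fun _ : Fin N → Bool => True) x with hu
  have hu0 : 0 < u := (WW_pos h0 (fun _ => true) x).trans_le (le_mx trivial x)
  have h1 : ∑ σ, WW (ε ^ n) σ x ≤ 2 ^ N * u ^ n := by
    calc _ ≤ ∑ _σ : Fin N → Bool, u ^ n := sum_le_sum fun σ _ => by
          have : WW (ε ^ n) σ x = WW ε σ x ^ n := by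
            simp only [WW, ← prod_pow]
            exact prod_congr rfl fun k _ => by split_ifs <;> simp
          rw [this]
          exact pow_le_pow_left₀ (WW_pos h0 σ x).le (le_mx trivial x) n
      _ = _ := by simp
  have h2 := Real.log_le_log (ZZ_pos (pow_pos h0 n) x) h1
  rw [Real.log_mul (by positivity) (by positivity), Real.log_pow, Real.log_pow] at h2
  have h3 := Real.log_le_sub_one_of_pos (div_pos hu0 hy)
  rw [Real.log_div hu0.ne' hy.ne'] at h3
  have h4 := mul_le_mul_of_nonneg_left h3 (Nat.cast_nonneg (α := ℝ) n)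
  have h5 : n / y * u = n * (u / y) := by ring
  linarith

end Crest.Agent.R153.C

namespace Crest.Agent.R153

open C

theorem tsLe : TSLeStmt := fun N m hN => by
  rw [← gg_eq, ← tt_eq]; exact gg_le_tt hN m _

theorem presLo : PresLoStmt := by
  intro c b N m s hc hb hb1 hN hs hm hms
  have hN' : (0 : ℝ) < N := by exact_mod_cast hN
  have hs' : (1 : ℝ) ≤ s := by exact_mod_cast hs
  have hl := Real.log_nonpos hb.le hb1
  have hl0 : 0 ≤ c * N := by positivity
  rw [FN_eq c hb, one_div, ← div_eq_inv_mul]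
  refine div_le_div_of_nonneg_right ?_ hN'.le
  have h1 := hasSum_le (fun M => ?_) (((Up.hasSum_poi (c * N)).mul_right (aM b N m)).add
    ((hasSum_pow (c * N) (Real.exp (1 / s))).mul_left (Real.log b * s * Real.exp (-(m / s)))))
    (summable_aM hN hb hb1 hl0).hasSum
  · refine le_trans ?_ h1
    have a1 := aM_lower hN hb hb1 m
    have a2 : Real.exp (-(m / s)) * Real.exp (c * N * (Real.exp (1 / s) - 1)) ≤ 3 := by
      rw [← Real.exp_add]
      refine le_trans (Real.exp_le_exp.mpr ?_) (Real.exp_one_lt_d9.le.trans (by norm_num))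
      have b0 : (0 : ℝ) ≤ 1 / s := by positivity
      have b1 := Real.abs_exp_sub_one_sub_id_le (x := 1 / s)
        (by rw [abs_of_nonneg b0, div_le_one (by linarith)]; exact hs')
      have b2 : Real.exp (1 / s) - 1 ≤ 1 / s + (1 / s) ^ 2 := by linarith [(abs_le.mp b1).2]
      have b3 := mul_le_mul hm b2 (by linarith [Real.add_one_le_exp (1 / (s : ℝ))]) (by positivity)
      have b4 : (m : ℝ) * (1 / s) ^ 2 ≤ 1 := by
        rw [one_div, inv_pow, ← div_eq_mul_inv, div_le_one (by positivity)]; exact_mod_cast hms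
      have b5 : (m : ℝ) / s = m * (1 / s) := by ring
      linarith
    have a3 := mul_le_mul_of_nonpos_left a2
      (mul_nonpos_of_nonpos_of_nonneg hl (show (0 : ℝ) ≤ s by positivity))
    linarith
  · have a1 : aM b N m + Real.log b * s * Real.exp (-(m / s)) * Real.exp (1 / s) ^ M ≤
        aM b N M := by
      have e : Real.log b * s * Real.exp (-(m / s)) * Real.exp (1 / s) ^ M =
          Real.log b * (s * Real.exp ((M - m) / s)) := by
        rw [← Real.exp_nat_mul, mul_assoc, mul_assoc, ← Real.exp_add]; congr 3; ring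
      rw [e]
      rcases le_total M m with h | h
      · obtain ⟨k, rfl⟩ := Nat.exists_eq_add_of_le h
        have := mul_nonpos_of_nonpos_of_nonneg hl
          (show 0 ≤ s * Real.exp ((M - (M + k : ℕ)) / s) by positivity)
        linarith [(aM_add hN hb hb1 M k).2]
      · obtain ⟨k, rfl⟩ := Nat.exists_eq_add_of_le h
        have b1 : (k : ℝ) ≤ s * Real.exp (((m + k : ℕ) - m) / s) := by
          have b2 := Real.add_one_le_exp ((k : ℝ) / s)
          have b3 : (((m + k : ℕ) : ℝ) - m) = k := by push_cast; ring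
          rw [b3, mul_comm, ← div_le_iff₀ (by linarith)]; linarith
        linarith [(aM_add hN hb hb1 m k).1, mul_le_mul_of_nonpos_left b1 hl]
    have := mul_le_mul_of_nonneg_left a1 (C.poi_nonneg hl0 M)
    linarith

theorem presUp : PresUpStmt := by
  intro c ε t y n N m hc h0 h1 ht hN hy
  have hN0 : 0 < N := by omega
  have hN' : (0 : ℝ) < N := by exact_mod_cast hN0
  have hl0 : 0 ≤ c * N := by positivity
  rw [← gg_eq] at hy
  have hg := gg_nonneg m (fun _ : Fin N → Bool => True)
  have hy0 : 0 < y := lt_of_lt_of_le (by positivity) hy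
  have hny : 0 ≤ n / y := by positivity
  set g := gg m (fun _ : Fin N → Bool => True)
  set κ := 1 - (1 - ε) * rho N * (1 - Real.exp (-t)) with hκ
  have h2 := hasSum_le (fun M => ?_) (summable_aM hN0 (pow_pos h0 n) (pow_le_one₀ h0.le h1) hl0).hasSum
    (((Up.hasSum_poi (c * N)).mul_right (N * Real.log 2 + n * Real.log y - n + n / y * g)).add
    ((hasSum_pow (c * N) κ).mul_left (n / y * Real.exp (t * m))))
  · rw [FN_eq c (pow_pos h0 n), one_div, ← div_eq_inv_mul, div_le_iff₀ hN']
    refine h2.trans ?_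
    have a1 : Real.exp (t * m) * Real.exp (c * N * (κ - 1)) ≤
        Real.exp (t * m - c * N * ((1 - ε) * (1 - 3 / N)) * (1 - Real.exp (-t))) := by
      rw [← Real.exp_add, Real.exp_le_exp, hκ]
      have b1 : 0 ≤ 1 - Real.exp (-t) := sub_nonneg.mpr (Real.exp_le_one_iff.mpr (by linarith))
      have b2 := mul_le_mul_of_nonneg_left (rho_ge hN0)
        (mul_nonneg (mul_nonneg hl0 (sub_nonneg.mpr h1)) b1)
      linarith
    have a2 := mul_le_mul_of_nonneg_left (show g + _ ≤ y from (add_le_add le_rfl a1).trans hy) hny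
    have a3 : n / y * y = n := by field_simp
    have a4 : (Real.log 2 + n / N * Real.log y) * N = N * Real.log 2 + n * Real.log y := by
      field_simp
    rw [a4]; linarith
  · have a1 := (aM_upper hN0 h0 hy0 n M).trans (add_le_add le_rfl
      (mul_le_mul_of_nonneg_left (hh_le hN h0 h1 ht M m _) hny))
    have := mul_le_mul_of_nonneg_left a1 (C.poi_nonneg hl0 M)
    linarith

end Crest.Agent.R153
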