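import Crest.Agent.R153.Defs
import Crest.Agent.R141.Up1

/-! Row 153, part C: raw clauses versus proper clauses. -/

set_option autoImplicit false
open Finset Function
open scoped BigOperators
open Crest.ProbabilityR.Diluted Crest.ProbabilityR.RandomSAT Crest.Agent.R141

namespace Crest.Agent.R153.C

theorem expect_cons {Y : Type} [Fintype Y] (M : ℕ) (F : (Fin (M + 1) → Y) → ℝ) :
    𝔼 x, F x = 𝔼 c : Y, 𝔼 x : Fin M → Y, F (Fin.cons c x) := by
  rw [← expect_product', univ_product_univ]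
  exact (Fintype.expect_equiv (Fin.consEquiv fun _ => Y) _ _ fun _ => rfl).symm

variable {N : ℕ}

def sat (σ : Fin N → Bool) (c : Raw N) : Prop := ∃ l, σ (c.1 l) = c.2 l

def io (c : Clause 3 N) : Raw N := (c.1.1, c.2)

noncomputable def rho (N : ℕ) : ℝ := Fintype.card (Clause 3 N) / Fintype.card (Raw N)

theorem rawNe (hN : 0 < N) : Nonempty (Raw N) := ⟨(fun _ => ⟨0, hN⟩, fun _ => true)⟩

theorem clNe (hN : 3 ≤ N) : Nonempty (Clause 3 N) :=
  ⟨(⟨Fin.castLE hN, Fin.castLE_injective hN⟩, fun _ => true)⟩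

theorem rho_eq (hN : 0 < N) : rho N = (N.descFactorial 3 : ℝ) / N ^ 3 := by
  have h : Fintype.card {v : Fin 3 → Fin N // Injective v} = N.descFactorial 3 := by
    rw [Fintype.card_congr (Equiv.subtypeInjectiveEquivEmbedding (Fin 3) (Fin N)),
      Fintype.card_embedding_eq]; simp
  have : (0 : ℝ) < N := by exact_mod_cast hN
  simp only [rho, Fintype.card_prod, h, Fintype.card_fun, Fintype.card_fin, Fintype.card_bool]
  push_cast; field_simp

theorem rho_ge (hN : 0 < N) : 1 - 3 / N ≤ rho N := by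
  have h0 : (0 : ℝ) < N := by exact_mod_cast hN
  rw [rho_eq hN, le_div_iff₀ (by positivity)]
  have e : (1 - 3 / (N : ℝ)) * N ^ 3 = N ^ 3 - 3 * N ^ 2 := by field_simp
  rw [e]
  by_cases h : 2 ≤ N
  · obtain ⟨k, rfl⟩ := Nat.exists_eq_add_of_le h
    have : (2 + k).descFactorial 3 = k * ((1 + k) * (2 + k)) := by
      simp only [Nat.descFactorial_succ, Nat.descFactorial_zero]
      have a1 : 2 + k - 2 = k := by omega
      have a2 : 2 + k - 1 = 1 + k := by omega
      rw [a1, a2]; simp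
    rw [this]; push_cast
    nlinarith [(Nat.cast_nonneg k : (0 : ℝ) ≤ k)]
  · have : N = 1 := by omega
    subst this; norm_num

theorem rho_nonneg : 0 ≤ rho N := by unfold rho; positivity

theorem split_raw (hN : 0 < N) (Φ : Raw N → ℝ) (A : ℝ) (h : ∀ c, ¬ Injective c.1 → Φ c = A) :
    𝔼 c, Φ c = rho N * 𝔼 c : Clause 3 N, Φ (io c) + (1 - rho N) * A := by
  classical
  have := rawNe hN
  have hR : (0 : ℝ) < Fintype.card (Raw N) := by exact_mod_cast Fintype.card_pos
  have h1 : ∀ Ψ : Raw N → ℝ, ∑ c ∈ univ.filter (fun c : Raw N => Injective c.1), Ψ c =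
      ∑ c : Clause 3 N, Ψ (io c) := fun Ψ => by
    symm
    refine sum_bij (fun c _ => io c) (fun c _ => by simpa [io] using c.1.2) ?_ ?_ fun _ _ => rfl
    · rintro ⟨⟨a, ha⟩, b⟩ _ ⟨⟨a', ha'⟩, b'⟩ _ hh
      simp only [io, Prod.mk.injEq] at hh
      simp [hh.1, hh.2]
    · intro c hc
      exact ⟨(⟨c.1, (mem_filter.mp hc).2⟩, c.2), mem_univ _, rfl⟩
  have h2 := sum_filter_add_sum_filter_not univ (fun c : Raw N => Injective c.1) Φ
  have h3 := sum_filter_add_sum_filter_not univ (fun c : Raw N => Injective c.1) (fun _ => A)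
  rw [h1] at h2 h3
  rw [sum_congr rfl fun c hc => h c (mem_filter.mp hc).2] at h2
  have h4 := Fintype.card_mul_expect (fun c : Clause 3 N => Φ (io c))
  rw [Fintype.expect_eq_sum_div_card, ← h2, rho, ← h4]
  simp only [sum_const, card_univ, nsmul_eq_mul] at h3 ⊢
  field_simp
  linarith

theorem rho_le (hN : 0 < N) : rho N ≤ 1 := by
  have := rawNe hN
  have hR : (0 : ℝ) < Fintype.card (Raw N) := by exact_mod_cast Fintype.card_pos
  rw [rho, div_le_one hR]
  exact_mod_cast Fintype.card_le_of_injective io (by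
    rintro ⟨⟨a, ha⟩, b⟩ ⟨⟨a', ha'⟩, b'⟩ hh
    simp only [io, Prod.mk.injEq] at hh
    simp [hh.1, hh.2])

open Classical in
noncomputable def ind (p : Prop) : ℝ := if p then 1 else 0

theorem ind_pos {p : Prop} (h : p) : ind p = 1 := if_pos h
theorem ind_neg {p : Prop} (h : ¬ p) : ind p = 0 := if_neg h
theorem ind_nonneg (p : Prop) : 0 ≤ ind p := by unfold ind; split_ifs <;> norm_num
theorem ind_le_one (p : Prop) : ind p ≤ 1 := by unfold ind; split_ifs <;> norm_num
theorem ind_mono {p q : Prop} (h : p → q) : ind p ≤ ind q := by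
  by_cases hp : p
  · rw [ind_pos hp, ind_pos (h hp)]
  · rw [ind_neg hp]; exact ind_nonneg q

/-- probability that `m` proper clauses are satisfiable inside `S` -/
noncomputable def gg (m : ℕ) (S : (Fin N → Bool) → Prop) : ℝ :=
  𝔼 F : Fin m → Clause 3 N, ind (∃ σ, S σ ∧ ∀ j, sat σ (io (F j)))

/-- probability that the proper ones among `m` raw clauses are satisfiable inside `S` -/
noncomputable def tt (m : ℕ) (S : (Fin N → Bool) → Prop) : ℝ :=
  𝔼 x : Fin m → Raw N, ind (∃ σ, S σ ∧ ∀ j, Injective (x j).1 → sat σ (x j))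

theorem gg_succ (m : ℕ) (S : (Fin N → Bool) → Prop) :
    gg (m + 1) S = 𝔼 c : Clause 3 N, gg m fun σ => S σ ∧ sat σ (io c) := by
  simp only [gg, expect_cons m, Fin.forall_fin_succ, Fin.cons_zero, Fin.cons_succ, and_assoc]

theorem tt_succ (m : ℕ) (S : (Fin N → Bool) → Prop) :
    tt (m + 1) S = 𝔼 c : Raw N, tt m fun σ => S σ ∧ (Injective c.1 → sat σ c) := by
  simp only [tt, expect_cons m, Fin.forall_fin_succ, Fin.cons_zero, Fin.cons_succ, and_assoc]

theorem gg_mono (m : ℕ) {S S' : (Fin N → Bool) → Prop} (h : ∀ σ, S σ → S' σ) :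
    gg m S ≤ gg m S' :=
  expect_le_expect fun _ _ => ind_mono fun ⟨σ, a, b⟩ => ⟨σ, h σ a, b⟩

theorem gg_nonneg (m : ℕ) (S : (Fin N → Bool) → Prop) : 0 ≤ gg m S :=
  expect_nonneg fun _ _ => ind_nonneg _

theorem gg_le_tt (hN : 3 ≤ N) (m : ℕ) : ∀ S : (Fin N → Bool) → Prop, gg m S ≤ tt m S := by
  have := clNe hN
  have hN' : 0 < N := by omega
  induction m with
  | zero => intro S; simp [gg, tt]
  | succ m ih =>
    intro S
    rw [tt_succ, split_raw hN' _ (tt m S) (fun c hc => by simp [hc])]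
    have h1 : gg (m + 1) S ≤ 𝔼 c : Clause 3 N,
        tt m fun σ => S σ ∧ (Injective (io c).1 → sat σ (io c)) := by
      rw [gg_succ]
      exact expect_le_expect fun c _ => (gg_mono m fun σ hσ => ⟨hσ.1, fun _ => hσ.2⟩).trans (ih _)
    have h2 : gg (m + 1) S ≤ tt m S := by
      rw [gg_succ]
      exact expect_le univ_nonempty fun c _ => (gg_mono m fun σ hσ => hσ.1).trans (ih _)
    nlinarith [mul_le_mul_of_nonneg_left h1 (rho_nonneg (N := N)),
      mul_le_mul_of_nonneg_left h2 (sub_nonneg.mpr (rho_le hN'))]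

theorem gg_eq (m : ℕ) : gg m (fun _ : Fin N → Bool => True) = satProb 3 N m := by
  classical
  rw [gg, satProb, Crest.FinProb.uniformProb, Fintype.expect_eq_sum_div_card, card_filter]
  congr 1
  push_cast
  refine sum_congr rfl fun F _ => ?_
  split_ifs with h
  · exact ind_pos (by simpa [Satisfiable, ClauseSat, sat, io] using h)
  · exact ind_neg (by simpa [Satisfiable, ClauseSat, sat, io] using h)

theorem tt_eq (m : ℕ) : tt m (fun _ : Fin N → Bool => True) = tS N m := by
  simp [tt, tS, sat, ind]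

open Classical in
/-- weight of an assignment -/
noncomputable def WW (b : ℝ) {M : ℕ} (σ : Fin N → Bool) (x : Fin M → Raw N) : ℝ :=
  ∏ k, if sat σ (x k) then 1 else b

noncomputable def aM (b : ℝ) (N M : ℕ) : ℝ := 𝔼 x : Fin M → Raw N, Real.log (∑ σ, WW b σ x)

theorem FN_eq (c : ℝ) {b : ℝ} (hb : 0 < b) (N : ℕ) :
    FN c b N = 1 / N * ∑' M, poissonWeight (c * N) M * aM b N M := by
  classical
  rw [FN, finPressure]
  congr 1
  refine tsum_congr fun M => ?_
  congr 1
  have e : aM b N M = 𝔼 p : (Fin M → Fin 3 → Fin N) × (Fin M → Fin 3 → Bool),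
      Real.log (∑ σ, WW b σ fun k => (p.1 k, p.2 k)) :=
    Fintype.expect_equiv (Equiv.arrowProdEquivProdArrow (Fin M) (fun _ => Fin 3 → Fin N)
      (fun _ => Fin 3 → Bool)) _ _ (fun _ => rfl)
  rw [e, ← univ_product_univ, expect_product, expect_comm, Fintype.expect_eq_sum_div_card, sum_div]
  have e0 : ∀ g : (Fin N → ℝ) → ℝ, nu0.exPi (Fin N) g = g fun _ => 0 := fun g => by
    change ∑ _a : Fin N → Unit, (∏ _k : Fin N, (1 : ℝ)) * g (fun _ => 0) = _
    simp
  simp only [e0]
  change ∑ J : Fin M → Fin 3 → Bool, (∏ _k : Fin M, (1 / 8 : ℝ)) *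
    𝔼 idx, logPartition N (fun k => th b (J k)) idx (fun _ => 0) = _
  refine sum_congr rfl fun J _ => ?_
  have e2 : ∀ idx : Fin M → Fin 3 → Fin N, logPartition N (fun k => th b (J k)) idx (fun _ => 0) =
      Real.log (∑ σ, WW b σ fun k => (idx k, J k)) := fun idx => by
    rw [logPartition]
    congr 1
    refine sum_congr rfl fun σ _ => ?_
    simp only [zero_mul, sum_const_zero, add_zero, Real.exp_sum, WW]
    refine prod_congr rfl fun k _ => ?_
    by_cases h : ∃ l, σ (idx k l) = J k l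
    · rw [th, if_pos h, if_pos (show sat σ (idx k, J k) from h)]; exact Real.exp_zero
    · rw [th, if_neg h, if_neg (show ¬ sat σ (idx k, J k) from h)]; exact Real.exp_log hb
  simp only [e2]
  simp [div_eq_mul_inv, mul_comm]

end Crest.Agent.R153.C
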