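import Crest.Agent.R153.Mart2
import Crest.Agent.R153.Defs

/-! Row 153: the variance of the hitting time and the upper tail above a sharp threshold. -/

set_option autoImplicit false
open Finset Function Filter Topology
open scoped BigOperators Classical
open Crest.ProbabilityR.RandomSAT

namespace Crest.Agent.R153

namespace A

variable {k n : ℕ}

lemma satProb_nonneg (m : ℕ) : 0 ≤ satProb k n m := by
  rw [satProb_eq]; exact expect_nonneg fun _ _ => io_nonneg _

lemma satProb_le_one (h : k ≤ n) (m : ℕ) : satProb k n m ≤ 1 := by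
  have := nonempty_clause h
  rw [satProb_eq]
  exact (expect_le_expect fun _ _ => io_le_one _).trans_eq (Fintype.expect_const _)

lemma satProb_anti (h : k ≤ n) {m m' : ℕ} (hm : m ≤ m') : satProb k n m' ≤ satProb k n m := by
  have := nonempty_clause h
  rw [← expect_Sm hm, ← expect_Sm (le_refl m')]
  exact expect_le_expect fun _ _ => io_mono fun h => h.mono hm

lemma satProb_zero : satProb k n 0 = 1 := by
  rw [satProb_eq, expect_congr rfl fun F _ => io_pos ⟨fun _ => true, fun j => j.elim0⟩]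
  exact Fintype.expect_const _

lemma first_moment (h : k ≤ n) (m : ℕ) : satProb k n m ≤ 2 ^ n * (1 - (1 / 2) ^ k) ^ m := by
  have := nonempty_clause h
  have hc : (0 : ℝ) < Fintype.card (Clause k n) := by exact_mod_cast Fintype.card_pos
  have h1 : ∀ F : Fin m → Clause k n, io (Satisfiable F) ≤
      ∑ σ : Fin n → Bool, ∏ j, io (ClauseSat σ (F j)) := by
    intro F
    have h0 : ∀ σ : Fin n → Bool, 0 ≤ ∏ j, io (ClauseSat σ (F j)) := fun σ =>
      prod_nonneg fun _ _ => io_nonneg _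
    by_cases h : Satisfiable F
    · obtain ⟨σ, hσ⟩ := h
      refine (io_le_one _).trans (le_trans (le_of_eq ?_) (single_le_sum (fun σ _ => h0 σ) (mem_univ σ)))
      exact (prod_eq_one fun j _ => io_pos (hσ j)).symm
    · rw [io_neg h]; exact sum_nonneg fun σ _ => h0 σ
  rw [satProb_eq]
  refine (expect_le_expect fun F _ => h1 F).trans ?_
  rw [expect_sum_comm]
  refine (sum_le_sum (g := fun _ => (1 - (1 / 2 : ℝ) ^ k) ^ m) fun σ _ => ?_).trans_eq (by simp)
  rw [Fintype.expect_eq_sum_div_card, ← Fintype.prod_sum fun (_ : Fin m) c => io (ClauseSat σ c)]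
  simp only [prod_const, card_univ, Fintype.card_fin, Fintype.card_pi, Nat.cast_pow, ← div_pow]
  refine pow_le_pow_left₀ (div_nonneg (sum_nonneg fun _ _ => io_nonneg _) hc.le) ?_ _
  rw [div_le_iff₀ hc]
  exact sum_sat_le σ

theorem variance (k : ℕ) (hk : 3 ≤ k) : ∃ C : ℝ, ∀ n : ℕ, k ≤ n →
    Summable (fun m : ℕ => satProb k n m) ∧
    Summable (fun m : ℕ => (2 * (m : ℝ) + 1) * satProb k n m) ∧
    (∑' m : ℕ, (2 * (m : ℝ) + 1) * satProb k n m) - (∑' m : ℕ, satProb k n m) ^ 2 ≤ C * n := by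
  set η : ℝ := 1 - (1 / 2) ^ k with hη
  have h0 : 0 ≤ η := sub_nonneg.2 (pow_le_one₀ (by norm_num) (by norm_num))
  have h1 : η < 1 := sub_lt_self _ (by positivity)
  obtain ⟨c, hc⟩ := exists_pow_lt_of_lt_one (show (0 : ℝ) < 1 / 2 by norm_num) h1
  have hc0 : 0 < c := Nat.pos_of_ne_zero (by rintro rfl; norm_num at hc)
  obtain ⟨R, n₀, hR, H⟩ := mart hk (C := c) (by exact_mod_cast hc0)
  have s0 : Summable fun m : ℕ => η ^ m := summable_geometric_of_lt_one h0 h1
  have s1 : Summable fun m : ℕ => (2 * (m : ℝ) + 1) * η ^ m := by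
    have := summable_pow_mul_geometric_of_norm_lt_one 1 (r := η) (by rwa [Real.norm_eq_abs, abs_of_nonneg h0])
    exact ((this.mul_left 2).add s0).congr fun m => by ring
  set T₀ := ∑' m : ℕ, η ^ m
  set T₁ := ∑' m : ℕ, (2 * (m : ℝ) + 1) * η ^ m
  have hT₀ : 0 ≤ T₀ := tsum_nonneg fun _ => by positivity
  have hT₁ : 0 ≤ T₁ := tsum_nonneg fun _ => by positivity
  refine ⟨R * c + T₁ + 2 * c * T₀ + 2 ^ n₀ * T₁, fun n hn => ?_⟩
  have hn1 : (1 : ℝ) ≤ n := by exact_mod_cast (by omega : 1 ≤ n)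
  have b1 : ∀ m : ℕ, (2 * (m : ℝ) + 1) * satProb k n m ≤ 2 ^ n * ((2 * (m : ℝ) + 1) * η ^ m) :=
    fun m => by
      rw [mul_left_comm]; exact mul_le_mul_of_nonneg_left (first_moment hn m) (by positivity)
  have a0 : Summable fun m : ℕ => satProb k n m :=
    (s0.mul_left _).of_nonneg_of_le satProb_nonneg (first_moment hn)
  have a1 : Summable fun m : ℕ => (2 * (m : ℝ) + 1) * satProb k n m :=
    (s1.mul_left _).of_nonneg_of_le (fun m => mul_nonneg (by positivity) (satProb_nonneg m)) b1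
  refine ⟨a0, a1, ?_⟩
  have e1 : 0 ≤ R * c * n := by positivity
  have e2 : 0 ≤ 2 * c * T₀ * n := by positivity
  have e3 : T₁ ≤ T₁ * n := le_mul_of_one_le_right hT₁ hn1
  have e4 : 2 ^ n₀ * T₁ ≤ 2 ^ n₀ * T₁ * n := le_mul_of_one_le_right (by positivity) hn1
  have e5 : 0 ≤ 2 ^ n₀ * T₁ := by positivity
  rcases le_total n₀ n with h | h
  · have a2 := (H n h (c * n) (by simp)).1
    have a3 : ∑ m ∈ range (c * n), satProb k n m ≤ ∑' m, satProb k n m :=
      a0.sum_le_tsum _ fun m _ => satProb_nonneg m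
    have a4 := pow_le_pow_left₀ (sum_nonneg fun m _ => satProb_nonneg m) a3 2
    have a5 : ∑' i : ℕ, (2 * ((i + c * n : ℕ) : ℝ) + 1) * satProb k n (i + c * n) ≤
        T₁ + 2 * (c * n) * T₀ := by
      rw [← tsum_mul_left, ← s1.tsum_add (s0.mul_left _)]
      refine ((summable_nat_add_iff (c * n)).2 a1).tsum_le_tsum (fun i => ?_)
        (s1.add (s0.mul_left _))
      have c1 : satProb k n (i + c * n) ≤ η ^ i := by
        refine (first_moment hn _).trans ?_
        rw [pow_add, pow_mul, mul_left_comm, ← mul_pow]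
        exact mul_le_of_le_one_right (by positivity) (pow_le_one₀ (by positivity) (by linarith))
      refine (mul_le_mul_of_nonneg_left c1 (by positivity)).trans_eq ?_
      push_cast; ring
    rw [← a1.sum_add_tsum_nat_add (c * n)]
    push_cast at a2
    linarith
  · have a2 : ∑' m : ℕ, (2 * (m : ℝ) + 1) * satProb k n m ≤ 2 ^ n * T₁ := by
      rw [← tsum_mul_left]; exact a1.tsum_le_tsum b1 (s1.mul_left _)
    have a3 : (2 : ℝ) ^ n * T₁ ≤ 2 ^ n₀ * T₁ := by gcongr; norm_num
    nlinarith [sq_nonneg (∑' m : ℕ, satProb k n m)]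

end A

open A in
theorem tail : TailStmt := by
  obtain ⟨R, n₀, hR, H⟩ := mart (k := 3) le_rfl (C := 8) (by norm_num)
  obtain ⟨R', hR'⟩ := exists_nat_gt R
  have hR0 : (0 : ℝ) < R' := hR.trans_lt hR'
  refine ⟨512 * R', by have : 0 < R' := by exact_mod_cast hR0
                       omega, fun α hα => ?_⟩
  have h0 : 0 ≤ α := by
    by_contra h
    have := (hα 0 le_rfl).2 (not_le.1 h)
    simp [satProb_zero] at this
  have h6 : α ≤ 6 := by
    by_contra h
    have h1 := (hα 6 (by norm_num)).1 (not_le.1 h)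
    have h2 : (1 : ℝ) ≤ 9 / 10 := le_of_tendsto h1 ((eventually_ge_atTop 3).mono fun n hn => by
      rw [show (6 : ℝ) * n = ((6 * n : ℕ) : ℝ) by push_cast; ring, Nat.floor_natCast]
      refine (first_moment hn _).trans ?_
      rw [pow_mul, ← mul_pow]
      exact (pow_le_of_le_one (by norm_num) (by norm_num) (by omega)).trans (by norm_num))
    norm_num at h2
  refine ⟨h0, h6, fun δ hδ hδ1 => ?_⟩
  have h1 := ((hα (α + δ / 4) (by positivity)).2 (by linarith)).eventually
    (ge_mem_nhds (show (0 : ℝ) < δ / 32 by positivity))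
  filter_upwards [h1, eventually_ge_atTop n₀, eventually_ge_atTop 3,
    tendsto_natCast_atTop_atTop.eventually_ge_atTop (4 / δ)] with n a1 a2 a3 a4
  have hn : (0 : ℝ) ≤ n := Nat.cast_nonneg _
  have b1 : (⌊(α + δ) * n⌋₊ : ℝ) ≤ (α + δ) * n := Nat.floor_le (by positivity)
  have b2 := (Nat.lt_floor_add_one ((α + δ) * n)).le
  have b3 : ⌊(α + δ) * n⌋₊ ≤ 8 * n := by
    have : (⌊(α + δ) * n⌋₊ : ℝ) ≤ 8 * n := b1.trans (by nlinarith)
    exact_mod_cast this
  have b4 : ∑ s ∈ range (8 * n), satProb 3 n s ≤ (α + δ / 2) * n := by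
    have c1 : ∀ s ∈ range (8 * n), satProb 3 n s ≤ io (s < ⌊(α + δ / 4) * n⌋₊) + δ / 32 := by
      intro s _
      by_cases h : s < ⌊(α + δ / 4) * n⌋₊
      · rw [io_pos h]; linarith [satProb_le_one a3 s]
      · rw [io_neg h, zero_add]; exact (satProb_anti a3 (not_lt.1 h)).trans a1
    refine (sum_le_sum c1).trans ?_
    rw [sum_add_distrib, sum_io]
    have c2 : (((range (8 * n)).filter fun s => s < ⌊(α + δ / 4) * n⌋₊).card : ℝ) ≤
        ⌊(α + δ / 4) * n⌋₊ := by
      exact_mod_cast (card_le_card fun s hs => mem_range.2 (mem_filter.1 hs).2).trans_eq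
        (card_range _)
    have c3 : (⌊(α + δ / 4) * n⌋₊ : ℝ) ≤ (α + δ / 4) * n := Nat.floor_le (by positivity)
    simp only [sum_const, card_range, nsmul_eq_mul]
    push_cast
    linarith
  refine ((H n a2 (8 * n) (by simp)).2 _ b3 (δ / (64 * R')) (by positivity)).trans
    (Real.exp_le_exp.2 ?_)
  rw [div_le_iff₀ hδ] at a4
  have b5 : δ * n / 4 ≤ ⌊(α + δ) * n⌋₊ - ∑ s ∈ range (8 * n), satProb 3 n s := by linarith
  have b6 := mul_le_mul_of_nonneg_left b5 (show 0 ≤ δ / (64 * R') by positivity)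
  have b7 : (δ / (64 * R')) ^ 2 * R * (8 * n : ℕ) ≤ (δ / (64 * R')) ^ 2 * R' * (8 * n : ℕ) := by
    gcongr
  have b8 : -(δ / (64 * R') * (δ * n / 4)) + (δ / (64 * R')) ^ 2 * R' * (8 * n : ℕ) =
      -(δ ^ 2 * n / (512 * R' : ℕ)) := by
    push_cast; field_simp; ring
  linarith

end Crest.Agent.R153
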